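import Vale.Agent.P087.Fock

/-!
The Bessel inequality in the Fock space.
-/

namespace Vale.Agent.P087

open scoped InnerProductSpace

variable {I G : Type} [DecidableEq I] [Group G] [DecidableEq G] {x : I → G} {σ : I → ℝ}

theorem slotSum_ones (hx : ∀ i, x i * x i = 1) :
    ∀ (w : List I) (u : List I), fockVec x σ u (1, w.map fun k => (k, (1 : G))) =
      ((w.map fun k => (σ k : ℂ)).prod) * dMom (tMom (grpMom x) σ) w u := by
  intro w
  induction w with
  | nil =>
    intro u
    have h := fockVec_eq_tMom (σ := σ) hx u []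
    simp only [List.map_nil, List.prod_nil, inv_one] at h
    simp [dMom, h]
  | cons k w ih =>
    intro u
    rw [fockVec_eq_slotSum hx, List.map_cons, slotSum, dMom, List.map_cons, List.prod_cons]
    rw [show ((cuts u).map fun c => if c.2.1 = k then
        tMom (grpMom x) σ [] c.1 * dMom (tMom (grpMom x) σ) w c.2.2 else 0).sum =
      sumCuts u fun a b c => if b = k then
        tMom (grpMom x) σ [] a * dMom (tMom (grpMom x) σ) w c else 0 from rfl, ← sumCuts_mul]
    refine sumCuts_congr fun u1 b u2 _ => ?_
    split_ifs with hb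
    · have q := fockVec_eq_tMom (σ := σ) hx u1 []
      simp only [List.map_nil, List.prod_nil, inv_one] at q
      rw [q, ← fockVec_eq_slotSum hx, ih]; ring
    · simp

/-- The vector `P (Z) Ω`. -/
noncomputable def polyVec (x : I → G) (σ : I → ℝ) (P : List I →₀ ℂ) : L2 (FB I G) :=
  ∑ u ∈ P.support, P u • fockVec x σ u

theorem polyVec_apply (P : List I →₀ ℂ) (p : FB I G) :
    polyVec x σ P p = P.sum fun u a => a * fockVec x σ u p := by
  simp only [polyVec, Finsupp.sum, lp.coeFn_sum, Finset.sum_apply, lp.coeFn_smul, Pi.smul_apply,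
    smul_eq_mul]

theorem norm_polyVec_sq (hx : ∀ i, x i * x i = 1) (P : List I →₀ ℂ) :
    ‖polyVec x σ P‖ ^ 2 = polyNormSq (tMom (grpMom x) σ []) P := by
  rw [← inner_self_eq_norm_sq (𝕜 := ℂ), polyNormSq]
  refine congrArg Complex.re ?_
  simp only [polyVec, sum_inner, inner_smul_left, Finsupp.sum]
  refine Finset.sum_congr rfl fun v _ => ?_
  rw [inner_sum, Finset.mul_sum]
  refine Finset.sum_congr rfl fun w _ => ?_
  rw [inner_smul_right, inner_fockVec hx]
  ring

theorem bessel_fock [Fintype I] (hx : ∀ i, x i * x i = 1 ∧ x i ≠ 1) (P : List I →₀ ℂ) (Q : ℕ)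
    (i : I) :
    ‖P.sum fun u a => a * tMom (grpMom x) σ [i] u‖ ^ 2 +
        ∑ q ∈ Finset.Icc 1 Q, ∑ w : Fin q → I, (∏ l, σ (w l) ^ 2) *
          ‖P.sum fun u a => a * dMom (tMom (grpMom x) σ) (List.ofFn w) u‖ ^ 2
      ≤ polyNormSq (tMom (grpMom x) σ []) P := by
  classical
  have hx1 : ∀ i, x i * x i = 1 := fun i => (hx i).1
  let pt : Option (Σ q : ℕ, Fin q → I) → FB I G := fun o =>
    o.elim (x i, []) fun w => (1, (List.ofFn w.2).map fun k => (k, (1 : G)))
  have hinj : Function.Injective pt := by
    intro a b h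
    cases a with
    | none =>
      cases b with
      | none => rfl
      | some w => exact absurd (congrArg Prod.fst h) (by simpa [pt] using (hx i).2)
    | some v =>
      cases b with
      | none => exact absurd (congrArg Prod.fst h).symm (by simpa [pt] using (hx i).2)
      | some w =>
        have h2 := congrArg (fun p : FB I G => p.2.map Prod.fst) h
        simp [pt, List.map_map, Function.comp_def] at h2
        exact congrArg some (List.ofFn_inj'.1 (by simpa using h2))
  let S : Finset (Option (Σ q : ℕ, Fin q → I)) :=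
    Finset.insertNone ((Finset.Icc 1 Q).sigma fun _ => Finset.univ)
  have hb := (orthonormal_dl (ι := FB I G)).comp pt hinj
  have hsum := hb.sum_inner_products_le (s := S) (polyVec x σ P)
  rw [norm_polyVec_sq hx1] at hsum
  refine le_trans (le_of_eq ?_) hsum
  simp only [Function.comp_apply, inner_dl, polyVec_apply, S, Finset.sum_insertNone]
  congr 1
  · have hinv : (x i)⁻¹ = x i := inv_eq_of_mul_eq_one_right (hx1 i)
    have q : ∀ u, fockVec x σ u (x i, []) = tMom (grpMom x) σ [i] u := fun u => by
      rw [← fockVec_eq_tMom hx1 u [i]]; simp [hinv]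
    simp [pt, q]
  · rw [Finset.sum_sigma]
    refine Finset.sum_congr rfl fun q _ => Finset.sum_congr rfl fun w _ => ?_
    simp only [pt, Option.elim_some, slotSum_ones hx1]
    rw [show (P.sum fun u a => a * (((List.ofFn w).map fun k => (σ k : ℂ)).prod *
        dMom (tMom (grpMom x) σ) (List.ofFn w) u)) =
      ((List.ofFn w).map fun k => (σ k : ℂ)).prod *
        P.sum fun u a => a * dMom (tMom (grpMom x) σ) (List.ofFn w) u from by
      simp only [Finsupp.sum, Finset.mul_sum]; refine Finset.sum_congr rfl fun u _ => ?_; ring]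
    rw [norm_mul, mul_pow]
    congr 1
    rw [List.map_ofFn, List.prod_ofFn, norm_prod, ← Finset.prod_pow]
    simp

theorem besselStmt : BesselStmt := by
  intro I G _ _ _ x σ hx P Q i
  classical
  exact bessel_fock hx P Q i

end Vale.Agent.P087
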