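import Vale.Agent.P087.CumulGap

/-!
Growth of the cumulants: if the moments of length `g` have square sum at most `M ^ g`, then the
cumulants of length `q + 1` have square sum at most `(1/30)² (64 M) ^ (q + 1)`.
-/

open scoped BigOperators

namespace Vale.Agent.P087.Cumul

variable {ι : Type} [Fintype ι] {P Q : Type} [Fintype P] [Fintype Q]

/-- Square sum of `A` over the words of length `g`. -/
noncomputable def sq : ℕ → (List ι → ℂ) → ℝ
  | 0, A => ‖A []‖ ^ 2
  | g + 1, A => ∑ j, sq g fun w => A (j :: w)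

theorem sq_eq_sum (g : ℕ) (A : List ι → ℂ) :
    sq g A = ∑ w : Fin g → ι, ‖A (List.ofFn w)‖ ^ 2 := by
  induction g generalizing A with
  | zero => simp [sq]
  | succ g ih =>
    rw [show sq (g + 1) A = ∑ j, sq g fun w => A (j :: w) from rfl,
      ← (Fin.consEquiv fun _ => ι).sum_comp, Fintype.sum_prod_type]
    exact Finset.sum_congr rfl fun j _ => by rw [ih]; simp [Fin.consEquiv]

theorem sq_nonneg' (g : ℕ) (A : List ι → ℂ) : 0 ≤ sq g A := by
  rw [sq_eq_sum]; positivity

theorem sq_mul (g : ℕ) (A : List ι → ℂ) (c : ℂ) : sq g (fun w => c * A w) = ‖c‖ ^ 2 * sq g A := by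
  simp [sq_eq_sum, mul_pow, Finset.mul_sum]

/-- The norm of the level `g` of a family. -/
noncomputable def nrm (g : ℕ) (A : P → List ι → ℂ) : ℝ := Real.sqrt (∑ p, sq g (A p))

/-- Absorb the first letter into the parameter. -/
def shift (A : P → List ι → ℂ) : P × ι → List ι → ℂ := fun pj w => A pj.1 (pj.2 :: w)

theorem nrm_nonneg (g : ℕ) (A : P → List ι → ℂ) : 0 ≤ nrm g A := Real.sqrt_nonneg _

theorem nrm_succ (g : ℕ) (A : P → List ι → ℂ) : nrm (g + 1) A = nrm g (shift A) := by
  simp only [nrm, sq, Fintype.sum_prod_type]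
  rfl

theorem nrm_equiv (e : Q ≃ P) (g : ℕ) (A : P → List ι → ℂ) :
    nrm g (fun q => A (e q)) = nrm g A := by
  rw [nrm, nrm, e.sum_comp fun p => sq g (A p)]

theorem nrm_add (g : ℕ) (A B : P → List ι → ℂ) :
    nrm g (fun p w => A p w + B p w) ≤ nrm g A + nrm g B := by
  have h := Real.Lp_add_le (Finset.univ : Finset (P × (Fin g → ι)))
    (fun pw => ‖A pw.1 (List.ofFn pw.2)‖) (fun pw => ‖B pw.1 (List.ofFn pw.2)‖) (p := 2) one_le_two
  refine le_trans ?_ (le_of_le_of_eq h (by simp [nrm, sq_eq_sum, Fintype.sum_prod_type, Real.sqrt_eq_rpow]))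
  simp only [nrm, sq_eq_sum, Real.sqrt_eq_rpow, Fintype.sum_prod_type, abs_of_nonneg, add_nonneg,
    norm_nonneg, Real.rpow_two]
  gcongr
  exact norm_add_le _ _

theorem nrm_prod (g : ℕ) (c : Q → ℂ) (B : P → List ι → ℂ) :
    nrm g (fun (qp : Q × P) w => c qp.1 * B qp.2 w) = Real.sqrt (∑ q, ‖c q‖ ^ 2) * nrm g B := by
  simp only [nrm, sq_mul, Fintype.sum_prod_type, ← Finset.mul_sum, ← Finset.sum_mul]
  rw [Real.sqrt_mul (by positivity)]

theorem nrm_zero (A : P → List ι → ℂ) : nrm 0 A = Real.sqrt (∑ p, ‖A p []‖ ^ 2) := rfl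

/-- Weighted sum of the levels below `n`. -/
noncomputable def ser (x : ℝ) (n : ℕ) (A : P → List ι → ℂ) : ℝ :=
  ∑ g ∈ Finset.range n, x ^ g * nrm g A

theorem ser_nonneg {x : ℝ} (hx : 0 ≤ x) (n : ℕ) (A : P → List ι → ℂ) : 0 ≤ ser x n A :=
  Finset.sum_nonneg fun g _ => mul_nonneg (pow_nonneg hx g) (nrm_nonneg g A)

theorem ser_mono {x : ℝ} (hx : 0 ≤ x) {n k : ℕ} (h : n ≤ k) (A : P → List ι → ℂ) :
    ser x n A ≤ ser x k A :=
  Finset.sum_le_sum_of_subset_of_nonneg (by simpa) fun g _ _ =>
    mul_nonneg (pow_nonneg hx g) (nrm_nonneg g A)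

theorem ser_succ (x : ℝ) (n : ℕ) (A : P → List ι → ℂ) :
    ser x (n + 1) A = nrm 0 A + x * ser x n (shift A) := by
  simp only [ser, Finset.sum_range_succ', pow_zero, one_mul, nrm_succ, Finset.mul_sum]
  rw [add_comm]
  congr 1
  exact Finset.sum_congr rfl fun g _ => by ring

theorem ser_F {x : ℝ} (hx : 0 ≤ x) (G : List ι → ℂ) {S T : Type} [Fintype S] [Fintype T]
    (n : ℕ) (L : S → List ι → ℂ) (A : T → List ι → ℂ) :
    ser x (n + 1) (fun (st : S × T) => F G (L st.1) (A st.2))
      ≤ x * ser x n L * ser x n (fun tj => E G G (shift A tj)) := by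
  induction n generalizing S L with
  | zero => simp [ser, nrm_zero, F]
  | succ n ih =>
    set e := ser x (n + 1) (fun tj => E G G (shift A tj)) with he
    have he0 : 0 ≤ e := ser_nonneg hx _ _
    have h0 : nrm 0 (fun (st : S × T) => F G (L st.1) (A st.2)) = 0 := by simp [nrm_zero, F]
    rw [ser_succ, h0, zero_add]
    have h1 : ser x (n + 1) (shift fun (st : S × T) => F G (L st.1) (A st.2))
        ≤ ser x (n + 1) (fun (st : (S × ι) × T) => F G (shift L st.1) (A st.2))
          + nrm 0 L * e := by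
      simp only [ser, he, Finset.mul_sum, ← Finset.sum_add_distrib]
      refine Finset.sum_le_sum fun g _ => ?_
      let e₁ : (S × T) × ι ≃ (S × ι) × T :=
        { toFun := fun p => ((p.1.1, p.2), p.1.2)
          invFun := fun p => ((p.1.1, p.2), p.1.2)
          left_inv := fun _ => rfl
          right_inv := fun _ => rfl }
      have hg := nrm_add g
        (fun p => F G (shift L (e₁ p).1) (A (e₁ p).2))
        (fun p w => L ((Equiv.prodAssoc S T ι) p).1 []
          * E G G (shift A ((Equiv.prodAssoc S T ι) p).2) w)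
      rw [nrm_equiv e₁ g fun (st : (S × ι) × T) => F G (shift L st.1) (A st.2),
        nrm_equiv (Equiv.prodAssoc S T ι) g
          fun (st : S × T × ι) w => L st.1 [] * E G G (shift A st.2) w,
        nrm_prod g (fun s => L s []) fun tj => E G G (shift A tj), ← nrm_zero] at hg
      refine le_trans (mul_le_mul_of_nonneg_left hg (pow_nonneg hx g)) (le_of_eq ?_)
      ring
    calc x * ser x (n + 1) (shift fun (st : S × T) => F G (L st.1) (A st.2))
        ≤ x * (x * ser x n (shift L) * e + nrm 0 L * e) := by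
          refine mul_le_mul_of_nonneg_left (h1.trans (add_le_add ?_ le_rfl)) hx
          exact (ih (shift L)).trans (mul_le_mul_of_nonneg_left (ser_mono hx n.le_succ _)
            (mul_nonneg hx (ser_nonneg hx _ _)))
      _ = x * ser x (n + 1) L * e := by rw [ser_succ x n L]; ring

theorem ser_E {x u : ℝ} (hx : 0 ≤ x) (hu : 0 ≤ u) (G : List ι → ℂ) {T : Type} [Fintype T]
    (n : ℕ) (hG : ser x n (fun _ : Unit => G) ≤ u) (A : T → List ι → ℂ) :
    ser x n (fun t => E G G (A t)) ≤ ∑ p ∈ Finset.range n, x ^ p * u ^ (p + 1) * nrm p A := by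
  induction n generalizing T with
  | zero => simp [ser]
  | succ n ih =>
    have h1 : ser x (n + 1) (fun t => E G G (A t))
        ≤ ser x (n + 1) (fun _ : Unit => G) * nrm 0 A
          + ser x (n + 1) (fun (st : Unit × T) => F G G (A st.2)) := by
      simp only [ser, Finset.sum_mul, ← Finset.sum_add_distrib]
      refine Finset.sum_le_sum fun g _ => ?_
      have hA : (fun (t : T) => E G G (A t))
          = fun t w => A ((Equiv.prodUnique T Unit).symm t).1 [] * G w
            + F G G (A ((Equiv.punitProd T).symm t).2) w := by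
        funext t w
        rw [E_eq_F, mul_comm]
        rfl
      have hg := nrm_add g (fun t w => A ((Equiv.prodUnique T Unit).symm t).1 [] * G w)
        (fun t => F G G (A ((Equiv.punitProd T).symm t).2))
      rw [nrm_equiv (Equiv.prodUnique T Unit).symm g fun (st : T × Unit) w => A st.1 [] * G w,
        nrm_equiv (Equiv.punitProd T).symm g fun (st : Unit × T) => F G G (A st.2),
        nrm_prod g (fun t => A t []) fun _ : Unit => G, ← nrm_zero] at hg
      rw [hA]
      refine (mul_le_mul_of_nonneg_left hg (pow_nonneg hx g)).trans (le_of_eq ?_)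
      ring
    refine h1.trans ((add_le_add le_rfl (ser_F hx G n (fun _ => G) A)).trans ?_)
    rw [Finset.sum_range_succ', add_comm]
    refine add_le_add ?_ ?_
    · have hG' := (ser_mono hx n.le_succ _).trans hG
      refine (mul_le_mul (mul_le_mul_of_nonneg_left hG' hx) (ih hG' (shift A))
        (ser_nonneg hx _ _) (mul_nonneg hx hu)).trans (le_of_eq ?_)
      rw [Finset.mul_sum]
      exact Finset.sum_congr rfl fun p _ => by rw [nrm_succ]; ring
    · simpa using mul_le_mul_of_nonneg_right hG (nrm_nonneg 0 A)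

variable {m : List ι → ℂ} {M : ℝ}

theorem tail_sum_le (n : ℕ) :
    ∑ p ∈ Finset.range n, (if p = 0 then (0 : ℝ) else (1 / 6) ^ (p + 1)) ≤ 1 / 30 := by
  suffices h : ∀ n : ℕ, ∑ p ∈ Finset.range (n + 1), (if p = 0 then (0 : ℝ) else (1 / 6) ^ (p + 1))
      ≤ 1 / 30 * (1 - (1 / 6) ^ n) by
    cases n with
    | zero => norm_num
    | succ n => exact (h n).trans (by linarith [pow_pos (by norm_num : (0:ℝ) < 1 / 6) n])
  intro n
  induction n with
  | zero => norm_num
  | succ n ih =>
    rw [Finset.sum_range_succ, if_neg (by omega), pow_succ, pow_succ]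
    linarith

theorem first_le {s : ℝ} (hs : 0 < s) (h1 : ∀ i, m [i] = 0)
    (hg : ∀ g, sq g m ≤ (s ^ g) ^ 2) (n : ℕ) (hu : ser (1 / (8 * s)) n (fun _ : Unit => inv m) ≤ 4 / 3) :
    1 / (8 * s) * ser (1 / (8 * s)) n (fun i => E (inv m) (inv m) fun w => m (i :: w)) ≤ 1 / 30 := by
  have hx : (0 : ℝ) ≤ 1 / (8 * s) := by positivity
  refine (mul_le_mul_of_nonneg_left (ser_E hx (by norm_num) _ n hu _) hx).trans ?_
  rw [Finset.mul_sum]
  refine (Finset.sum_le_sum fun p _ => ?_).trans (tail_sum_le n)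
  split_ifs with hp
  · subst hp
    simp [nrm_zero, h1]
  · have hn : nrm p (fun i w => m (i :: w)) ≤ s ^ (p + 1) := by
      rw [nrm, show (∑ i, sq p fun w => m (i :: w)) = sq (p + 1) m from rfl]
      exact Real.sqrt_le_iff.2 ⟨by positivity, hg _⟩
    refine (mul_le_mul_of_nonneg_left
      (mul_le_mul_of_nonneg_left hn (by positivity)) hx).trans (le_of_eq ?_)
    rw [show (1 : ℝ) / 6 = 1 / (8 * s) * (4 / 3) * s by field_simp; norm_num]
    simp only [mul_pow, pow_succ]
    ring

theorem inv_ser_le {s : ℝ} (hs : 0 < s) (h1 : ∀ i, m [i] = 0) (hg : ∀ g, sq g m ≤ (s ^ g) ^ 2)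
    (n : ℕ) : ser (1 / (8 * s)) n (fun _ : Unit => inv m) ≤ 4 / 3 := by
  induction n with
  | zero => norm_num [ser]
  | succ n ih =>
    set x := 1 / (8 * s) with hxdef
    have hx : 0 ≤ x := by positivity
    have hinv : (fun _ : Unit => inv m) = fun (_ : Unit) w => eps w
        + (-1) * F (inv m) (inv m) m w := by
      funext _ w
      rw [inv_eq]; ring
    have hneg : ∀ g, nrm g (fun (_ : Unit) w => (-1 : ℂ) * F (inv m) (inv m) m w)
        = nrm g fun _ : Unit × Unit => F (inv m) (inv m) m := fun g => by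
      simp only [nrm, sq_mul, Fintype.sum_unique]
      norm_num
    have heps : ser x (n + 1) (fun _ : Unit => (eps : List ι → ℂ)) = 1 := by
      have h0 : ∀ g, nrm g (shift fun _ : Unit => (eps : List ι → ℂ)) = 0 := fun g => by
        simp [nrm, shift, eps, sq_eq_sum]
      rw [ser_succ, show ser x n (shift fun _ : Unit => (eps : List ι → ℂ)) = 0 from
        Finset.sum_eq_zero fun g _ => by rw [h0, mul_zero]]
      simp [nrm_zero, eps]
    have h2 : ser x (n + 1) (fun _ : Unit => inv m) ≤ ser x (n + 1) (fun _ : Unit => (eps : List ι → ℂ))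
        + ser x (n + 1) (fun _ : Unit × Unit => F (inv m) (inv m) m) := by
      rw [hinv]
      simp only [ser, ← Finset.sum_add_distrib, ← mul_add, ← hneg]
      exact Finset.sum_le_sum fun g _ =>
        mul_le_mul_of_nonneg_left (nrm_add g _ _) (pow_nonneg hx g)
    have h3 := ser_F hx (inv m) n (fun _ : Unit => inv m) (fun _ : Unit => m)
    have hsh : ser x n (fun tj => E (inv m) (inv m) (shift (fun _ : Unit => m) tj))
        = ser x n fun i => E (inv m) (inv m) fun w => m (i :: w) :=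
      Finset.sum_congr rfl fun g _ => by
        rw [← nrm_equiv (Equiv.punitProd ι)]
        rfl
    rw [hsh] at h3
    have h4 := first_le hs h1 hg n ih
    have h6 : x * ser x n (fun _ : Unit => inv m)
        * ser x n (fun i => E (inv m) (inv m) fun w => m (i :: w)) ≤ 4 / 3 * (1 / 30) := by
      rw [mul_comm x, mul_assoc]
      exact mul_le_mul ih h4 (mul_nonneg hx (ser_nonneg hx _ _)) (by norm_num)
    linarith

/-- Growth of the cumulants. -/
theorem kappa_growth (hM : 0 < M) (h1 : ∀ i, m [i] = 0) (hg : ∀ g, sq g m ≤ M ^ g) (q : ℕ) :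
    ∑ i, sq q (kappa m i) ≤ (1 / 30) ^ 2 * (64 * M) ^ (q + 1) := by
  set s := Real.sqrt M with hs'
  have hs : 0 < s := Real.sqrt_pos.2 hM
  have hsM : s ^ 2 = M := Real.sq_sqrt hM.le
  have hg' : ∀ g, sq g m ≤ (s ^ g) ^ 2 := fun g => by rw [← pow_mul', pow_mul, hsM]; exact hg g
  set x := 1 / (8 * s) with hxdef
  have hx : 0 < x := by positivity
  have h := first_le hs h1 hg' (q + 1) (inv_ser_le hs h1 hg' (q + 1))
  have hterm : x ^ q * nrm q (fun i => kappa m i)
      ≤ ser x (q + 1) fun i => E (inv m) (inv m) fun w => m (i :: w) :=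
    Finset.single_le_sum (f := fun g => x ^ g * nrm g fun i => kappa m i)
      (fun g _ => mul_nonneg (pow_nonneg hx.le g) (nrm_nonneg g _)) (Finset.self_mem_range_succ q)
  have h2 : x ^ (q + 1) * nrm q (fun i => kappa m i) ≤ 1 / 30 := by
    rw [pow_succ', mul_assoc]
    exact (mul_le_mul_of_nonneg_left hterm hx.le).trans h
  have h3 := pow_le_pow_left₀ (mul_nonneg (pow_nonneg hx.le _) (nrm_nonneg _ _)) h2 2
  rw [mul_pow, nrm, Real.sq_sqrt (Finset.sum_nonneg fun i _ => sq_nonneg' q _)] at h3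
  have hx2 : (x ^ (q + 1)) ^ 2 * (64 * M) ^ (q + 1) = 1 := by
    rw [← pow_mul', pow_mul, ← mul_pow, hxdef,
      show (1 / (8 * s)) ^ 2 * (64 * M) = 1 by rw [← hsM]; field_simp; ring, one_pow]
  calc ∑ i, sq q (kappa m i)
      = ((x ^ (q + 1)) ^ 2 * ∑ i, sq q (kappa m i)) * (64 * M) ^ (q + 1) := by
        rw [mul_comm ((x ^ (q + 1)) ^ 2), mul_assoc, hx2, mul_one]
    _ ≤ _ := mul_le_mul_of_nonneg_right h3 (by positivity)

end Vale.Agent.P087.Cumul
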