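import Vale.Agent.P087.Interfaces
import Vale.Agent.P087.CumulNorm

/-!
Module Cumul: the cumulant identity for `tMom` and the growth of the cumulants.
-/

namespace Vale.Agent.P087.Cumul

variable {ι : Type} {R : Type} [CommRing R]

section Cv

variable [DecidableEq ι]

/-- Sum over the occurrences of the letter `s` of `Φ` before it times `L` after it. -/
def Cv (s : ι) : (List ι → R) → (List ι → R) → List ι → R
  | _, _, [] => 0
  | Φ, L, j :: b => (if j = s then Φ [] * L b else 0) + Cv s (fun a => Φ (j :: a)) L b

theorem Cv_eq_sum (s : ι) (Φ L : List ι → R) (v : List ι) :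
    Cv s Φ L v = ∑ k : Fin v.length,
      if v.get k = s then Φ (v.take k) * L (v.drop (k + 1)) else 0 := by
  induction v generalizing Φ with
  | nil => simp [Cv]
  | cons j b ih =>
    show (if j = s then Φ [] * L b else 0) + Cv s (fun a => Φ (j :: a)) L b = _
    rw [ih]
    simp [Fin.sum_univ_succ]

theorem Cv_congr {s : ι} {Φ L L' : List ι → R} {v : List ι}
    (hL : ∀ w : List ι, w.length < v.length → L w = L' w) : Cv s Φ L v = Cv s Φ L' v := by
  rw [Cv_eq_sum, Cv_eq_sum]
  refine Finset.sum_congr rfl fun k _ => ?_
  rw [hL _ (by have := k.isLt; simp only [List.length_drop]; omega)]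

theorem Cv_add_right (s : ι) (Φ L L' : List ι → R) (v : List ι) :
    Cv s Φ (fun w => L w + L' w) v = Cv s Φ L v + Cv s Φ L' v := by
  simp only [Cv_eq_sum, ← Finset.sum_add_distrib]
  refine Finset.sum_congr rfl fun k _ => ?_
  split_ifs <;> ring

theorem Cv_smul_right (s : ι) (Φ L : List ι → R) (c : R) (v : List ι) :
    Cv s Φ (fun w => c * L w) v = c * Cv s Φ L v := by
  simp only [Cv_eq_sum, Finset.mul_sum]
  refine Finset.sum_congr rfl fun k _ => ?_
  split_ifs <;> ring

/-- A convolution in the leading gap comes out of `E`. -/
theorem E_Cv (s : ι) (G Φ L A : List ι → R) (v : List ι) :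
    E G (Cv s Φ L) A v = Cv s Φ (E G L A) v := by
  induction v generalizing Φ A with
  | nil => simp [E, Cv]
  | cons j b ih =>
    have h1 : (fun a => Cv s Φ L (j :: a))
        = fun a => (if j = s then Φ [] else 0) * L a + Cv s (fun a => Φ (j :: a)) L a := by
      funext a
      show (if j = s then Φ [] * L a else 0) + _ = _
      split_ifs <;> simp
    show E G (fun a => Cv s Φ L (j :: a)) A b + Cv s Φ L [] * E G G (fun w => A (j :: w)) b
      = (if j = s then Φ [] * E G L A b else 0) + Cv s (fun a => Φ (j :: a)) (E G L A) b
    rw [h1, E_add_left, E_smul_left, ih, show Cv s Φ L [] = 0 from rfl]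
    split_ifs <;> simp

end Cv

variable [DecidableEq ι]

/-- Gap sum over a word of `X`'s followed by a word of `Z`'s. -/
def X (T : List ι → List ι → R) :
    (List ι → List ι → R) → (List ι → R) → List ι → List ι → R
  | L, A, [], u => E (T []) (L []) A u
  | L, A, j :: a, u =>
    X T (fun b => L (j :: b)) A a u + L [] [] * X T T (fun w => A (j :: w)) a u

/-- The recursion of `tMom`, for a function used as leading gap. -/
def Rule (T : List ι → List ι → R) (c : ι → R) (L : List ι → List ι → R) : Prop :=
  ∀ (a : List ι) (k : ι) (u : List ι),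
    L a (k :: u) = L (a ++ [k]) u + c k * Cv k (T []) (L a) u

omit [DecidableEq ι] in
theorem X_nil (T L : List ι → List ι → R) (A : List ι → R) (a : List ι) :
    X T L A a [] = E (fun v => T v []) (fun v => L v []) A a := by
  induction a generalizing L A with
  | nil => rfl
  | cons j a ih =>
    show X T (fun b => L (j :: b)) A a [] + L [] [] * X T T (fun w => A (j :: w)) a [] = _
    rw [ih, ih]
    rfl

theorem X_rule {T L : List ι → List ι → R} {c : ι → R} (hT : Rule T c T) (hL : Rule T c L)
    (A : List ι → R) : Rule T c (X T L A) := by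
  intro a k u
  induction a generalizing L A with
  | nil =>
    show E (T []) (fun b => L [] (k :: b)) A u + L [] [] * E (T []) (T []) (fun w => A (k :: w)) u
      = X T L A [k] u + c k * Cv k (T []) (E (T []) (L []) A) u
    rw [show (fun b => L [] (k :: b)) = fun b => L [k] b + c k * Cv k (T []) (L []) b from
      funext (hL [] k), E_add_left, E_smul_left, E_Cv]
    show _ = E (T []) (L [k]) A u + L [] [] * E (T []) (T []) (fun w => A (k :: w)) u + _
    ring
  | cons j a ih =>
    show X T (fun b => L (j :: b)) A a (k :: u) + L [] [] * X T T (fun w => A (j :: w)) a (k :: u)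
      = X T (fun b => L (j :: b)) A (a ++ [k]) u + L [] [] * X T T (fun w => A (j :: w)) (a ++ [k]) u
        + c k * Cv k (T []) (fun w => X T (fun b => L (j :: b)) A a w
          + L [] [] * X T T (fun w => A (j :: w)) a w) u
    rw [Cv_add_right, Cv_smul_right, ih hT,
      ih (L := fun b => L (j :: b)) (fun b k u => hL (j :: b) k u) A]
    ring

/-- The cumulant identity. -/
theorem moment_identity {T : List ι → List ι → R} {c : ι → R} (m : List ι → R) (hm : m [] = 1)
    (h0 : ∀ v, T v [] = m v) (hT : Rule T c T) (i : ι) (a u : List ι) :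
    T (i :: a) u = X T T (kappa m i) a u := by
  induction hn : u.length using Nat.strong_induction_on generalizing a u with
  | h n ih =>
    subst hn
    cases u with
    | nil => rw [X_nil, funext h0, h0]; exact moment_eq_expand_kappa m hm i a
    | cons k u =>
      have hu : u.length < (k :: u).length := by simp
      rw [hT, X_rule hT hT, List.cons_append, ih _ hu (a ++ [k]) u rfl]
      congr 2
      exact Cv_congr fun w hw => ih _ (by simp only [List.length_cons]; omega) a w rfl

theorem cuts_sum {R : Type} [Ring R] (k : ι) (Φ L : List ι → R) (u : List ι) :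
    ((cuts u).map fun c => if c.2.1 = k then Φ c.1 * L c.2.2 else 0).sum
      = ∑ l : Fin u.length, if u.get l = k then Φ (u.take l) * L (u.drop (l + 1)) else 0 := by
  induction u generalizing Φ with
  | nil => simp [cuts]
  | cons j b ih =>
    simp only [cuts, List.map_cons, List.map_map, List.sum_cons, Function.comp_def]
    rw [ih fun a => Φ (j :: a)]
    simp [Fin.sum_univ_succ]

theorem cuts_Cv (k : ι) (Φ L : List ι → R) (u : List ι) :
    ((cuts u).map fun c => if c.2.1 = k then Φ c.1 * L c.2.2 else 0).sum = Cv k Φ L u := by
  rw [cuts_sum, Cv_eq_sum]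

omit [DecidableEq ι] in
theorem E_eps_right (G L : List ι → R) (v : List ι) : E G L eps v = L v := by
  induction v generalizing L with
  | nil => simp [E, eps]
  | cons j b ih =>
    show E G (fun a => L (j :: a)) eps b + L [] * E G G (fun w => eps (j :: w)) b = L (j :: b)
    rw [ih, show (fun w => (eps (j :: w) : R)) = fun _ => 0 from rfl, E_zero_right]
    simp

theorem E_single (G L : List ι → R) (k : ι) (w v : List ι) :
    E G L (fun x => if x = k :: w then 1 else 0) v
      = Cv k L (E G G fun x => if x = w then 1 else 0) v := by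
  induction v generalizing L with
  | nil => simp [E, Cv]
  | cons j b ih =>
    show E G (fun a => L (j :: a)) (fun x => if x = k :: w then 1 else 0) b
        + L [] * E G G (fun x => if j :: x = k :: w then 1 else 0) b
      = (if j = k then L [] * E G G (fun x => if x = w then 1 else 0) b else 0)
        + Cv k (fun a => L (j :: a)) (E G G fun x => if x = w then 1 else 0) b
    rw [ih]
    by_cases h : j = k
    · simp [h, add_comm]
    · simp [h, E_zero_right]

theorem dMom_eq (T : List ι → List ι → ℂ) (w u : List ι) :
    dMom T w u = E (T []) (T []) (fun x => if x = w then 1 else 0) u := by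
  induction w generalizing u with
  | nil =>
    rw [show (fun x : List ι => if x = [] then (1 : ℂ) else 0) = eps from
      funext fun x => by cases x <;> simp [eps], E_eps_right]
    rfl
  | cons k w ih =>
    show ((cuts u).map fun c => if c.2.1 = k then T [] c.1 * dMom T w c.2.2 else 0).sum = _
    rw [cuts_Cv, E_single, funext ih]

theorem tAux_stable (m : List ι → ℂ) (σ : ι → ℝ) :
    ∀ (f : ℕ) (v u : List ι), u.length ≤ f → tAux m σ f v u = tMom m σ v u := by
  intro f
  induction f using Nat.strong_induction_on with
  | h f ih =>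
    intro v u hu
    rcases u with _ | ⟨k, u⟩
    · cases f <;> rfl
    obtain ⟨f', rfl⟩ : ∃ f', f = f' + 1 := ⟨f - 1, by simp at hu; omega⟩
    simp only [List.length_cons, Nat.add_le_add_iff_right] at hu
    rcases eq_or_lt_of_le hu with h | h
    · rw [tMom, List.length_cons, h]
    show tAux m σ f' (v ++ [k]) u + _ = tAux m σ u.length (v ++ [k]) u + _
    rw [ih f' (by omega) _ u hu, ih u.length (by omega) _ u le_rfl, cuts_sum k (tAux m σ f' [])
      (tAux m σ f' v), cuts_sum k (tAux m σ u.length []) (tAux m σ u.length v)]
    congr 2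
    refine Finset.sum_congr rfl fun l _ => ?_
    have h1 : (u.take l).length ≤ u.length := by simp
    have h2 : (u.drop (l + 1)).length ≤ u.length := by simp
    rw [ih f' (by omega) [] _ (h1.trans hu), ih f' (by omega) v _ (h2.trans hu),
      ih u.length (by omega) [] _ h1, ih u.length (by omega) v _ h2]

theorem tMom_rule (m : List ι → ℂ) (σ : ι → ℝ) :
    Rule (tMom m σ) (fun k => (σ k : ℂ) ^ 2) (tMom m σ) := by
  intro a k u
  show tAux m σ u.length (a ++ [k]) u + _ = tMom m σ (a ++ [k]) u + _
  rw [tAux_stable m σ _ _ u le_rfl, cuts_sum k (tAux m σ u.length []) (tAux m σ u.length a),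
    Cv_eq_sum]
  congr 2
  refine Finset.sum_congr rfl fun l _ => ?_
  rw [tAux_stable m σ _ [] _ (by simp), tAux_stable m σ _ a _ (by simp)]

end Vale.Agent.P087.Cumul

namespace Vale.Agent.P087

open Cumul

theorem cumulStmt : CumulStmt := by
  intro I _ _ m M hm h1 hM hg
  let κ : List I → ℂ
    | [] => 0
    | i :: w => kappa m i w
  have hκ1 : ∀ i, kappa m i [] = 0 := fun i => by simp [kappa, expand, E, h1]
  refine ⟨κ, fun i j => ?_, fun σ i u d hd => ?_, fun q hq => ?_⟩
  · show kappa m i [j] = m [i, j]
    simp [kappa, expand, E, inv_nil, h1]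
  · set T := tMom m σ
    have hid : T [i] u = E (T []) (T []) (kappa m i) u :=
      moment_identity m hm (fun v => rfl) (tMom_rule m σ) i [] u
    rw [hid]
    let s : Finset (List I) := (Finset.Icc 1 d).biUnion fun q =>
      Finset.univ.image (List.ofFn : (Fin q → I) → List I)
    have hs : ∀ x : List I, x ∈ s ↔ 1 ≤ x.length ∧ x.length ≤ d := fun x => by
      simp only [s, Finset.mem_biUnion, Finset.mem_Icc, Finset.mem_image, Finset.mem_univ, true_and]
      constructor
      · rintro ⟨q, hq, f, rfl⟩; simpa using hq
      · exact fun h => ⟨x.length, h, x.get, List.ofFn_get x⟩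
    have hdis : ((Finset.Icc 1 d : Finset ℕ) : Set ℕ).PairwiseDisjoint fun q =>
        Finset.univ.image (List.ofFn : (Fin q → I) → List I) := by
      intro a _ b _ hab
      simp only [Function.onFun, Finset.disjoint_left, Finset.mem_image, Finset.mem_univ, true_and]
      rintro _ ⟨f, rfl⟩ ⟨g, hg⟩
      exact hab (by simpa using (congrArg List.length hg).symm)
    have hA : ∀ x : List I, x.length ≤ u.length →
        kappa m i x = ∑ w ∈ s, kappa m i w * if x = w then 1 else 0 := fun x hx => by
      rcases Nat.eq_zero_or_pos x.length with h | h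
      · rw [List.length_eq_zero_iff.1 h, hκ1]
        refine (Finset.sum_eq_zero fun w hw => ?_).symm
        have hw1 := ((hs w).1 hw).1
        rw [if_neg (by rintro rfl; simp at hw1), mul_zero]
      · simp [hs, show 1 ≤ x.length from h, show x.length ≤ d by omega]
    have hsum : ∀ (t : Finset (List I)), E (T []) (T []) (fun x => ∑ w ∈ t,
        kappa m i w * if x = w then 1 else 0) u = ∑ w ∈ t, kappa m i w * dMom T w u := by
      intro t
      induction t using Finset.induction with
      | empty => simp [E_zero_right]
      | insert a t ha ih =>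
        simp only [Finset.sum_insert ha]
        rw [E_add_right, E_smul_right, ih, dMom_eq]
    rw [E_congr (fun _ _ => rfl) (fun _ _ => rfl) hA, hsum, Finset.sum_biUnion hdis]
    exact Finset.sum_congr rfl fun q _ =>
      Finset.sum_image fun a _ b _ h => List.ofFn_injective h
  · obtain ⟨p, rfl⟩ : ∃ p, q = p + 1 := ⟨q - 1, by omega⟩
    rw [← sq_eq_sum]
    refine le_trans (kappa_growth (by linarith) h1 (fun g => ?_) p) ?_
    · rw [sq_eq_sum]; exact hg g
    · exact mul_le_mul_of_nonneg_right (by norm_num) (by positivity)

end Vale.Agent.P087
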