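import Mathlib

/-!
Gap composition of functions on words, the moment to cumulant inversion, and the identity
expressing the moments `τ(X_i P(X + σ S))` through the cumulants of `X`.

`expand G A v` sums, over the subsequences of `v`, the value of `A` at the subsequence times the
product of `G` over the gaps (the first and the last gap included).
-/

namespace Vale.Agent.P087.Cumul

variable {ι R : Type*} [CommRing R]

/-- The value at the empty word of the gap monoid: one at the empty word, zero elsewhere. -/
def eps : List ι → R
  | [] => 1
  | _ :: _ => 0

/-- Sum over subsequences with leading gap weighted by `L` and all later gaps by `G`. -/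
def E (G : List ι → R) : (List ι → R) → (List ι → R) → List ι → R
  | L, A, [] => L [] * A []
  | L, A, j :: b => E G (fun a => L (j :: a)) A b + L [] * E G G (fun w => A (j :: w)) b

/-- `E` without the term of the empty subsequence. -/
def F (G : List ι → R) : (List ι → R) → (List ι → R) → List ι → R
  | _, _, [] => 0
  | L, A, j :: b => F G (fun a => L (j :: a)) A b + L [] * E G G (fun w => A (j :: w)) b

/-- Sum over subsequences with every gap weighted by `G`. -/
def expand (G A : List ι → R) : List ι → R := E G G A

theorem E_eq_F (G L A : List ι → R) (v : List ι) : E G L A v = L v * A [] + F G L A v := by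
  induction v generalizing L A with
  | nil => simp [E, F]
  | cons j b ih => simp only [E, F, ih (fun a => L (j :: a))]; ring

theorem E_zero_left (G A : List ι → R) (v : List ι) : E G (fun _ => 0) A v = 0 := by
  induction v generalizing A with
  | nil => simp [E]
  | cons j b ih => simp [E, ih]

theorem E_zero_right (G L : List ι → R) (v : List ι) : E G L (fun _ => 0) v = 0 := by
  induction v generalizing L with
  | nil => simp [E]
  | cons j b ih => simp [E, ih]

theorem E_add_left (G L L' A : List ι → R) (v : List ι) :
    E G (fun a => L a + L' a) A v = E G L A v + E G L' A v := by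
  induction v generalizing L L' A with
  | nil => simp [E, add_mul]
  | cons j b ih =>
    simp only [E, ih (fun a => L (j :: a)) (fun a => L' (j :: a))]
    ring

theorem E_smul_left (G L A : List ι → R) (c : R) (v : List ι) :
    E G (fun a => c * L a) A v = c * E G L A v := by
  induction v generalizing L A with
  | nil => simp [E, mul_assoc]
  | cons j b ih =>
    simp only [E, ih (fun a => L (j :: a))]
    ring

theorem E_add_right (G L A A' : List ι → R) (v : List ι) :
    E G L (fun w => A w + A' w) v = E G L A v + E G L A' v := by
  induction v generalizing L A A' with
  | nil => simp [E, mul_add]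
  | cons j b ih =>
    simp only [E, ih (fun a => L (j :: a)) A A',
      ih G (fun w => A (j :: w)) (fun w => A' (j :: w))]
    ring

theorem E_smul_right (G L A : List ι → R) (c : R) (v : List ι) :
    E G L (fun w => c * A w) v = c * E G L A v := by
  induction v generalizing L A with
  | nil => simp [E]; ring
  | cons j b ih =>
    simp only [E, ih (fun a => L (j :: a)) A, ih G (fun w => A (j :: w))]
    ring

/-- `E` at `v` only sees its arguments on words no longer than `v`. -/
theorem E_congr {G G' L L' A A' : List ι → R} {v : List ι}
    (hG : ∀ w : List ι, w.length < v.length → G w = G' w)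
    (hL : ∀ w : List ι, w.length ≤ v.length → L w = L' w)
    (hA : ∀ w : List ι, w.length ≤ v.length → A w = A' w) : E G L A v = E G' L' A' v := by
  induction v generalizing L L' A A' with
  | nil => simp [E, hL [] le_rfl, hA [] le_rfl]
  | cons j b ih =>
    simp only [List.length_cons] at hG hL hA
    simp only [E, hL [] (Nat.zero_le _)]
    congr 1
    · exact ih (fun w hw => hG w (by omega)) (fun w hw => hL _ (by simp only [List.length_cons]; omega))
        (fun w hw => hA w (by omega))
    · congr 1
      exact ih (fun w hw => hG w (by omega)) (fun w hw => hG w (by omega))
        (fun w hw => hA _ (by simp only [List.length_cons]; omega))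

/-- `F` at `v` only sees `G` and `L` on words shorter than `v`. -/
theorem F_congr {G G' L L' A : List ι → R} {v : List ι}
    (hG : ∀ w : List ι, w.length < v.length → G w = G' w)
    (hL : ∀ w : List ι, w.length < v.length → L w = L' w) : F G L A v = F G' L' A v := by
  induction v generalizing L L' A with
  | nil => simp [F]
  | cons j b ih =>
    simp only [List.length_cons] at hG hL
    simp only [F, hL [] (by simp)]
    congr 1
    · exact ih (fun w hw => hG w (by omega)) (fun w hw => hL _ (by simp only [List.length_cons]; omega))
    · congr 1
      exact E_congr (fun w hw => hG w (by omega)) (fun w hw => hG w (by omega)) (fun _ _ => rfl)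

/-- Composition of two rounds of gaps. -/
theorem E_comp (G H L L' A : List ι → R) (v : List ι) :
    E G L (E H L' A) v = E (E G G H) (E G L L') A v := by
  induction v generalizing L L' A with
  | nil => simp [E, mul_assoc]
  | cons j b ih =>
    have h1 : (fun w => E H L' A (j :: w))
        = fun w => E H (fun a => L' (j :: a)) A w + L' [] * E H H (fun w => A (j :: w)) w := rfl
    have h2 : (fun a => E G L L' (j :: a))
        = fun a => E G (fun a => L (j :: a)) L' a + L [] * E G G (fun a => L' (j :: a)) a := rfl
    show E G (fun a => L (j :: a)) (E H L' A) b + L [] * E G G (fun w => E H L' A (j :: w)) b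
      = E (E G G H) (fun a => E G L L' (j :: a)) A b
        + E G L L' [] * E (E G G H) (E G G H) (fun w => A (j :: w)) b
    rw [h1, h2, E_add_right, E_smul_right, E_add_left, E_smul_left, ih, ih, ih,
      show E G L L' [] = L [] * L' [] from rfl]
    ring

theorem expand_comp (G H A : List ι → R) (v : List ι) :
    expand G (expand H A) v = expand (expand G H) A v := E_comp G H G H A v

theorem expand_eps_left (A : List ι → R) (v : List ι) : expand eps A v = A v := by
  unfold expand
  induction v generalizing A with
  | nil => simp [E, eps]
  | cons j b ih =>
    show E eps (fun a => eps (j :: a)) A b + eps [] * E eps eps (fun w => A (j :: w)) b = A (j :: b)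
    rw [show (fun a => (eps (j :: a) : R)) = fun _ => 0 from rfl, E_zero_left, ih]
    simp [eps]

theorem expand_eps_right (G : List ι → R) (v : List ι) : expand G eps v = G v := by
  suffices h : ∀ L : List ι → R, E G L eps v = L v from h G
  intro L
  induction v generalizing L with
  | nil => simp [E, eps]
  | cons j b ih =>
    show E G (fun a => L (j :: a)) eps b + L [] * E G G (fun w => eps (j :: w)) b = L (j :: b)
    rw [ih, show (fun w => (eps (j :: w) : R)) = fun _ => 0 from rfl, E_zero_right]
    simp

/-- One step of the inversion recursion. -/
def invStep (m U : List ι → R) (v : List ι) : R := eps v - F U U m v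

/-- The inverse of `m` for the gap composition. -/
def inv (m : List ι → R) (v : List ι) : R :=
  (invStep m)^[v.length + 1] (fun _ => 0) v

theorem invStep_iterate (m : List ι → R) :
    ∀ (n : ℕ) (v : List ι), v.length < n → (invStep m)^[n] (fun _ => 0) v = inv m v := by
  intro n
  induction n using Nat.strong_induction_on with
  | h n ih =>
    intro v hv
    obtain ⟨n', rfl⟩ : ∃ n', n = n' + 1 := ⟨n - 1, by omega⟩
    rw [inv, Function.iterate_succ_apply', Function.iterate_succ_apply']
    rcases eq_or_lt_of_le (Nat.lt_succ_iff.1 hv) with h | h
    · rw [h]
    have key : ∀ k, v.length ≤ k → k ≤ n' → ∀ w : List ι, w.length < v.length →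
        (invStep m)^[k] (fun _ => 0) w = inv m w := fun k _ hk w hw => ih k (by omega) w (by omega)
    refine congrArg (eps v - ·) (F_congr ?_ ?_) <;>
      exact fun w hw => (key n' h.le le_rfl w hw).trans (key v.length le_rfl h.le w hw).symm

theorem inv_eq (m : List ι → R) (v : List ι) : inv m v = eps v - F (inv m) (inv m) m v := by
  conv_lhs => rw [inv, Function.iterate_succ_apply']
  refine congrArg (eps v - ·) (F_congr ?_ ?_) <;>
    exact fun w hw => invStep_iterate m v.length w hw

theorem inv_nil (m : List ι → R) : inv m ([] : List ι) = 1 := by
  rw [inv_eq]; simp [eps, F]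

theorem expand_inv (m : List ι → R) (hm : m [] = 1) : expand (inv m) m = eps := by
  funext v
  rw [expand, E_eq_F, hm, mul_one]
  nth_rw 1 [inv_eq]
  ring

theorem expand_inv_self (m : List ι → R) (hm : m [] = 1) : expand m (inv m) = eps := by
  have h : inv (inv m) = m := funext fun v => by
    have := expand_comp (inv (inv m)) (inv m) m v
    rw [expand_inv m hm, expand_inv _ (inv_nil m), expand_eps_left, expand_eps_right] at this
    exact this
  conv_lhs => arg 1; rw [← h]
  exact expand_inv _ (inv_nil m)

/-- The cumulant `κ(i u)`, as a function of `i` and `u`. -/
def kappa (m : List ι → R) (i : ι) : List ι → R :=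
  expand (inv m) fun u => m (i :: u)

/-- The defining recursion of the cumulants. -/
theorem moment_eq_expand_kappa (m : List ι → R) (hm : m [] = 1) (i : ι) (v : List ι) :
    m (i :: v) = expand m (kappa m i) v := by
  rw [kappa, expand_comp, expand_inv_self m hm, expand_eps_left]

end Vale.Agent.P087.Cumul
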