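import Vale.Agent.P087.Fock

/-!
The Schwinger–Dyson moments of a tuple with a free semicircular family, and their cyclic invariance.
-/

namespace Vale.Agent.P087

variable {α : Type} {μ : List α → ℂ}

theorem firstS_append (v : List α) (i : α) (u : List (α ⊕ α)) :
    firstS (v.map Sum.inl ++ Sum.inr i :: u) = some (v, i, u) := by
  induction v with
  | nil => rfl
  | cons a v ih => simp [firstS, ih]

theorem firstS_map (v : List α) : firstS (v.map Sum.inl : List (α ⊕ α)) = none := by
  induction v with
  | nil => rfl
  | cons a v ih => simp [firstS, ih]

theorem word_cases (w : List (α ⊕ α)) :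
    (∃ v : List α, w = v.map Sum.inl) ∨
      ∃ (v : List α) (i : α) (u : List (α ⊕ α)), w = v.map Sum.inl ++ Sum.inr i :: u := by
  induction w with
  | nil => exact Or.inl ⟨[], rfl⟩
  | cons a w ih =>
    cases a with
    | inr i => exact Or.inr ⟨[], i, w, rfl⟩
    | inl a =>
      rcases ih with ⟨v, rfl⟩ | ⟨v, i, u, rfl⟩
      · exact Or.inl ⟨a :: v, rfl⟩
      · exact Or.inr ⟨a :: v, i, u, rfl⟩

theorem jointAux_congr : ∀ (f g : ℕ) (w : List (α ⊕ α)), w.length ≤ f → w.length ≤ g →
    jointAux μ f w = jointAux μ g w := by
  intro f
  induction f with
  | zero =>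
    intro g w hf _
    obtain rfl := List.eq_nil_of_length_eq_zero (Nat.le_zero.1 hf)
    cases g <;> rfl
  | succ f ih =>
    intro g w hf hg
    cases g with
    | zero =>
      obtain rfl := List.eq_nil_of_length_eq_zero (Nat.le_zero.1 hg)
      rfl
    | succ g =>
      simp only [jointAux]
      rcases word_cases w with ⟨v, rfl⟩ | ⟨v, i, u, rfl⟩
      · simp [firstS_map]
      · simp only [firstS_append]
        refine congrArg List.sum (List.map_congr_left fun c hc => ?_)
        have hl := length_of_mem_cuts hc
        simp only [List.length_append, List.length_map, List.length_cons] at hl hf hg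
        split_ifs
        · rw [ih g c.1 (by omega) (by omega), ih g c.2.2 (by omega) (by omega)]
        · rfl

/-- A word without `S`. -/
theorem jointMoment_map (v : List α) : jointMoment μ (v.map Sum.inl) = μ v := by
  cases v with
  | nil => rfl
  | cons a v =>
    rw [jointMoment, List.length_map, List.length_cons, jointAux, firstS_map]
    simp [Function.comp_def]

/-- The rule at the first `S`. -/
theorem jointMoment_first [DecidableEq α] (v : List α) (i : α) (u : List (α ⊕ α)) :
    jointMoment μ (v.map Sum.inl ++ Sum.inr i :: u) = sumCuts (u ++ v.map Sum.inl) fun a b c =>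
      if b = Sum.inr i then jointMoment μ a * jointMoment μ c else 0 := by
  have hlen : (v.map Sum.inl ++ Sum.inr i :: u).length = v.length + u.length + 1 := by
    simp; omega
  rw [jointMoment, hlen, jointAux, firstS_append]
  refine congrArg List.sum (List.map_congr_left fun c hc => ?_)
  have hl := length_of_mem_cuts hc
  simp only [List.length_append, List.length_map] at hl
  by_cases hb : c.2.1 = Sum.inr i
  · simp only [hb, if_true]
    rw [jointMoment, jointMoment, jointAux_congr _ c.1.length c.1 (by omega) le_rfl,
      jointAux_congr _ c.2.2.length c.2.2 (by omega) le_rfl]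
  · simp [hb]

theorem sumCuts_append {β : Type} (u w : List β) (f : List β → β → List β → ℂ) :
    sumCuts (u ++ w) f = sumCuts u (fun a b c => f a b (c ++ w)) +
      sumCuts w (fun a b c => f (u ++ a) b c) := by
  induction u generalizing f with
  | nil => simp [sumCuts_nil]
  | cons a u ih => simp only [List.cons_append, sumCuts_cons, ih]; ring

theorem sumCuts_eq_zero {β : Type} {u : List β} {f : List β → β → List β → ℂ}
    (h : ∀ a b c, b ∈ u → f a b c = 0) : sumCuts u f = 0 := by
  induction u generalizing f with
  | nil => rfl
  | cons a u ih =>
    rw [sumCuts_cons, h [] a u List.mem_cons_self,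
      ih fun x b c hb => h _ b c (List.mem_cons_of_mem _ hb), add_zero]

variable [DecidableEq α]

theorem sumCuts_map_inl (v : List α) (i : α)
    (f : List (α ⊕ α) → (α ⊕ α) → List (α ⊕ α) → ℂ) :
    (sumCuts (v.map Sum.inl) fun a b c => if b = Sum.inr i then f a b c else 0) = 0 :=
  sumCuts_eq_zero fun a b c hb => by
    obtain ⟨x, -, rfl⟩ := List.mem_map.1 hb
    simp

/-- Moving the first letter to the end. -/
theorem jointMoment_rot (hμ : ∀ a b, μ (a ++ b) = μ (b ++ a)) : ∀ (a : α ⊕ α) (u : List (α ⊕ α)),
    (∀ A B : List (α ⊕ α), A.length + B.length < u.length + 1 →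
      jointMoment μ (A ++ B) = jointMoment μ (B ++ A)) →
    jointMoment μ (a :: u) = jointMoment μ (u ++ [a]) := by
  intro a u IH
  rcases word_cases u with ⟨v, rfl⟩ | ⟨v, j, B, rfl⟩
  · cases a with
    | inl x =>
      rw [show (Sum.inl x :: v.map Sum.inl : List (α ⊕ α)) = (x :: v).map Sum.inl from rfl,
        show (v.map Sum.inl ++ [Sum.inl x] : List (α ⊕ α)) = (v ++ [x]).map Sum.inl by simp,
        jointMoment_map, jointMoment_map, hμ v [x]]
      rfl
    | inr i =>
      rw [jointMoment_first v i [],
        show (Sum.inr i :: v.map Sum.inl : List (α ⊕ α))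
          = ([] : List α).map Sum.inl ++ Sum.inr i :: v.map Sum.inl from rfl,
        jointMoment_first]
      simp
  · cases a with
    | inl x =>
      rw [show (Sum.inl x :: (v.map Sum.inl ++ Sum.inr j :: B) : List (α ⊕ α))
          = (x :: v).map Sum.inl ++ Sum.inr j :: B from rfl,
        show (v.map Sum.inl ++ Sum.inr j :: B) ++ [Sum.inl x]
          = v.map Sum.inl ++ Sum.inr j :: (B ++ [Sum.inl x]) by simp,
        jointMoment_first, jointMoment_first]
      simp
    | inr i =>
      set V : List (α ⊕ α) := v.map Sum.inl with hV
      rw [show (Sum.inr i :: (V ++ Sum.inr j :: B) : List (α ⊕ α))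
          = ([] : List α).map Sum.inl ++ Sum.inr i :: (V ++ Sum.inr j :: B) from rfl,
        show (V ++ Sum.inr j :: B) ++ [Sum.inr i] = V ++ Sum.inr j :: (B ++ [Sum.inr i]) by simp,
        jointMoment_first, hV, jointMoment_first, ← hV]
      simp only [List.map_nil, List.append_nil, List.append_assoc, List.singleton_append,
        sumCuts_append, sumCuts_cons, hV, sumCuts_map_inl, zero_add, add_zero]
      rw [← hV]
      have e1 : (sumCuts B fun a b c => if b = Sum.inr i then
            jointMoment μ (V ++ Sum.inr j :: a) * jointMoment μ c else 0)
          = sumCuts B fun u1 b w => sumCuts w fun u2 b' u' =>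
            if b' = Sum.inr i then (if b = Sum.inr j then
              jointMoment μ u1 * jointMoment μ (u2 ++ V) else 0) * jointMoment μ u' else 0 := by
        rw [← sumCuts_assoc]
        refine sumCuts_congr fun u1 b u2 _ => ?_
        by_cases hb : b = Sum.inr i
        · simp only [hb, if_true]
          rw [hV, jointMoment_first, ← hV, sumCuts_append, hV, sumCuts_map_inl, ← hV, add_zero,
            mul_comm (sumCuts u1 _), ← sumCuts_mul]
          exact sumCuts_congr fun a b c _ => by split_ifs <;> ring
        · simp only [hb, if_false]
          exact (sumCuts_eq_zero fun _ _ _ _ => rfl).symm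
      have e2 : (sumCuts B fun a b c => if b = Sum.inr j then
            jointMoment μ a * jointMoment μ (c ++ Sum.inr i :: V) else 0)
          = sumCuts B fun u1 b w => sumCuts w fun u2 b' u' =>
            if b' = Sum.inr i then (if b = Sum.inr j then
              jointMoment μ u1 * jointMoment μ (u2 ++ V) else 0) * jointMoment μ u' else 0 := by
        refine sumCuts_congr fun u1 b w hw => ?_
        have hwl : w.length < B.length := by rw [hw]; simp; omega
        by_cases hb : b = Sum.inr j
        · simp only [hb, if_true]
          rw [IH w (Sum.inr i :: V) (by simp [hV]; omega),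
            show (Sum.inr i :: V) ++ w = ([] : List α).map Sum.inl ++ Sum.inr i :: (V ++ w) from rfl,
            jointMoment_first]
          simp only [List.map_nil, List.append_nil, sumCuts_append, hV, sumCuts_map_inl, zero_add]
          rw [← hV, ← sumCuts_mul]
          refine sumCuts_congr fun u2 b' u' hu => ?_
          have hul : u2.length ≤ w.length := by rw [hu]; simp
          rw [IH V u2 (by simp [hV]; omega)]
          split_ifs <;> ring
        · simp [hb, sumCuts]
      rw [e1, e2, add_comm]
      congr 1
      by_cases hij : i = j
      · subst hij; simp [mul_comm]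
      · simp [hij, Ne.symm hij]

/-- The moments are cyclically invariant. -/
theorem jointMoment_comm (hμ : ∀ a b, μ (a ++ b) = μ (b ++ a)) (A B : List (α ⊕ α)) :
    jointMoment μ (A ++ B) = jointMoment μ (B ++ A) := by
  induction hn : A.length + B.length using Nat.strong_induction_on generalizing A B with
  | _ N IH =>
    induction A generalizing B with
    | nil => simp
    | cons a A ih =>
      simp only [List.length_cons] at hn
      rw [List.cons_append, jointMoment_rot hμ a (A ++ B) fun X Y hXY =>
        IH _ (by rw [List.length_append] at hXY; omega) X Y rfl, List.append_assoc,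
        ih (B ++ [a]) (by simp; omega)]
      simp

/-- The rule at a leading `S`. -/
theorem jointMoment_cons (i : α) (u : List (α ⊕ α)) :
    jointMoment μ (Sum.inr i :: u) = sumCuts u fun a b c =>
      if b = Sum.inr i then jointMoment μ a * jointMoment μ c else 0 := by
  simpa using jointMoment_first (μ := μ) [] i u

end Vale.Agent.P087
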