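import Mathlib

/-!
Microstates and non-microstates free entropy (Voiculescu), stated on the law
`μ : List I → ℂ` of a tuple, `μ [i₁, …, iₚ] = τ (X_{i₁} ⋯ X_{iₚ})`.
-/

namespace Vale.Agent.P087

open MeasureTheory
open scoped ENNReal Matrix

variable {I : Type} [Fintype I]

/-- The Hermitian matrix with real coordinates `x`: its `(a, b)` entry is
`(x a b + x b a) / 2 + i (x a b - x b a) / 2`. This is an isometry from `ℝ^(k²)` onto the self-adjoint
matrices for `⟨A, B⟩ = Tr (A B)`, since the sum of `|entry|²` is the sum of `x²`. -/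
noncomputable def herm {k : ℕ} (x : Fin k × Fin k → ℝ) : Matrix (Fin k) (Fin k) ℂ := fun a b =>
  (((x (a, b) + x (b, a)) / 2 : ℝ) : ℂ) + Complex.I * (((x (a, b) - x (b, a)) / 2 : ℝ) : ℂ)

open scoped Matrix.Norms.L2Operator in
/-- Operator norm of a matrix on Euclidean space. -/
noncomputable def opNorm {k : ℕ} (A : Matrix (Fin k) (Fin k) ℂ) : ℝ := ‖A‖

theorem opNorm_eq {k : ℕ} (A : Matrix (Fin k) (Fin k) ℂ) :
    opNorm A = ‖Matrix.toEuclideanCLM (𝕜 := ℂ) A‖ := rfl

/-- The normalised trace. -/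
noncomputable def trk {k : ℕ} (A : Matrix (Fin k) (Fin k) ℂ) : ℂ :=
  (k : ℂ)⁻¹ * Matrix.trace A

/-- Coordinates of an `I`-tuple of self-adjoint `k × k` matrices. -/
abbrev Coord (I : Type) (k : ℕ) : Type := I × Fin k × Fin k → ℝ

/-- The `i`-th matrix of a tuple. -/
noncomputable def mat {k : ℕ} (x : Coord I k) (i : I) : Matrix (Fin k) (Fin k) ℂ :=
  herm fun p => x (i, p)

/-- The microstate set `Γ_R (X; m, k, ε)`. -/
def Gamma (μ : List I → ℂ) (R : ℝ) (m k : ℕ) (ε : ℝ) : Set (Coord I k) :=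
  {x | (∀ i, opNorm (mat x i) ≤ R) ∧
    ∀ w : List I, 1 ≤ w.length → w.length ≤ m → ‖trk (w.map (mat x)).prod - μ w‖ < ε}

/-- `χ_R (X)`. -/
noncomputable def chiR (μ : List I → ℂ) (R : ℝ) : EReal :=
  ⨅ (m : ℕ) (ε : ℝ) (_ : 0 < ε), Filter.limsup (fun k : ℕ =>
    ((((k : ℝ) ^ 2)⁻¹ : ℝ) : EReal) * ENNReal.log (volume (Gamma μ R m k ε)) +
      (((Fintype.card I : ℝ) / 2 * Real.log k : ℝ) : EReal)) Filter.atTop

/-- Microstates free entropy `χ (X) = sup over R > 0 of χ_R (X)`. -/
noncomputable def chi (μ : List I → ℂ) : EReal :=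
  ⨆ (R : ℝ) (_ : 0 < R), chiR μ R

/-- All ways of writing a word as `u₁ a u₂` with `a` a letter. -/
def cuts {α : Type} : List α → List (List α × α × List α)
  | [] => []
  | a :: u => ([], a, u) :: (cuts u).map fun c => (a :: c.1, c.2.1, c.2.2)

/-- Splits a word in the letters `inl i` (for `X_i`) and `inr i` (for `S_i`) at its first `S`. -/
def firstS {α : Type} : List (α ⊕ α) → Option (List α × α × List (α ⊕ α))
  | [] => none
  | Sum.inr i :: u => some ([], i, u)
  | Sum.inl a :: u => (firstS u).map fun c => (a :: c.1, c.2.1, c.2.2)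

open Classical in
/-- Recursion for `jointMoment`; the first argument is a fuel bounding the length of the word. -/
noncomputable def jointAux {α : Type} (μ : List α → ℂ) : ℕ → List (α ⊕ α) → ℂ
  | 0, _ => μ []
  | f + 1, w => match firstS w with
    | none => μ (w.map (Sum.elim id id))
    | some (v, i, u) => ((cuts (u ++ v.map Sum.inl)).map fun c =>
        if c.2.1 = Sum.inr i then jointAux μ f c.1 * jointAux μ f c.2.2 else 0).sum

/-- Joint moments of the tuple `X` of law `μ` (letters `inl i`) and of a standard free semicircular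
family `S` free from it (letters `inr i`), by the Schwinger–Dyson rule: if `v` has no `S` then
`τ (v S_i u) = ∑ τ (u₁) τ (u₂)`, over the factorisations `u v = u₁ S_i u₂`. -/
noncomputable def jointMoment {α : Type} (μ : List α → ℂ) (w : List (α ⊕ α)) : ℂ :=
  jointAux μ w.length w

/-- Expansion of a word in `X_i + √t S_i`; the first list is the part already expanded. -/
noncomputable def smoothAux {α : Type} (μ : List α → ℂ) (t : ℝ) : List (α ⊕ α) → List α → ℂ
  | acc, [] => jointMoment μ acc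
  | acc, i :: w => smoothAux μ t (acc ++ [Sum.inl i]) w +
      (Real.sqrt t : ℂ) * smoothAux μ t (acc ++ [Sum.inr i]) w

/-- The law of `X + √t S`. -/
noncomputable def smoothMoment {α : Type} (μ : List α → ℂ) (t : ℝ) (w : List α) : ℂ :=
  smoothAux μ t [] w

/-- `τ (P(X)* P(X))` for the noncommutative polynomial with coefficients `P`. -/
noncomputable def polyNormSq {α : Type} (μ : List α → ℂ) (P : List α →₀ ℂ) : ℝ :=
  (P.sum fun v a => P.sum fun w b => starRingEnd ℂ a * b * μ (v.reverse ++ w)).re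

open Classical in
/-- `(τ ⊗ τ) (∂_j P (X))`, with `∂_j` the free difference quotient. -/
noncomputable def polyPartial {α : Type} (μ : List α → ℂ) (j : α) (P : List α →₀ ℂ) : ℂ :=
  P.sum fun w a => a * ((cuts w).map fun c => if c.2.1 = j then μ c.1 * μ c.2.2 else 0).sum

/-- The squared `L²` norm of the conjugate variable `ξ_j`: by the Riesz representation it is the
squared norm of the functional `P ↦ τ ⊗ τ (∂_j P)` on polynomials for `‖P‖₂² = τ (P* P)`, and it
is `∞` when that functional is unbounded, that is, when `ξ_j` does not exist. -/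
noncomputable def fisherCoord {α : Type} (μ : List α → ℂ) (j : α) : ℝ≥0∞ :=
  sInf {c : ℝ≥0∞ | ∀ P : List α →₀ ℂ,
    ENNReal.ofReal (‖polyPartial μ j P‖ ^ 2) ≤ c * ENNReal.ofReal (polyNormSq μ P)}

/-- Free Fisher information `Φ*`. -/
noncomputable def fisher (μ : List I → ℂ) : ℝ≥0∞ :=
  ∑ j, fisherCoord μ j

/-- The integrand `n / (1 + t) - Φ* (X + √t S)`. -/
noncomputable def chiStarIntegrand (μ : List I → ℂ) (t : ℝ) : EReal :=
  (((Fintype.card I : ℝ) / (1 + t) : ℝ) : EReal) - (fisher (smoothMoment μ t) : EReal)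

/-- Non-microstates free entropy: half the integral over `t > 0` (positive part minus negative
part) of `n / (1 + t) - Φ* (X + √t S)`, plus `n / 2 log (2 π e)`. -/
noncomputable def chiStar (μ : List I → ℂ) : EReal :=
  (((1 : ℝ) / 2 : ℝ) : EReal) *
      (((∫⁻ t in Set.Ioi (0 : ℝ), (chiStarIntegrand μ t).toENNReal : ℝ≥0∞) : EReal) -
        ((∫⁻ t in Set.Ioi (0 : ℝ), (-chiStarIntegrand μ t).toENNReal : ℝ≥0∞) : EReal)) +
    (((Fintype.card I : ℝ) / 2 * Real.log (2 * Real.pi * Real.exp 1) : ℝ) : EReal)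

/-- The vector state `a ↦ ⟨Ω, a Ω⟩`. -/
noncomputable def vstate {H : Type} [NormedAddCommGroup H] [InnerProductSpace ℂ H]
    (Ω : H) (a : H →L[ℂ] H) : ℂ :=
  inner ℂ Ω (a Ω)

/-- The vector state of `Ω` is a trace on the von Neumann algebra `A`. -/
def IsTracial {H : Type} [NormedAddCommGroup H] [InnerProductSpace ℂ H] [CompleteSpace H]
    (A : VonNeumannAlgebra H) (Ω : H) : Prop :=
  ∀ a ∈ A, ∀ b ∈ A, vstate Ω (a * b) = vstate Ω (b * a)

/-- `Ω` separates `A`: the vector state is faithful on `A`. -/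
def IsFaithfulOn {H : Type} [NormedAddCommGroup H] [InnerProductSpace ℂ H] [CompleteSpace H]
    (A : VonNeumannAlgebra H) (Ω : H) : Prop :=
  ∀ a ∈ A, a Ω = 0 → a = 0

/-- `Z` is a tuple of self-adjoint elements of `A`. -/
def IsTupleIn {H : Type} [NormedAddCommGroup H] [InnerProductSpace ℂ H] [CompleteSpace H]
    (A : VonNeumannAlgebra H) {N : ℕ} (Z : Fin N → H →L[ℂ] H) : Prop :=
  ∀ i, Z i ∈ A ∧ IsSelfAdjoint (Z i)

/-- The law of a tuple of operators in the vector state of `Ω`. -/
noncomputable def law {α H : Type} [NormedAddCommGroup H] [InnerProductSpace ℂ H]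
    (Ω : H) (Z : α → H →L[ℂ] H) (w : List α) : ℂ :=
  inner ℂ Ω ((w.map Z).prod Ω)

end Vale.Agent.P087
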