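import Vale.Agent.P087.Bessel

/-!
Pointwise bounds on the free Fisher information.
-/

namespace Vale.Agent.P087

open scoped ENNReal

variable {I G : Type} [Fintype I] [DecidableEq I] [Group G] {x : I → G} {σ : I → ℝ}

theorem grpMom_nil : grpMom x ([] : List I) = 1 := by simp [grpMom]

theorem grpMom_one (hx : ∀ i, x i * x i = 1 ∧ x i ≠ 1) (i : I) : grpMom x [i] = 0 := by
  simp [grpMom, (hx i).2]

theorem grpMom_two (hinj : Function.Injective x) (hx : ∀ i, x i * x i = 1 ∧ x i ≠ 1) (i j : I) :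
    grpMom x [i, j] = if i = j then 1 else 0 := by
  have h : x i * x j = 1 ↔ i = j := by
    constructor
    · intro h
      apply hinj
      calc x i = (x j)⁻¹ := eq_inv_of_mul_eq_one_left h
        _ = x j := inv_eq_of_mul_eq_one_right (hx j).1
    · rintro rfl; exact (hx i).1
  simp [grpMom, h]

theorem polyPartial_eq (m : List I → ℂ) (σ : I → ℝ) (j : I) (P : List I →₀ ℂ) :
    polyPartial (tMom m σ []) j P = P.sum fun u a => a * dMom (tMom m σ) [j] u := by
  refine Finsupp.sum_congr fun u _ => congrArg (P u * ·) (congrArg List.sum ?_)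
  refine List.map_congr_left fun c _ => ?_
  by_cases h : c.2.1 = j <;> simp [h, dMom]

theorem polyNormSq_nonneg (hx : ∀ i, x i * x i = 1) (P : List I →₀ ℂ) :
    0 ≤ polyNormSq (tMom (grpMom x) σ []) P := by
  classical
  rw [← norm_polyVec_sq hx]; positivity

/-- A constant that bounds the functional bounds the Fisher coordinate. -/
theorem fisherCoord_le {μ : List I → ℂ} {j : I} {a : ℝ} (ha : 0 < a)
    (h : ∀ P, a * ‖polyPartial μ j P‖ ^ 2 ≤ polyNormSq μ P) :
    fisherCoord μ j ≤ ENNReal.ofReal (1 / a) := by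
  refine sInf_le fun P => ?_
  rw [← ENNReal.ofReal_mul (by positivity)]
  refine ENNReal.ofReal_le_ofReal ?_
  rw [one_div, inv_mul_eq_div, le_div_iff₀ ha, mul_comm]
  exact h P

theorem dMom_bound (hx : ∀ i, x i * x i = 1 ∧ x i ≠ 1) (j : I) (P : List I →₀ ℂ) :
    σ j ^ 2 * ‖polyPartial (tMom (grpMom x) σ []) j P‖ ^ 2 ≤
      polyNormSq (tMom (grpMom x) σ []) P := by
  refine le_trans ?_ (besselStmt I G x σ hx P 1 j)
  refine le_add_of_nonneg_of_le (by positivity) ?_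
  rw [Finset.Icc_self, Finset.sum_singleton]
  refine le_trans (le_of_eq ?_) (Finset.single_le_sum (f := fun w : Fin 1 → I =>
    (∏ l, σ (w l) ^ 2) *
      ‖P.sum fun u a => a * dMom (tMom (grpMom x) σ) (List.ofFn w) u‖ ^ 2)
    (fun w _ => by positivity) (Finset.mem_univ fun _ => j))
  simp [polyPartial_eq]

theorem fisherCoord_le_inv (hx : ∀ i, x i * x i = 1 ∧ x i ≠ 1) (j : I) (hσ : σ j ≠ 0) :
    fisherCoord (tMom (grpMom x) σ []) j ≤ ENNReal.ofReal (1 / σ j ^ 2) :=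
  fisherCoord_le (by positivity) (dMom_bound hx j)

/-- Cumulant terms of word length `q` entering the coordinate `j`. -/
noncomputable def etaTerm (κ : List I → ℂ) (σ : I → ℝ) (j : I) (q : ℕ) : ℝ :=
  ∑ w : Fin q → I, ‖κ (j :: List.ofFn w)‖ ^ 2 / ∏ l, σ (w l) ^ 2

theorem etaTerm_nonneg (κ : List I → ℂ) (σ : I → ℝ) (j : I) (q : ℕ) : 0 ≤ etaTerm κ σ j q :=
  Finset.sum_nonneg fun w _ => div_nonneg (sq_nonneg _) (Finset.prod_nonneg fun l _ => sq_nonneg _)

theorem fisherCoord_le_gain (hinj : Function.Injective x) (hx : ∀ i, x i * x i = 1 ∧ x i ≠ 1)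
    (hσ : ∀ i, σ i ≠ 0) (κ : List I → ℂ) (hκ2 : ∀ i j, κ [i, j] = grpMom x [i, j])
    (hκ : ∀ (i : I) (u : List I) (d : ℕ), u.length ≤ d →
      tMom (grpMom x) σ [i] u = ∑ q ∈ Finset.Icc 1 d, ∑ w : Fin q → I,
        κ (i :: List.ofFn w) * dMom (tMom (grpMom x) σ) (List.ofFn w) u)
    (j : I) {η : ℝ} (hη : ∀ d, ∑ q ∈ Finset.Icc 2 d, etaTerm κ σ j q ≤ η) :
    fisherCoord (tMom (grpMom x) σ []) j ≤ ENNReal.ofReal (1 / (σ j ^ 2 + 1 / (1 + η))) := by
  have hη0 : 0 ≤ η := le_trans (by simp) (hη 1)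
  refine fisherCoord_le (by have := hσ j; positivity) fun P => ?_
  set d := max 1 (P.support.sup List.length) with hd
  let D : (Σ q : ℕ, Fin q → I) → ℂ := fun w =>
    P.sum fun u a => a * dMom (tMom (grpMom x) σ) (List.ofFn w.2) u
  let s : Finset (Σ q : ℕ, Fin q → I) := (Finset.Icc 2 d).sigma fun _ => Finset.univ
  let sw : (Σ q : ℕ, Fin q → I) → ℝ := fun w => ∏ l, σ (w.2 l) ^ 2
  have hsw : ∀ w, 0 < sw w := fun w => Finset.prod_pos fun l _ => by
    have := hσ (w.2 l); positivity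
  set C := polyPartial (tMom (grpMom x) σ []) j P with hC
  set e := P.sum fun u a => a * tMom (grpMom x) σ [j] u with he
  set R := ∑ w ∈ s, κ (j :: List.ofFn w.2) * D w with hR
  set S := ∑ w ∈ s, sw w * ‖D w‖ ^ 2 with hS
  have hins : Finset.Icc 1 d = insert 1 (Finset.Icc 2 d) := by
    have : 1 ≤ d := le_max_left _ _
    ext q; simp; omega
  have hsplit : ∀ (g : ℕ → ℝ), ∑ q ∈ Finset.Icc 1 d, g q = g 1 + ∑ q ∈ Finset.Icc 2 d, g q :=
    fun g => by rw [hins, Finset.sum_insert (by simp)]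
  have hsplitC : ∀ (g : ℕ → ℂ), ∑ q ∈ Finset.Icc 1 d, g q = g 1 + ∑ q ∈ Finset.Icc 2 d, g q :=
    fun g => by rw [hins, Finset.sum_insert (by simp)]
  have hexp : e = C + R := by
    have h1 : e = ∑ q ∈ Finset.Icc 1 d, ∑ w : Fin q → I,
        κ (j :: List.ofFn w) * D ⟨q, w⟩ := by
      rw [he]
      simp only [Finsupp.sum, D, Finset.mul_sum]
      rw [Finset.sum_congr rfl fun u hu => by
        rw [hκ j u d ((Finset.le_sup (f := List.length) hu).trans (le_max_right _ _))]]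
      simp only [Finset.mul_sum]
      rw [Finset.sum_comm]
      refine Finset.sum_congr rfl fun q _ => ?_
      rw [Finset.sum_comm]
      exact Finset.sum_congr rfl fun w _ => Finset.sum_congr rfl fun u _ => by ring
    rw [h1, hsplitC, hR, Finset.sum_sigma]
    congr 1
    rw [Finset.sum_eq_single (fun _ : Fin 1 => j)]
    · simp [hκ2, grpMom_two hinj hx, D, hC, polyPartial_eq]
    · intro w _ hw
      have : ¬ j = w 0 := fun h => hw (funext fun l => by rw [h, Subsingleton.elim l 0])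
      simp [hκ2, grpMom_two hinj hx, this]
    · simp
  have hbes : ‖e‖ ^ 2 + (σ j ^ 2 * ‖C‖ ^ 2 + S) ≤ polyNormSq (tMom (grpMom x) σ []) P := by
    refine le_trans (add_le_add_right ?_ _) (besselStmt I G x σ hx P d j)
    rw [hsplit, hS, Finset.sum_sigma]
    refine add_le_add_left ?_ _
    refine le_trans (le_of_eq ?_) (Finset.single_le_sum (f := fun w : Fin 1 → I =>
      (∏ l, σ (w l) ^ 2) *
        ‖P.sum fun u a => a * dMom (tMom (grpMom x) σ) (List.ofFn w) u‖ ^ 2)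
      (fun w _ => by positivity) (Finset.mem_univ fun _ => j))
    simp [hC, polyPartial_eq]
  have hS0 : 0 ≤ S := Finset.sum_nonneg fun w _ => mul_nonneg (hsw w).le (sq_nonneg _)
  have hRb : ‖R‖ ^ 2 ≤ η * S := by
    refine le_trans (pow_le_pow_left₀ (norm_nonneg _) (norm_sum_le _ _) 2) ?_
    have h2 := Finset.sum_mul_sq_le_sq_mul_sq s
      (fun w => ‖κ (j :: List.ofFn w.2)‖ / Real.sqrt (sw w))
      (fun w => Real.sqrt (sw w) * ‖D w‖)
    refine le_trans (le_of_eq ?_) (h2.trans ?_)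
    · congr 1
      refine Finset.sum_congr rfl fun w _ => ?_
      have := (Real.sqrt_pos.2 (hsw w)).ne'
      rw [norm_mul]; field_simp
    · refine mul_le_mul ?_ (le_of_eq ?_) (Finset.sum_nonneg fun w _ => sq_nonneg _) hη0
      · refine le_trans (le_of_eq ?_) (hη d)
        rw [Finset.sum_sigma]
        refine Finset.sum_congr rfl fun q _ => Finset.sum_congr rfl fun w _ => ?_
        rw [div_pow, Real.sq_sqrt (hsw ⟨q, w⟩).le]
      · refine Finset.sum_congr rfl fun w _ => ?_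
        rw [mul_pow, Real.sq_sqrt (hsw w).le]
  have hC2 : ‖C‖ ^ 2 ≤ (1 + η) * (‖e‖ ^ 2 + S) := by
    have h1 : ‖C‖ ≤ ‖e‖ + ‖R‖ := by
      rw [show C = e - R by rw [hexp]; ring]; exact norm_sub_le _ _
    have h2 : ‖C‖ ^ 2 ≤ (‖e‖ + ‖R‖) ^ 2 := pow_le_pow_left₀ (norm_nonneg _) h1 2
    have h3 : 2 * (‖e‖ * ‖R‖) ≤ η * ‖e‖ ^ 2 + S := by
      have q : (2 * (‖e‖ * ‖R‖)) ^ 2 ≤ (η * ‖e‖ ^ 2 + S) ^ 2 := by
        nlinarith [mul_le_mul_of_nonneg_left hRb (sq_nonneg ‖e‖), sq_nonneg (η * ‖e‖ ^ 2 - S)]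
      exact le_of_pow_le_pow_left₀ two_ne_zero (by positivity) q
    nlinarith
  have h4 : ‖C‖ ^ 2 / (1 + η) ≤ ‖e‖ ^ 2 + S := by
    rw [div_le_iff₀ (by positivity)]; linarith [hC2]
  calc (σ j ^ 2 + 1 / (1 + η)) * ‖C‖ ^ 2 = σ j ^ 2 * ‖C‖ ^ 2 + ‖C‖ ^ 2 / (1 + η) := by ring
    _ ≤ _ := by linarith

theorem le_fisherCoord (hinj : Function.Injective x) (hx : ∀ i, x i * x i = 1 ∧ x i ≠ 1) (j : I) :
    ENNReal.ofReal (1 / (1 + σ j ^ 2)) ≤ fisherCoord (tMom (grpMom x) σ []) j := by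
  refine le_sInf fun c hc => ?_
  have hnil : tMom (grpMom x) σ [] [] = 1 := by rw [tMom_nil]; exact grpMom_nil
  have h1 : polyPartial (tMom (grpMom x) σ []) j (Finsupp.single [j] 1) = 1 := by
    simp [polyPartial, cuts, hnil]
  have h2 : polyNormSq (tMom (grpMom x) σ []) (Finsupp.single [j] 1) = 1 + σ j ^ 2 := by
    simp [polyNormSq, tMom_cons, tMom_nil, cuts, grpMom_nil, grpMom_two hinj hx, ← Complex.ofReal_pow]
  have h := hc (Finsupp.single [j] 1)
  rw [h1, h2, norm_one, one_pow, ENNReal.ofReal_one] at h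
  rw [one_div, ENNReal.ofReal_inv_of_pos (by positivity), ← one_div]
  exact ENNReal.div_le_of_le_mul h

end Vale.Agent.P087
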