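import Vale.Agent.P087.Interfaces

/-!
Basic facts on `cuts` and the moment recursion `tMom`.
-/

namespace Vale.Agent.P087

variable {α : Type}

theorem mem_cuts {u : List α} {c : List α × α × List α} :
    c ∈ cuts u ↔ u = c.1 ++ c.2.1 :: c.2.2 := by
  induction u generalizing c with
  | nil => simp [cuts]
  | cons a u ih =>
    obtain ⟨u1, b, u2⟩ := c
    simp only [cuts, List.mem_cons, List.mem_map, Prod.exists, Prod.mk.injEq]
    constructor
    · rintro (⟨rfl, rfl, rfl⟩ | ⟨x, y, z, h, rfl, rfl, rfl⟩)
      · simp
      · simpa using ih.1 h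
    · intro h
      cases u1 with
      | nil => simp at h; simp [h.1, h.2]
      | cons d u1 =>
        simp at h
        exact Or.inr ⟨u1, b, u2, ih.2 h.2, by simp [h.1], rfl, rfl⟩

theorem length_of_mem_cuts {u : List α} {c : List α × α × List α} (h : c ∈ cuts u) :
    c.1.length + c.2.2.length + 1 = u.length := by
  rw [mem_cuts.1 h]; simp; omega

variable {I : Type} [DecidableEq I]

theorem tAux_congr (m : List I → ℂ) (σ : I → ℝ) :
    ∀ (f g : ℕ) (v u : List I), u.length ≤ f → u.length ≤ g → tAux m σ f v u = tAux m σ g v u := by
  intro f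
  induction f with
  | zero =>
    intro g v u hu _
    have hu0 : u = [] := List.eq_nil_of_length_eq_zero (by omega)
    subst hu0
    cases g <;> rfl
  | succ f ih =>
    intro g v u hf hg
    cases u with
    | nil => cases g <;> rfl
    | cons k u =>
      simp only [List.length_cons] at hf hg
      cases g with
      | zero => omega
      | succ g =>
        simp only [tAux]
        rw [ih g (v ++ [k]) u (by omega) (by omega)]
        congr 2
        refine congrArg List.sum (List.map_congr_left fun c hc => ?_)
        have hl := length_of_mem_cuts hc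
        split_ifs with h
        · rw [ih g [] c.1 (by omega) (by omega), ih g v c.2.2 (by omega) (by omega)]
        · rfl

theorem tMom_nil (m : List I → ℂ) (σ : I → ℝ) (v : List I) : tMom m σ v [] = m v := rfl

theorem tMom_cons (m : List I → ℂ) (σ : I → ℝ) (v : List I) (k : I) (u : List I) :
    tMom m σ v (k :: u) = tMom m σ (v ++ [k]) u +
      ((σ k : ℂ) ^ 2) * ((cuts u).map fun c =>
        if c.2.1 = k then tMom m σ [] c.1 * tMom m σ v c.2.2 else 0).sum := by
  unfold tMom
  simp only [List.length_cons, tAux]
  congr 2
  refine congrArg List.sum (List.map_congr_left fun c hc => ?_)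
  have hl := length_of_mem_cuts hc
  split_ifs with h
  · rw [tAux_congr m σ u.length c.1.length [] c.1 (by omega) le_rfl,
      tAux_congr m σ u.length c.2.2.length v c.2.2 (by omega) le_rfl]
  · rfl

theorem tMomEqs : TMomEqs := fun _ _ m σ v => ⟨tMom_nil m σ v, tMom_cons m σ v⟩

end Vale.Agent.P087
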