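import Vale.Agent.P087.Ops
import Vale.Agent.P087.TMom

/-!
The Fock space over `ℓ²(G)`: basis `G × List (J × G)`, operators `fockX g`, `fockS j`, and the
moments of `X_i + σ_i S_i`.
-/

namespace Vale.Agent.P087

open scoped InnerProductSpace

variable {J G : Type} [DecidableEq J] [Group G] [DecidableEq G]

/-- Index of the Fock basis. -/
abbrev FB (J G : Type) : Type := G × List (J × G)

/-- Left multiplication of the first slot. -/
def gPE (g : G) : FB J G ≃. FB J G :=
  ((Equiv.mulLeft g).prodCongr (Equiv.refl _)).toPEquiv

/-- Creation of the letter `j` in front. -/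
def lPE (j : J) : FB J G ≃. FB J G where
  toFun p := some (1, (j, p.1) :: p.2)
  invFun q := match q with
    | (g, (i, h) :: l) => if g = 1 ∧ i = j then some (h, l) else none
    | (_, []) => none
  inv := by
    rintro ⟨a, al⟩ ⟨g, l⟩
    cases l with
    | nil => simp
    | cons s l =>
      obtain ⟨i, h⟩ := s
      simp only [Option.mem_def]
      split_ifs with hc
      · obtain ⟨rfl, rfl⟩ := hc
        simp [Prod.ext_iff]
        tauto
      · simp [Prod.ext_iff]
        intro h1 h2
        exact absurd ⟨h1.symm, h2.symm⟩ hc

/-- The operator of the group element `g`. -/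
noncomputable def fockX (g : G) : L2 (FB J G) →L[ℂ] L2 (FB J G) := pushOp (gPE g)

/-- The semicircular operator of the letter `j`. -/
noncomputable def fockS (j : J) : L2 (FB J G) →L[ℂ] L2 (FB J G) :=
  pushOp (lPE j) + pushOp (lPE j).symm

theorem fockX_apply (g : G) (v : L2 (FB J G)) (h : G) (l : List (J × G)) :
    (fockX g v) (h, l) = v (g⁻¹ * h, l) := by
  simp [fockX, gPE, Equiv.toPEquiv_apply, ← Equiv.toPEquiv_symm]

theorem fockS_apply (j : J) (v : L2 (FB J G)) (g : G) (l : List (J × G)) :
    (fockS j v) (g, l) = v (1, (j, g) :: l) +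
      (match l with
        | (i, h) :: l' => if g = 1 ∧ i = j then v (h, l') else 0
        | [] => 0) := by
  simp only [fockS, add_apply, lp.coeFn_add, Pi.add_apply, pushOp_apply,
    PEquiv.symm_symm]
  rw [add_comm]
  congr 1
  cases l with
  | nil => simp [lPE, PEquiv.symm]
  | cons s l =>
    obtain ⟨i, h⟩ := s
    simp [lPE, PEquiv.symm]
    split_ifs <;> rfl

theorem star_fockX (g : G) : star (fockX (J := J) g) = fockX g⁻¹ := by
  rw [fockX, fockX, star_pushOp]
  congr 1
  ext p : 1
  simp [gPE, ← Equiv.toPEquiv_symm, Equiv.toPEquiv_apply]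

theorem isSelfAdjoint_fockS (j : J) : IsSelfAdjoint (fockS (G := G) j) := by
  simp [IsSelfAdjoint, fockS, star_pushOp, add_comm]

/-- The sum over all cuts of a word. -/
def sumCuts {α : Type} (u : List α) (f : List α → α → List α → ℂ) : ℂ :=
  ((cuts u).map fun c => f c.1 c.2.1 c.2.2).sum

theorem sumCuts_nil {α : Type} (f : List α → α → List α → ℂ) : sumCuts [] f = 0 := rfl

theorem sumCuts_cons {α : Type} (a : α) (u : List α) (f : List α → α → List α → ℂ) :
    sumCuts (a :: u) f = f [] a u + sumCuts u fun u1 b u2 => f (a :: u1) b u2 := by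
  simp [sumCuts, cuts, List.map_map, Function.comp_def]

theorem sumCuts_congr {α : Type} {u : List α} {f g : List α → α → List α → ℂ}
    (h : ∀ u1 a u2, u = u1 ++ a :: u2 → f u1 a u2 = g u1 a u2) : sumCuts u f = sumCuts u g :=
  congrArg List.sum (List.map_congr_left fun c hc => h _ _ _ (mem_cuts.1 hc))

theorem sumCuts_add {α : Type} (u : List α) (f g : List α → α → List α → ℂ) :
    sumCuts u (fun a b c => f a b c + g a b c) = sumCuts u f + sumCuts u g := by
  induction u generalizing f g with
  | nil => simp [sumCuts_nil]
  | cons a u ih => simp only [sumCuts_cons, ih]; ring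

theorem sumCuts_mul {α : Type} (r : ℂ) (u : List α) (f : List α → α → List α → ℂ) :
    sumCuts u (fun a b c => r * f a b c) = r * sumCuts u f := by
  induction u generalizing f with
  | nil => simp [sumCuts_nil]
  | cons a u ih => simp only [sumCuts_cons, ih]; ring

/-- Associativity of double cuts. -/
theorem sumCuts_assoc {α : Type} (u : List α)
    (f : List α → α → List α → α → List α → ℂ) :
    (sumCuts u fun u0 b u' => sumCuts u0 fun u1 a u2 => f u1 a u2 b u') =
      sumCuts u fun u1 a w => sumCuts w fun u2 b u' => f u1 a u2 b u' := by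
  induction u generalizing f with
  | nil => simp [sumCuts_nil]
  | cons c u ih =>
    simp only [sumCuts_cons, sumCuts_nil, zero_add, sumCuts_add]
    rw [ih]

section moments

variable {I : Type} [DecidableEq I] (x : I → G) (σ : I → ℝ)

/-- `X_i + σ_i S_i`. -/
noncomputable def fockZ (i : I) : L2 (FB I G) →L[ℂ] L2 (FB I G) :=
  fockX (x i) + (σ i : ℂ) • fockS i

/-- The vacuum. -/
noncomputable def vac {J G : Type} [DecidableEq J] [Group G] [DecidableEq G] : L2 (FB J G) :=
  dl (1, [])

/-- The vector `Z^u Ω`. -/
noncomputable def fockVec (u : List I) : L2 (FB I G) :=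
  (u.map (fockZ x σ)).prod vac

/-- The coefficient of `Z^u Ω` at a basis vector, by its value at the slots. -/
noncomputable def slotSum : List (I × G) → G → List I → ℂ
  | [], g, u => fockVec x σ u (g, [])
  | (j, g1) :: l, g, u => sumCuts u fun u0 a u' =>
      if a = j then (σ j : ℂ) * fockVec x σ u0 (g, []) * slotSum l g1 u' else 0

variable {x σ}

theorem fockVec_nil (g : G) (l : List (I × G)) :
    fockVec x σ [] (g, l) = if g = 1 ∧ l = [] then 1 else 0 := by
  show (((([] : List I).map (fockZ x σ)).prod) vac : L2 (FB I G)) (g, l) = _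
  simp [vac, dl_apply]

theorem fockVec_cons (hx : ∀ i, x i * x i = 1) (k : I) (u : List I) (g : G)
    (l : List (I × G)) :
    fockVec x σ (k :: u) (g, l) = fockVec x σ u (x k * g, l) +
      (σ k : ℂ) * (fockVec x σ u (1, (k, g) :: l) +
        (match l with
          | (i, h) :: l' => if g = 1 ∧ i = k then fockVec x σ u (h, l') else 0
          | [] => 0)) := by
  have hinv : (x k)⁻¹ = x k := inv_eq_of_mul_eq_one_right (hx k)
  simp only [fockVec, List.map_cons, List.prod_cons]
  rw [mul_apply_eq_comp]
  rw [fockZ]
  simp only [add_apply, lp.coeFn_add, Pi.add_apply,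
    smul_apply, lp.coeFn_smul, Pi.smul_apply, smul_eq_mul,
    fockX_apply, fockS_apply, hinv]
  cases l <;> rfl

theorem fockVec_eq_slotSum (hx : ∀ i, x i * x i = 1) :
    ∀ (u : List I) (l : List (I × G)) (g : G), fockVec x σ u (g, l) = slotSum x σ l g u := by
  intro u
  induction hn : u.length using Nat.strong_induction_on generalizing u with
  | _ N IH =>
    intro l g
    cases l with
    | nil => simp [slotSum]
    | cons s l =>
      obtain ⟨j, g1⟩ := s
      cases u with
      | nil => simp [slotSum, sumCuts_nil, fockVec_nil]
      | cons k u =>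
        have hu : ∀ v : List I, v.length ≤ u.length →
            ∀ (l : List (I × G)) (g : G), fockVec x σ v (g, l) = slotSum x σ l g v :=
          fun v hv => IH v.length (by simp at hn; omega) v rfl
        rw [fockVec_cons hx, hu u le_rfl, hu u le_rfl]
        simp only [slotSum, sumCuts_cons, fockVec_nil, and_true]
        rw [hu u le_rfl l g1]
        have key : (sumCuts u fun u1 b u2 => if b = j then
              (σ j : ℂ) * fockVec x σ (k :: u1) (g, []) * slotSum x σ l g1 u2 else 0) =
            (sumCuts u fun u1 b u2 => if b = j then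
              (σ j : ℂ) * fockVec x σ u1 (x k * g, []) * slotSum x σ l g1 u2 else 0) +
            (σ k : ℂ) * sumCuts u fun u1 a w => if a = k then (σ k : ℂ) *
              fockVec x σ u1 (1, []) * (sumCuts w fun u2 b u' => if b = j then
                (σ j : ℂ) * fockVec x σ u2 (g, []) * slotSum x σ l g1 u' else 0) else 0 := by
          rw [← sumCuts_mul]
          have e1 : (sumCuts u fun u1 a w => (σ k : ℂ) * if a = k then (σ k : ℂ) *
              fockVec x σ u1 (1, []) * (sumCuts w fun u2 b u' => if b = j then
                (σ j : ℂ) * fockVec x σ u2 (g, []) * slotSum x σ l g1 u' else 0) else 0) =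
              sumCuts u fun u1 a w => sumCuts w fun u2 b u' =>
                (if b = j then (σ j : ℂ) * slotSum x σ l g1 u' * ((σ k : ℂ) *
                  if a = k then (σ k : ℂ) * fockVec x σ u1 (1, []) *
                    fockVec x σ u2 (g, []) else 0) else 0) := by
            refine sumCuts_congr fun u1 a w _ => ?_
            split_ifs with ha
            · rw [← mul_assoc, ← sumCuts_mul]
              refine sumCuts_congr fun u2 b u' _ => ?_
              split_ifs <;> ring
            · simp [sumCuts]
          rw [e1, ← sumCuts_assoc, ← sumCuts_add]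
          refine sumCuts_congr fun u0 b u' he => ?_
          have hlen : u0.length ≤ u.length := by rw [he]; simp
          split_ifs with hb
          · rw [fockVec_cons hx, hu u0 hlen [(k, g)] 1]
            simp only [slotSum, add_zero]
            rw [mul_add, add_mul]
            congr 1
            rw [← mul_assoc, mul_right_comm, ← sumCuts_mul]
            refine sumCuts_congr fun u1 a u2 _ => ?_
            split_ifs <;> ring
          · simp [sumCuts]
        rw [key]
        by_cases hg : g = 1
        · by_cases hj : j = k
          · subst hj; subst hg; simp; ring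
          · have hj' : ¬ k = j := fun h => hj h.symm
            simp [hg, hj, hj']
        · simp [hg]

/-- The coefficient of `Z^u Ω` at a group element is a moment. -/
theorem fockVec_eq_tMom (hx : ∀ i, x i * x i = 1) :
    ∀ (u v : List I), fockVec x σ u ((v.map x).prod⁻¹, []) = tMom (grpMom x) σ v u := by
  intro u
  induction hn : u.length using Nat.strong_induction_on generalizing u with
  | _ N IH =>
    intro v
    cases u with
    | nil =>
      rw [fockVec_nil, tMom_nil, grpMom]
      simp only [and_true, inv_eq_one]
      split_ifs <;> rfl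
    | cons k u =>
      have hu : ∀ w : List I, w.length ≤ u.length → ∀ v,
          fockVec x σ w ((v.map x).prod⁻¹, []) = tMom (grpMom x) σ v w :=
        fun w hw => IH w.length (by simp at hn; omega) w rfl
      rw [fockVec_cons hx, tMom_cons]
      have hinv : (x k)⁻¹ = x k := inv_eq_of_mul_eq_one_right (hx k)
      have h1 : x k * (v.map x).prod⁻¹ = ((v ++ [k]).map x).prod⁻¹ := by
        simp [hinv]
      rw [h1, hu u le_rfl, fockVec_eq_slotSum hx]
      congr 1
      simp only [slotSum, add_zero]
      rw [show ((cuts u).map fun c => if c.2.1 = k then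
          tMom (grpMom x) σ [] c.1 * tMom (grpMom x) σ v c.2.2 else 0).sum = sumCuts u fun a b c =>
          if b = k then tMom (grpMom x) σ [] a * tMom (grpMom x) σ v c else 0 from rfl,
        ← sumCuts_mul, ← sumCuts_mul]
      refine sumCuts_congr fun u1 b u2 he => ?_
      have l1 : u1.length ≤ u.length := by rw [he]; simp
      have l2 : u2.length ≤ u.length := by rw [he]; simp; omega
      have q1 := hu u1 l1 []
      simp at q1
      rw [q1, hu u2 l2 v]
      split_ifs <;> ring

theorem isSelfAdjoint_fockZ (hx : ∀ i, x i * x i = 1) (i : I) :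
    IsSelfAdjoint (fockZ x σ i) := by
  have hinv : (x i)⁻¹ = x i := inv_eq_of_mul_eq_one_right (hx i)
  simp [IsSelfAdjoint, fockZ, star_fockX, hinv, (isSelfAdjoint_fockS i).star_eq]

theorem law_fockZ (hx : ∀ i, x i * x i = 1) :
    law vac (fockZ x σ) = tMom (grpMom x) σ [] := by
  funext u
  have h := fockVec_eq_tMom (σ := σ) hx u []
  simp only [List.map_nil, List.prod_nil, inv_one] at h
  rw [← h]
  simp [law, fockVec, vac, inner_dl]

theorem inner_fockVec (hx : ∀ i, x i * x i = 1) :
    ∀ (v w : List I), ⟪fockVec x σ v, fockVec x σ w⟫_ℂ =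
      tMom (grpMom x) σ [] (v.reverse ++ w) := by
  intro v
  induction v with
  | nil =>
    intro w
    rw [← law_fockZ hx]
    simp [law, fockVec]
  | cons k v ih =>
    intro w
    have hz : ∀ a, fockVec x σ (k :: a) = fockZ x σ k (fockVec x σ a) := fun a => by
      simp [fockVec, mul_apply_eq_comp]
    rw [hz, ← ContinuousLinearMap.adjoint_inner_right, ← ContinuousLinearMap.star_eq_adjoint,
      (isSelfAdjoint_fockZ hx k).star_eq, ← hz, ih]
    simp

end moments

end Vale.Agent.P087
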