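import Vale.Agent.P087.Gauss.Limit
import Vale.Agent.P087.Gauss.Norm
import Vale.Agent.P087.Gauss.Density

/-!
P087: microstates of positive exponential volume for a tuple `X + σ S` whose law `m` of `X` has
matrix models.
-/

open MeasureTheory ProbabilityTheory Filter Matrix
open scoped Topology NNReal ENNReal ComplexConjugate

namespace Vale.Agent.P087.Gauss

variable {I : Type} {k : ℕ}

/-- The tuple `B + σ G` in coordinates. -/
noncomputable def shift (B : I → Matrix (Fin k) (Fin k) ℂ) (σ : I → ℝ)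
    (x : I × Fin k × Fin k → ℝ) : I × Fin k × Fin k → ℝ :=
  fun q => crd (B q.1) q.2 + σ q.1 * x q

variable (B : I → Matrix (Fin k) (Fin k) ℂ) (σ : I → ℝ)

lemma mat_shift (hB : ∀ i, (B i).IsHermitian) (x : I × Fin k × Fin k → ℝ) (i : I) :
    mat (shift B σ x) i = B i + (σ i : ℂ) • herm (fun p => x (i, p)) := by
  rw [mat, show (fun p => shift B σ x (i, p))
      = fun p => crd (B i) p + σ i * (fun p => x (i, p)) p from rfl,
    herm_add_smul, herm_crd (hB i)]

variable [Fintype I]

/-- Evaluation at real coordinates. -/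
noncomputable def evalX (x : I × Fin k × Fin k → ℝ) : Pol I k →+* ℂ :=
  MvPolynomial.eval fun a => (x a : ℂ)

omit [Fintype I] in
lemma eval_Lmat (hB : ∀ i, (B i).IsHermitian) (x : I × Fin k × Fin k → ℝ) (i : I) :
    (evalX x).mapMatrix (Lmat B σ (Sum.inr i)) = mat (shift B σ x) i := by
  refine Matrix.ext fun p q => ?_
  rw [mat_shift B σ hB]
  simp [Lmat, Gmat, evalX, herm_apply]
  ring

omit [Fintype I] in
lemma eval_T (hB : ∀ i, (B i).IsHermitian) (x : I × Fin k × Fin k → ℝ) (w : List I) :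
    pev (T B σ (w.map Sum.inr)) x = trk (w.map (mat (shift B σ x))).prod := by
  show evalX x _ = _
  have h : (evalX x).mapMatrix (W B σ (w.map Sum.inr)) = (w.map (mat (shift B σ x))).prod := by
    rw [W, map_list_prod, List.map_map, List.map_map]
    exact congrArg List.prod (List.map_congr_left fun i _ => eval_Lmat B σ hB x i)
  rw [T, map_mul, AddMonoidHom.map_trace, ← RingHom.mapMatrix_apply, h, trk]
  simp [evalX]

lemma conj_trk {J : Type*} (A : J → Matrix (Fin k) (Fin k) ℂ) (hA : ∀ i, (A i).IsHermitian)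
    (w : List J) : conj (trk (w.map A).prod) = trk (w.reverse.map A).prod := by
  have e : ((w.map A).prod)ᴴ = (w.reverse.map A).prod := by
    rw [Matrix.conjTranspose_list_prod, ← List.map_reverse, ← List.map_reverse, List.map_map]
    exact congrArg List.prod (List.map_congr_left fun i _ => hA i)
  rw [trk, trk, map_mul, starRingEnd_apply ((w.map A).prod.trace), ← trace_conjTranspose, e]
  simp

/-- Squared deviation of a moment, in terms of expected products of traces. -/
lemma deviation (hB : ∀ i, (B i).IsHermitian) (w : List I) (c : ℂ) :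
    Integrable (fun x => ‖trk (w.map (mat (shift B σ x))).prod - c‖ ^ 2)
      (Gv (I × Fin k × Fin k) (var k)) ∧
    ((∫ x, ‖trk (w.map (mat (shift B σ x))).prod - c‖ ^ 2
        ∂Gv (I × Fin k × Fin k) (var k) : ℝ) : ℂ)
      = Ev B σ [w.reverse.map Sum.inr, w.map Sum.inr] - conj c * Ev B σ [w.map Sum.inr]
        - c * Ev B σ [w.reverse.map Sum.inr] + conj c * c := by
  set P := T B σ (w.reverse.map Sum.inr) with hP
  set Q := T B σ (w.map Sum.inr) with hQ
  set S : Pol I k := P * Q + MvPolynomial.C (-conj c) * Q + MvPolynomial.C (-c) * P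
    + MvPolynomial.C (conj c * c) with hS
  have e : ∀ x, ((‖trk (w.map (mat (shift B σ x))).prod - c‖ ^ 2 : ℝ) : ℂ) = pev S x := by
    intro x
    have h1 : conj (pev Q x) = pev P x := by
      rw [eval_T B σ hB, eval_T B σ hB]
      exact conj_trk _ (fun i => herm_isHermitian _) w
    rw [← eval_T B σ hB]
    push_cast
    rw [← Complex.conj_mul', map_sub, h1]
    simp [hS, pev]
    ring
  constructor
  · have h := (integrable_pev (var k) S).re
    refine h.congr (Eventually.of_forall fun x => ?_)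
    show RCLike.re (pev S x) = _
    rw [← e x]
    rfl
  · rw [← integral_complex_ofReal, integral_congr_ae (Eventually.of_forall e)]
    show Ex (var k) S = _
    rw [hS, Ex_add, Ex_add, Ex_add, Ex_C_mul, Ex_C_mul, Ex_const]
    simp only [Ev, TT, List.map_cons, List.map_nil, List.prod_cons, List.prod_nil, mul_one,
      ← hP, ← hQ]
    ring

omit [Fintype I] in
lemma shift_measurable : Measurable (shift B σ) := by unfold shift; fun_prop

variable [DecidableEq I]

omit [DecidableEq I] in
/-- The law of `shift` is dominated by Lebesgue measure. -/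
lemma prob_le_volume (hσ : ∀ i, 0 < σ i) (hk : k ≠ 0) (S : Set (I × Fin k × Fin k → ℝ)) :
    Gv (I × Fin k × Fin k) (var k) (shift B σ ⁻¹' S) ≤
      ENNReal.ofReal (∏ q : I × Fin k × Fin k, (Real.sqrt (2 * Real.pi * (σ q.1 ^ 2 / k)))⁻¹)
        * volume S := by
  let v' : I × Fin k × Fin k → ℝ≥0 := fun q => (σ q.1 ^ 2).toNNReal * var k
  have hv' : ∀ q, v' q ≠ 0 := fun q => mul_ne_zero
    (Real.toNNReal_pos.2 (pow_pos (hσ q.1) 2)).ne' (by simp [var, hk])
  have hmap : (Gv (I × Fin k × Fin k) (var k)).map (shift B σ)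
      = Measure.pi fun q => gaussianReal (crd (B q.1) q.2) (v' q) := by
    rw [Gv, show shift B σ = fun x q => (fun y => crd (B q.1) q.2 + σ q.1 * y) (x q) from rfl,
      Measure.pi_map_pi (f := fun (q : I × Fin k × Fin k) (y : ℝ) => crd (B q.1) q.2 + σ q.1 * y)
        (fun q => by fun_prop)]
    congr 1
    funext q
    rw [show (fun y : ℝ => crd (B q.1) q.2 + σ q.1 * y)
        = (fun z => crd (B q.1) q.2 + z) ∘ (fun y => σ q.1 * y) from rfl,
      ← Measure.map_map (measurable_const_add _) (measurable_const_mul _),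
      gaussianReal_map_const_mul, gaussianReal_map_const_add]
    simp [v', Real.toNNReal_of_nonneg (sq_nonneg (σ q.1))]
  refine (Measure.le_map_apply (shift_measurable B σ).aemeasurable S).trans ?_
  rw [hmap, volume_pi, ENNReal.ofReal_prod_of_nonneg fun q _ => by positivity]
  have hpos : ∀ q : I × Fin k × Fin k, 0 < (Real.sqrt (2 * Real.pi * (σ q.1 ^ 2 / k)))⁻¹ := by
    intro q
    have := hσ q.1
    have : (0 : ℝ) < k := Nat.cast_pos.2 (Nat.pos_of_ne_zero hk)
    positivity
  refine pi_le _ _ _ (fun q => by simpa using hpos q) (fun q => ENNReal.ofReal_ne_top)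
    (fun q s => ?_) S
  refine (gaussian_le_volume _ (hv' q) s).trans_eq ?_
  rw [show ((v' q : ℝ≥0) : ℝ) = σ q.1 ^ 2 / k by
    simp only [v', var, NNReal.coe_mul, Real.coe_toNNReal _ (sq_nonneg _), NNReal.coe_inv,
      NNReal.coe_natCast, div_eq_mul_inv]]

/-- Along matrix models the microstate sets have exponential volume. -/
theorem eventually_volume {m : List I → ℂ} {σ : I → ℝ} (hσ : ∀ i, 0 < σ i) {d : ℕ → ℕ}
    (Bs : ∀ j, I → Matrix (Fin (d j)) (Fin (d j)) ℂ) (hd : ∀ j, d j ≠ 0)
    (hdt : Tendsto d atTop atTop) (hB : ∀ j i, (Bs j i).IsHermitian ∧ opNorm (Bs j i) ≤ 1)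
    (hm : ∀ v : List I, Tendsto (fun j => trk (v.map (Bs j)).prod) atTop (𝓝 (m v)))
    (M : ℕ) {ε : ℝ} (hε : 0 < ε) :
    ∀ᶠ j in atTop, ENNReal.ofReal (1 / 2 *
        ∏ q : I × Fin (d j) × Fin (d j), Real.sqrt (2 * Real.pi * (σ q.1 ^ 2 / d j))) ≤
      volume (Gamma (tMom m σ []) (1 + ∑ i, 16 * σ i) M (d j) ε) := by
  classical
  let Ws : Finset (List I) := (List.finite_length_le I M).toFinset
  let bad : ∀ j, List I → Set (I × Fin (d j) × Fin (d j) → ℝ) := fun j w =>
    {x | ε ^ 2 ≤ ‖trk (w.map (mat (shift (Bs j) σ x))).prod - tMom m σ [] w‖ ^ 2}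
  let badN : ∀ j, I → Set (I × Fin (d j) × Fin (d j) → ℝ) := fun j i =>
    {x | 16 < opNorm (herm fun p => x (i, p))}
  let P : ∀ j, Measure (I × Fin (d j) × Fin (d j) → ℝ) := fun j =>
    Gv (I × Fin (d j) × Fin (d j)) (var (d j))
  have hw : ∀ w : List I, Tendsto (fun j => (P j).real (bad j w)) atTop (𝓝 0) := by
    intro w
    set c := tMom m σ [] w
    set c' := tMom m σ [] w.reverse
    have h := fun l => tendsto_spec σ Bs m hd hdt hm l
    have h2 := h [([], w.reverse), ([], w)]
    have h1 := h [([], w)]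
    have h0 := h [([], w.reverse)]
    simp only [List.map_cons, List.map_nil, spec, List.nil_append, List.prod_cons, List.prod_nil,
      mul_one] at h2 h1 h0
    have key : Tendsto (fun j => ∫ x, ‖trk (w.map (mat (shift (Bs j) σ x))).prod - c‖ ^ 2 ∂P j)
        atTop (𝓝 0) := by
      have hc := (((h2.sub (h1.const_mul (conj c))).sub (h0.const_mul c)).add_const (conj c * c))
      have : c' * c - conj c * c - c * c' + conj c * c = 0 := by ring
      rw [this] at hc
      have hre := (Complex.continuous_re.tendsto _).comp hc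
      simp only [Complex.zero_re] at hre
      refine hre.congr fun j => ?_
      simp only [Function.comp_apply, ← (deviation (Bs j) σ (fun i => (hB j i).1) w c).2,
        Complex.ofReal_re]
      rfl
    refine squeeze_zero (fun j => measureReal_nonneg) (fun j => ?_)
      (by simpa using key.const_mul (ε ^ 2)⁻¹)
    have h3 := mul_meas_ge_le_integral_of_nonneg (Eventually.of_forall fun x => sq_nonneg _)
      (deviation (Bs j) σ (fun i => (hB j i).1) w c).1 (ε ^ 2)
    rw [inv_mul_eq_div, le_div_iff₀ (pow_pos hε 2), mul_comm]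
    exact h3
  have hN : ∀ i, Tendsto (fun j => (P j).real (badN j i)) atTop (𝓝 0) := fun i =>
    squeeze_zero (fun j => measureReal_nonneg) (fun j => opNorm_tail (hd j) i)
      ((tendsto_pow_atTop_nhds_zero_of_lt_one (by positivity) ratio_lt_one).comp hdt)
  have hsum : Tendsto (fun j => ∑ w ∈ Ws, (P j).real (bad j w) + ∑ i, (P j).real (badN j i))
      atTop (𝓝 0) := by
    simpa using (tendsto_finsetSum Ws fun w _ => hw w).add (tendsto_finsetSum _ fun i _ => hN i)
  filter_upwards [hsum.eventually_lt_const (show (0 : ℝ) < 1 / 2 by norm_num)] with j hj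
  set G := Gamma (tMom m σ []) (1 + ∑ i, 16 * σ i) M (d j) ε
  have hsub : (Set.univ : Set _) ⊆
      shift (Bs j) σ ⁻¹' G ∪ ((⋃ w ∈ Ws, bad j w) ∪ ⋃ i, badN j i) := by
    intro x _
    by_contra hne
    simp only [Set.mem_union, Set.mem_iUnion, Set.mem_preimage, not_or, not_exists, bad, badN,
      Set.mem_ofPred_eq, not_le, not_lt] at hne
    refine hne.1 ⟨fun i => ?_, fun w h1 hM => ?_⟩
    · rw [opNorm_eq, mat_shift _ σ (fun i => (hB j i).1), map_add, map_smul]
      refine (norm_add_le _ _).trans (add_le_add (hB j i).2 ?_)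
      rw [norm_smul, Complex.norm_real, Real.norm_of_nonneg (hσ i).le]
      calc σ i * _ ≤ σ i * 16 := mul_le_mul_of_nonneg_left (hne.2.2 i) (hσ i).le
        _ ≤ _ := by
          rw [mul_comm]
          exact Finset.single_le_sum (f := fun b => 16 * σ b)
            (fun b _ => by have := hσ b; positivity) (Finset.mem_univ i)
    · exact lt_of_pow_lt_pow_left₀ 2 hε.le (hne.2.1 w (by simpa [Ws] using hM))
  have h1 : (1 : ℝ) ≤ (P j).real (shift (Bs j) σ ⁻¹' G) + 1 / 2 := by
    have hu := (measureReal_mono (μ := P j) hsub (measure_ne_top _ _)).trans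
      ((measureReal_union_le _ _).trans (add_le_add le_rfl ((measureReal_union_le _ _).trans
        (add_le_add (measureReal_biUnion_finset_le _ _) (measureReal_iUnion_fintype_le _)))))
    rw [probReal_univ] at hu
    linarith
  have hpr : ENNReal.ofReal (1 / 2) ≤ P j (shift (Bs j) σ ⁻¹' G) := by
    rw [← ofReal_measureReal (μ := P j)]
    exact ENNReal.ofReal_le_ofReal (by linarith)
  have hle := hpr.trans (prob_le_volume (Bs j) σ hσ (hd j) G)
  set Q := ∏ q : I × Fin (d j) × Fin (d j), Real.sqrt (2 * Real.pi * (σ q.1 ^ 2 / d j)) with hQ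
  have hQpos : 0 < Q := Finset.prod_pos fun q _ => by
    have := hσ q.1
    have : (0 : ℝ) < d j := Nat.cast_pos.2 (Nat.pos_of_ne_zero (hd j))
    positivity
  rw [Finset.prod_inv_distrib, ← hQ] at hle
  calc ENNReal.ofReal (1 / 2 * Q) = ENNReal.ofReal Q * ENNReal.ofReal (1 / 2) := by
        rw [ENNReal.ofReal_mul (by norm_num), mul_comm]
    _ ≤ ENNReal.ofReal Q * (ENNReal.ofReal Q⁻¹ * volume G) := by gcongr
    _ = volume G := by
        rw [← mul_assoc, ← ENNReal.ofReal_mul hQpos.le, mul_inv_cancel₀ hQpos.ne',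
          ENNReal.ofReal_one, one_mul]

omit [DecidableEq I] in
lemma log_bound {σ : I → ℝ} (hσ : ∀ i, 0 < σ i) (hk : k ≠ 0) :
    -Real.log 2 + ∑ i, Real.log (2 * Real.pi * σ i ^ 2) / 2 ≤
      ((k : ℝ) ^ 2)⁻¹ * Real.log (1 / 2 *
          ∏ q : I × Fin k × Fin k, Real.sqrt (2 * Real.pi * (σ q.1 ^ 2 / k)))
        + (Fintype.card I : ℝ) / 2 * Real.log k := by
  have hk' : (1 : ℝ) ≤ k := by exact_mod_cast Nat.one_le_iff_ne_zero.2 hk
  have hpos : ∀ i, (0 : ℝ) < 2 * Real.pi * (σ i ^ 2 / k) := fun i => by have := hσ i; positivity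
  have h2 : (0 : ℝ) < ∏ q : I × Fin k × Fin k, Real.sqrt (2 * Real.pi * (σ q.1 ^ 2 / k)) :=
    Finset.prod_pos fun q _ => Real.sqrt_pos.2 (hpos q.1)
  rw [Real.log_mul (by norm_num) h2.ne', one_div, Real.log_inv,
    Real.log_prod (fun q _ => (Real.sqrt_pos.2 (hpos q.1)).ne')]
  have e : ∀ q : I × Fin k × Fin k, Real.log (Real.sqrt (2 * Real.pi * (σ q.1 ^ 2 / k)))
      = (Real.log (2 * Real.pi * σ q.1 ^ 2) - Real.log k) / 2 := by
    intro q
    have := hσ q.1
    rw [Real.log_sqrt (hpos q.1).le, ← mul_div_assoc, Real.log_div (by positivity) (by linarith)]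
  simp only [e, Fintype.sum_prod_type, Finset.sum_const, Finset.card_univ, Fintype.card_prod,
    Fintype.card_fin, Nat.cast_mul, nsmul_eq_mul, sub_div, Finset.sum_sub_distrib]
  rw [← Finset.mul_sum]
  have hl : 0 ≤ Real.log 2 := Real.log_nonneg (by norm_num)
  have hkk : ((k : ℝ) ^ 2)⁻¹ ≤ 1 := inv_le_one_of_one_le₀ (one_le_pow₀ hk')
  have hmul : ((k : ℝ) ^ 2)⁻¹ * Real.log 2 ≤ Real.log 2 := mul_le_of_le_one_left hl hkk
  set A := ∑ i, Real.log (2 * Real.pi * σ i ^ 2) / 2
  have e2 : ((k : ℝ) ^ 2)⁻¹ * (-Real.log 2 + ((k : ℝ) * (k : ℝ) * A -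
      (Fintype.card I : ℝ) * ((k : ℝ) * (k : ℝ)) * (Real.log k / 2))) + (Fintype.card I : ℝ) / 2 * Real.log k
      = -(((k : ℝ) ^ 2)⁻¹ * Real.log 2) + A := by
    field_simp
    ring
  linarith

end Vale.Agent.P087.Gauss

namespace Vale.Agent.P087

open Gauss

/-- Models plus semicircular noise give finite microstates free entropy. -/
theorem gaussStmt : GaussStmt := by
  intro I _ _ m σ hσ hmod
  choose d hd B hB hmom using fun j => hmod j (j + 1)
  have hd0 : ∀ j, d j ≠ 0 := fun j => by have := hd j; omega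
  have hdt : Tendsto d atTop atTop :=
    tendsto_atTop_mono (fun j => (Nat.le_succ j).trans (hd j)) tendsto_id
  have hm : ∀ v : List I, Tendsto (fun j => trk (v.map (B j)).prod) atTop (𝓝 (m v)) := fun v =>
    tendsto_const_nhds.congr' ((eventually_ge_atTop v.length).mono fun j hj => (hmom j v hj).symm)
  set c : ℝ := -Real.log 2 + ∑ i, Real.log (2 * Real.pi * σ i ^ 2) / 2 with hc
  have hR : (0 : ℝ) < 1 + ∑ i, 16 * σ i := by
    have : 0 ≤ ∑ i, 16 * σ i := Finset.sum_nonneg fun i _ => by have := hσ i; positivity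
    linarith
  refine lt_of_lt_of_le (EReal.bot_lt_coe c) (le_trans ?_ (le_iSup₂ (1 + ∑ i, 16 * σ i) hR))
  refine le_iInf fun M => le_iInf₂ fun ε hε => le_limsup_of_frequently_le ?_
  refine hdt.frequently (Eventually.frequently ?_)
  filter_upwards [eventually_volume hσ B hd0 hdt hB hm M hε] with j hj
  set r : ℝ := 1 / 2 * ∏ q : I × Fin (d j) × Fin (d j), Real.sqrt (2 * Real.pi * (σ q.1 ^ 2 / d j))
  have hr : 0 < r := by
    refine mul_pos (by norm_num) (Finset.prod_pos fun q _ => ?_)
    have := hσ q.1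
    have : (0 : ℝ) < d j := Nat.cast_pos.2 (Nat.pos_of_ne_zero (hd0 j))
    positivity
  have h := log_bound hσ (hd0 j)
  calc ((c : ℝ) : EReal)
      ≤ (((((d j : ℝ) ^ 2)⁻¹ * Real.log r + (Fintype.card I : ℝ) / 2 * Real.log (d j)) : ℝ) : EReal) :=
        EReal.coe_le_coe_iff.2 h
    _ = ((((d j : ℝ) ^ 2)⁻¹ : ℝ) : EReal) * ENNReal.log (ENNReal.ofReal r) +
          (((Fintype.card I : ℝ) / 2 * Real.log (d j) : ℝ) : EReal) := by
        rw [EReal.coe_add, EReal.coe_mul, ENNReal.log_ofReal_of_pos hr]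
    _ ≤ _ := by
        refine add_le_add (mul_le_mul_of_nonneg_left (ENNReal.log_le_log hj) ?_) le_rfl
        exact EReal.coe_nonneg.2 (by positivity)

end Vale.Agent.P087
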