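import Vale.Agent.P087.Interfaces

/-!
A group with `n` free involutions that are short words in three involutions, its trivial-word
count and its finite matrix models (P087).

The group is realised on reduced lists: `tog j` toggles the head letter `j`, and a bijection of
the alphabet acts letterwise. The finite models are the same permutations on lists of bounded
length over `ZMod N`.
-/

namespace Vale.Agent.P087.Group

open scoped Matrix

section lists

variable {R : Type} [DecidableEq R] {L : ℕ∞}

/-- Reduced lists of length at most `L`. -/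
abbrev St (R : Type) (L : ℕ∞) : Type :=
  {l : List R // l.IsChain (· ≠ ·) ∧ (l.length : ℕ∞) ≤ L}

/-- Toggle the head letter, or do nothing at the cap. -/
def tgl (L : ℕ∞) (j : R) : List R → List R
  | [] => if (0 : ℕ∞) < L then [j] else []
  | i :: l => if i = j then l else if ((i :: l).length : ℕ∞) < L then j :: i :: l else i :: l

lemma tgl_valid (j : R) (l : St R L) :
    (tgl L j l.1).IsChain (· ≠ ·) ∧ ((tgl L j l.1).length : ℕ∞) ≤ L := by
  obtain ⟨l, hc, hl⟩ := l
  cases l with
  | nil =>
    simp only [tgl]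
    split
    · exact ⟨List.isChain_singleton _, by simpa using Order.one_le_iff_pos.2 ‹_›⟩
    · exact ⟨hc, hl⟩
  | cons i l =>
    simp only [tgl]
    split_ifs with hij hlt
    · exact ⟨hc.tail, le_trans (Nat.cast_le.2 (Nat.le_succ _)) hl⟩
    · exact ⟨List.isChain_cons_cons.2 ⟨Ne.symm hij, hc⟩, Order.add_one_le_of_lt hlt⟩
    · exact ⟨hc, hl⟩

lemma tgl_tgl (j : R) (l : St R L) : tgl L j (tgl L j l.1) = l.1 := by
  obtain ⟨l, hc, hl⟩ := l
  cases l with
  | nil => by_cases h : (0 : ℕ∞) < L <;> simp [tgl, h]
  | cons i l =>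
    by_cases hij : i = j
    · subst hij
      have hlt : (l.length : ℕ∞) < L :=
        lt_of_lt_of_le (Nat.cast_lt.2 (Nat.lt_succ_self _)) hl
      cases l with
      | nil => simp [tgl, show (0 : ℕ∞) < L by simpa using hlt]
      | cons i' l' =>
        simp only [tgl, if_true, if_neg (Ne.symm (List.isChain_cons_cons.1 hc).1), if_pos hlt]
    · by_cases hlt : ((i :: l).length : ℕ∞) < L
      · simp only [tgl, if_neg hij, if_pos hlt, if_true]
      · simp only [tgl, if_neg hij, if_neg hlt]

/-- The involution toggling `j`. -/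
def tog (L : ℕ∞) (j : R) : Equiv.Perm (St R L) :=
  Function.Involutive.toPerm (fun l => ⟨tgl L j l.1, tgl_valid j l⟩)
    fun l => Subtype.ext (tgl_tgl j l)

lemma tog_val (j : R) (l : St R L) : (tog L j l).1 = tgl L j l.1 := rfl

lemma tog_mul_self (j : R) : tog L j * tog L j = 1 :=
  Equiv.ext fun l => Subtype.ext (tgl_tgl j l)

omit [DecidableEq R] in
lemma map_valid (f : Equiv.Perm R) (l : St R L) :
    (l.1.map f).IsChain (· ≠ ·) ∧ ((l.1.map f).length : ℕ∞) ≤ L :=
  ⟨(List.isChain_map _).2 (l.2.1.imp fun _ _ h => f.injective.ne h),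
    by simpa using l.2.2⟩

/-- A bijection of the alphabet acting letterwise. -/
def lm (L : ℕ∞) : Equiv.Perm R →* Equiv.Perm (St R L) where
  toFun f :=
    { toFun := fun l => ⟨l.1.map f, map_valid f l⟩
      invFun := fun l => ⟨l.1.map f.symm, map_valid f.symm l⟩
      left_inv := fun l => Subtype.ext (by simp [List.map_map])
      right_inv := fun l => Subtype.ext (by simp [List.map_map]) }
  map_one' := Equiv.ext fun l => Subtype.ext (by simp)
  map_mul' f g := Equiv.ext fun l => Subtype.ext (by simp [List.map_map, Function.comp_def])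

omit [DecidableEq R] in
lemma lm_val (f : Equiv.Perm R) (l : St R L) : (lm L f l).1 = l.1.map f := rfl

lemma map_tgl (f : Equiv.Perm R) (j : R) (l : List R) :
    (tgl L j l).map f = tgl L (f j) (l.map f) := by
  cases l with
  | nil => simp only [tgl, List.map_nil]; split <;> simp
  | cons i l =>
    simp only [tgl, List.map_cons, EmbeddingLike.apply_eq_iff_eq, List.length_cons,
      List.length_map]
    split_ifs <;> simp

lemma lm_mul_tog (f : Equiv.Perm R) (j : R) : lm L f * tog L j = tog L (f j) * lm L f :=
  Equiv.ext fun l => Subtype.ext (map_tgl f j l.1)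

/-- The empty list. -/
def nilSt (R : Type) (L : ℕ∞) : St R L := ⟨[], List.isChain_nil, by simp⟩

end lists

section words

variable {R : Type} [CommRing R] [DecidableEq R] {L : ℕ∞}

/-- Letters: a toggle, or the flip `i ↦ d - i` of the alphabet. -/
inductive Gen
  | tog (j : ℤ)
  | flip (d : ℤ)

/-- The parameter of a letter. -/
def Gen.par : Gen → ℤ
  | .tog j => j
  | .flip d => d

/-- The flip `i ↦ d - i`. -/
def flipR (d : R) : Equiv.Perm R :=
  Function.Involutive.toPerm (fun i => d - i) fun i => by simp

omit [DecidableEq R] in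
lemma flipR_apply (d i : R) : flipR d i = d - i := rfl

/-- `i ↦ c ± i`. -/
def affR (b : Bool) (c : R) : Equiv.Perm R := if b then flipR c else Equiv.addLeft c

omit [DecidableEq R] in
lemma affR_zero : affR false (0 : R) = 1 := Equiv.ext fun i => by simp [affR]

/-- The action of a letter. -/
def act (R : Type) [CommRing R] [DecidableEq R] (L : ℕ∞) : Gen → Equiv.Perm (St R L)
  | .tog j => Group.tog L (j : R)
  | .flip d => lm L (flipR (d : R))

lemma act_mul_self (g : Gen) : act R L g * act R L g = 1 := by
  cases g with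
  | tog j => exact tog_mul_self _
  | flip d =>
    rw [act, ← map_mul, show flipR (d : R) * flipR (d : R) = 1 from
      Equiv.ext fun i => by simp [flipR_apply], map_one]

/-- Normal form of a word: a reduced word and an affine map. -/
def st : List Gen → List ℤ × Bool × ℤ
  | [] => ([], false, 0)
  | .tog j :: v => (tgl ⊤ j (st v).1, (st v).2.1, (st v).2.2)
  | .flip d :: v => ((st v).1.map (d - ·), !(st v).2.1, d - (st v).2.2)

/-- Product of the toggles of a word. -/
def togs (R : Type) [CommRing R] [DecidableEq R] (L : ℕ∞) (r : List ℤ) : Equiv.Perm (St R L) :=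
  (r.map fun j : ℤ => Group.tog L (j : R)).prod

lemma togs_tgl (j : ℤ) (r : List ℤ) :
    togs R L (tgl ⊤ j r) = Group.tog L (j : R) * togs R L r := by
  cases r with
  | nil => simp [tgl, togs]
  | cons i r =>
    by_cases h : i = j
    · subst h
      simp [tgl, togs, ← mul_assoc, tog_mul_self]
    · simp [tgl, togs, h]

lemma lm_mul_togs (d : ℤ) (r : List ℤ) :
    lm L (flipR (d : R)) * togs R L r =
      togs R L (r.map (d - ·)) * lm L (flipR (d : R)) := by
  induction r with
  | nil => simp [togs]
  | cons i r ih =>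
    simp only [togs, List.map_cons, List.prod_cons] at ih ⊢
    rw [← mul_assoc, lm_mul_tog, mul_assoc, ih, ← mul_assoc, flipR_apply, Int.cast_sub]

lemma prod_act (v : List Gen) :
    (v.map (act R L)).prod = togs R L (st v).1 * lm L (affR (st v).2.1 ((st v).2.2 : R)) := by
  induction v with
  | nil =>
    simp [st, togs, affR_zero]
  | cons g v ih =>
    rw [List.map_cons, List.prod_cons, ih]
    cases g with
    | tog j => simp only [act, st]; rw [togs_tgl, mul_assoc]
    | flip d =>
      simp only [act, st]
      rw [← mul_assoc, lm_mul_togs, mul_assoc, ← map_mul]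
      congr 2
      refine Equiv.ext fun i => ?_
      cases (st v).2.1 <;> simp [affR, flipR_apply] <;> ring

lemma st_spec (B : ℤ) (hB : 0 ≤ B) (v : List Gen) (hv : ∀ g ∈ v, |g.par| ≤ B) :
    (st v).1.IsChain (· ≠ ·) ∧ (st v).1.length ≤ v.length ∧
      (∀ i ∈ (st v).1, |i| ≤ B * v.length) ∧ |(st v).2.2| ≤ B * v.length := by
  induction v with
  | nil => simp [st]
  | cons g v ih =>
    obtain ⟨hc, hl, hi, hn⟩ := ih fun g hg => hv g (List.mem_cons_of_mem _ hg)
    have hg := hv g List.mem_cons_self
    have hBv : 0 ≤ B * (v.length : ℤ) := by positivity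
    have he : B * ((g :: v).length : ℤ) = B * v.length + B := by
      rw [List.length_cons]; push_cast; ring
    rw [he]
    cases g with
    | tog j =>
      simp only [Gen.par] at hg
      simp only [st, List.length_cons]
      refine ⟨(tgl_valid (L := ⊤) j ⟨_, hc, le_top⟩).1, ?_, ?_, by linarith⟩
      · cases hr : (st v).1 with
        | nil => simp [tgl]
        | cons i r =>
          rw [hr] at hl
          by_cases h : i = j <;> simp [tgl, h] at hl ⊢ <;> omega
      · intro a ha
        have : a = j ∨ a ∈ (st v).1 := by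
          cases hr : (st v).1 with
          | nil => simp [hr, tgl] at ha; exact Or.inl ha
          | cons i r =>
            by_cases h : i = j
            · simp [hr, tgl, h] at ha ⊢; tauto
            · simp [hr, tgl, h] at ha ⊢; tauto
        rcases this with rfl | h
        · linarith
        · linarith [hi a h]
    | flip d =>
      simp only [Gen.par] at hg
      simp only [st, List.length_cons, List.length_map]
      refine ⟨(List.isChain_map _).2 (hc.imp fun a b h => by simpa using h), by omega, ?_, ?_⟩
      · intro a ha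
        obtain ⟨i, hi', rfl⟩ := List.mem_map.1 ha
        linarith [abs_sub d i, hi i hi']
      · linarith [abs_sub d (st v).2.2]

lemma togs_nil (r : List ℤ) (hc : (r.map fun j : ℤ => (j : R)).IsChain (· ≠ ·))
    (hl : (r.length : ℕ∞) ≤ L) :
    (togs R L r (nilSt R L)).1 = r.map fun j : ℤ => (j : R) := by
  induction r with
  | nil => rfl
  | cons i r ih =>
    have hlt : (r.length : ℕ∞) < L := lt_of_lt_of_le (Nat.cast_lt.2 (Nat.lt_succ_self _)) hl
    have h := ih hc.tail hlt.le
    simp only [togs, List.map_cons, List.prod_cons, Equiv.Perm.mul_apply, tog_val] at h ⊢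
    rw [h]
    cases r with
    | nil => simp [tgl, show (0 : ℕ∞) < L by simpa using hlt]
    | cons i' r' =>
      simp only [List.map_cons] at hc ⊢
      simp only [tgl, if_neg (Ne.symm (List.isChain_cons_cons.1 hc).1)]
      rw [if_pos (by simpa using hlt)]

/-- A word is trivial exactly when its normal form is, if the alphabet is large enough. -/
lemma prod_act_eq_one_iff (v : List Gen) (B K : ℤ) (hB : 0 ≤ B) (hv : ∀ g ∈ v, |g.par| ≤ B)
    (hK : B * v.length + 1 ≤ K)
    (hR : ∀ i j : ℤ, |i| ≤ K → |j| ≤ K → (i : R) = (j : R) → i = j)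
    (hL : (v.length : ℕ∞) ≤ L) (hL1 : (1 : ℕ∞) ≤ L) :
    (v.map (act R L)).prod = 1 ↔ st v = ([], false, 0) := by
  obtain ⟨hc, hl, hi, hn⟩ := st_spec B hB v hv
  have hK1 : (1 : ℤ) ≤ K := by nlinarith [show (0 : ℤ) ≤ v.length by positivity]
  rw [prod_act]
  constructor
  · intro h
    generalize hs : st v = s at h hc hl hi hn
    obtain ⟨r, b, c⟩ := s
    simp only at h hc hl hi hn
    have hr : r = [] := by
      have h0 := congrArg (fun σ : Equiv.Perm (St R L) => (σ (nilSt R L)).1) h
      have hnil : lm L (affR b (c : R)) (nilSt R L) = nilSt R L := Subtype.ext rfl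
      simp only [Equiv.Perm.mul_apply, hnil, Equiv.Perm.one_apply] at h0
      rw [togs_nil r ((List.isChain_map _).2 ((List.IsChain.iff_mem.1 hc).imp
          fun a b ⟨ha, hb, hab⟩ he => hab (hR a b (by linarith [hi a ha]) (by linarith [hi b hb]) he)))
        (le_trans (Nat.cast_le.2 hl) hL)] at h0
      simpa [nilSt] using h0
    subst hr
    simp only [togs, List.map_nil, List.prod_nil, one_mul] at h
    have hone : ∀ i : R, affR b (c : R) i = i := by
      intro i
      have h1 := congrArg (fun σ : Equiv.Perm (St R L) =>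
        (σ ⟨[i], List.isChain_singleton _, by simpa using hL1⟩).1) h
      simpa [lm_val] using h1
    have hc0 : c = 0 := by
      refine hR c 0 (by linarith) (by simpa using (by linarith : (0 : ℤ) ≤ K)) ?_
      have := hone 0
      cases b <;> simpa [affR, flipR_apply] using this
    subst hc0
    cases b with
    | false => rfl
    | true =>
      exfalso
      have := hone 1
      simp [affR, flipR_apply] at this
      exact absurd (hR (-1) 1 (by simpa using hK1) (by simpa using hK1) (by simpa using this))
        (by norm_num)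
  · intro h
    rw [h]
    simp [togs, affR_zero]

end words

/-- The generators: `e_(j+1)` and the roots `i ↦ -i`, `i ↦ 1 - i`, `e_0`. -/
def gen (n : ℕ) : Fin n ⊕ Fin 3 → Gen :=
  Sum.elim (fun j => .tog (((j : ℕ) : ℤ) + 1)) ![.flip 0, .flip 1, .tog 0]

/-- The group of all permutations of reduced lists of integers. -/
abbrev GZ : Type := Equiv.Perm (St ℤ ⊤)

/-- The generators in the group. -/
def xg (n : ℕ) (i : Fin n ⊕ Fin 3) : GZ := act ℤ ⊤ (gen n i)

/-- `e_s` as a word in the roots. -/
def gw : ℕ → List (Fin 3)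
  | 0 => [2]
  | s + 1 => 1 :: 0 :: (gw s ++ [0, 1])

lemma length_gw (s : ℕ) : (gw s).length = 4 * s + 1 := by
  induction s with
  | zero => rfl
  | succ s ih => simp [gw, ih]; ring

lemma prod_gw (n s : ℕ) :
    ((gw s).map fun a => xg n (Sum.inr a)).prod = tog ⊤ (s : ℤ) := by
  induction s with
  | zero => simp [gw, xg, gen, act]
  | succ s ih =>
    simp only [gw, List.map_cons, List.map_append, List.map_nil, List.prod_cons,
      List.prod_append, List.prod_nil, mul_one, ih]
    simp only [xg, gen, Sum.elim_inr, Matrix.cons_val_zero, Matrix.cons_val_one]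
    simp only [act]
    rw [← mul_assoc (tog ⊤ (s : ℤ)), ← mul_assoc, ← mul_assoc, ← map_mul, ← mul_assoc (lm ⊤ _),
      lm_mul_tog, mul_assoc (tog ⊤ _), ← map_mul, mul_assoc, ← map_mul]
    have hinv : ∀ a b : ℤ, flipR a * flipR b * flipR b * flipR a = 1 := fun a b =>
      Equiv.ext fun i => by simp [flipR_apply]
    rw [hinv, map_one, mul_one]
    congr 1
    simp [flipR_apply]
    ring

lemma xg_injective (n : ℕ) : Function.Injective (xg n) := by
  intro i j h
  have h0 := congrArg (fun σ : GZ => (σ (nilSt ℤ ⊤)).1) h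
  have h1 := congrArg
    (fun σ : GZ => (σ ⟨[0], List.isChain_singleton _, le_top⟩).1) h
  rcases i with a | a <;> rcases j with b | b
  · have : (a : ℕ) = b := by simpa [xg, gen, act, tog_val, nilSt, tgl] using h0
    rw [Fin.ext this]
  · fin_cases b <;> simp [xg, gen, act, tog_val, lm_val, nilSt, tgl] at h0
    all_goals omega
  · fin_cases a <;> simp [xg, gen, act, tog_val, lm_val, nilSt, tgl] at h0
    all_goals omega
  · fin_cases a <;> fin_cases b <;>
      simp [xg, gen, act, tog_val, lm_val, flipR_apply, nilSt, tgl] at h0 h1 ⊢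

lemma xg_ne_one (n : ℕ) (i : Fin n ⊕ Fin 3) : xg n i ≠ 1 := by
  intro h
  have h0 := congrArg (fun σ : GZ => (σ (nilSt ℤ ⊤)).1) h
  have h1 := congrArg
    (fun σ : GZ => (σ ⟨[1], List.isChain_singleton _, le_top⟩).1) h
  rcases i with a | a
  · simp [xg, gen, act, tog_val, nilSt, tgl] at h0
  · fin_cases a <;> simp [xg, gen, act, tog_val, lm_val, flipR_apply, nilSt, tgl] at h0 h1

/-- The weight step: one application of the generators multiplies the weight by at most
`2√n + 3` in sum. -/
lemma weight_step (n : ℕ) (l : St ℤ ⊤) :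
    ∑ i, (if n = 0 then (1 : ℝ) else 1 / Real.sqrt n) ^ (xg n i l).1.length ≤
      (2 * Real.sqrt n + 3) * (if n = 0 then (1 : ℝ) else 1 / Real.sqrt n) ^ l.1.length := by
  set t : ℝ := if n = 0 then (1 : ℝ) else 1 / Real.sqrt n with ht
  have ht0 : 0 < t := by
    rw [ht]; split_ifs with h
    · exact one_pos
    · have : 0 < n := Nat.pos_of_ne_zero h
      positivity
  have ht1 : t ≤ 1 := by
    rw [ht]; split_ifs with h
    · exact le_rfl
    · have h1 : (1 : ℝ) ≤ n := by exact_mod_cast Nat.one_le_iff_ne_zero.2 h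
      exact div_le_one_of_le₀ (Real.one_le_sqrt.2 h1) (Real.sqrt_nonneg _)
  set f : ℝ := t ^ l.1.length with hf
  have hf0 : 0 < f := pow_pos ht0 _
  have hflip : ∀ d : ℤ, t ^ ((lm ⊤ (flipR d) l).1.length) = f := fun d => by simp [lm_val, hf]
  have htog : ∀ j : ℤ, t ^ ((tog ⊤ j l).1.length) =
      t * f + if l.1.head? = some j then (1 / t - t) * f else 0 := by
    intro j
    rw [tog_val, hf]
    cases l.1 with
    | nil => simp [tgl]
    | cons i r =>
      by_cases h : i = j
      · simp [tgl, h, pow_succ]; field_simp; ring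
      · simp [tgl, h, pow_succ]; ring
  -- the toggles: `n + 1` distinct letters, at most one is the head
  have hsum : ∑ j : Fin (n + 1), t ^ ((tog ⊤ ((j : ℕ) : ℤ) l).1.length) ≤
      ((n : ℝ) * t + 1 / t) * f := by
    simp only [htog, Finset.sum_add_distrib, Finset.sum_const, Finset.card_univ, Fintype.card_fin,
      nsmul_eq_mul]
    have hle : ∑ j : Fin (n + 1), (if l.1.head? = some (((j : ℕ) : ℤ)) then (1 / t - t) * f else 0) ≤
        (1 / t - t) * f := by
      have hnn : 0 ≤ (1 / t - t) * f :=
        mul_nonneg (sub_nonneg.2 (le_trans ht1 ((one_le_div ht0).2 ht1))) hf0.le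
      by_cases he : ∃ j : Fin (n + 1), l.1.head? = some (((j : ℕ) : ℤ))
      · obtain ⟨j, hj⟩ := he
        rw [Finset.sum_eq_single j (fun b _ hb => if_neg fun h => hb (Fin.ext (by
          rw [hj] at h; simpa using h.symm))) (by simp), if_pos hj]
      · push Not at he
        simp only [he, if_false, Finset.sum_const_zero]
        exact hnn
    push_cast
    nlinarith [hle]
  have hnt : (n : ℝ) * t + 1 / t ≤ 2 * Real.sqrt n + 1 := by
    rw [ht]; split_ifs with h
    · subst h; simp
    · rw [mul_one_div, Real.div_sqrt, one_div_one_div]; linarith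
  have hsplit : ∑ i, t ^ ((xg n i l).1.length) =
      (∑ j : Fin (n + 1), t ^ ((tog ⊤ ((j : ℕ) : ℤ) l).1.length)) + 2 * f := by
    rw [Fintype.sum_sum_type, Fin.sum_univ_succ (n := n), Fin.sum_univ_three]
    simp [xg, gen, act, hflip]
    ring
  rw [hsplit]
  nlinarith [mul_le_mul_of_nonneg_right hnt hf0.le]

/-- Schur test. -/
lemma weight_pow (n q : ℕ) (l : St ℤ ⊤) :
    ∑ w : Fin q → Fin n ⊕ Fin 3, (if n = 0 then (1 : ℝ) else 1 / Real.sqrt n) ^
        (((List.ofFn w).map (xg n)).prod l).1.length ≤
      (2 * Real.sqrt n + 3) ^ q * (if n = 0 then (1 : ℝ) else 1 / Real.sqrt n) ^ l.1.length := by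
  induction q with
  | zero => simp
  | succ q ih =>
    rw [← (Fin.consEquiv fun _ => Fin n ⊕ Fin 3).sum_comp, Fintype.sum_prod_type, Finset.sum_comm]
    simp only [Fin.consEquiv_apply, List.ofFn_succ, Fin.cons_zero, Fin.cons_succ, List.map_cons,
      List.prod_cons, Equiv.Perm.mul_apply]
    refine le_trans (Finset.sum_le_sum fun w _ => weight_step n _) ?_
    rw [← Finset.mul_sum, pow_succ']
    rw [mul_assoc]
    exact mul_le_mul_of_nonneg_left ih (by positivity)

lemma count_bound (n q : ℕ) :
    ∑ w : Fin q → Fin n ⊕ Fin 3, ‖grpMom (xg n) (List.ofFn w)‖ ^ 2 ≤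
      (2 * Real.sqrt n + 3) ^ q := by
  refine le_trans (Finset.sum_le_sum fun w _ => ?_)
    (le_trans (weight_pow n q (nilSt ℤ ⊤)) (le_of_eq (by simp [nilSt])))
  unfold grpMom
  by_cases h : ((List.ofFn w).map (xg n)).prod = 1
  · rw [if_pos h, h]; simp [nilSt]
  · rw [if_neg h, norm_zero, zero_pow two_ne_zero]
    split_ifs <;> positivity

/-- Left multiplication on `H × Fin d`, numbered. -/
noncomputable def regPerm {H : Type} [_root_.Group H] [Fintype H] (d : ℕ) :
    H →* Equiv.Perm (Fin (Fintype.card (H × Fin d))) where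
  toFun h := (Fintype.equivFin (H × Fin d)).permCongr
    ((Equiv.mulLeft h).prodCongr (Equiv.refl (Fin d)))
  map_one' := Equiv.ext fun i => by simp [Equiv.permCongr_apply, Prod.map]
  map_mul' g h := Equiv.ext fun i => by
    simp [Equiv.permCongr_apply, Prod.map]

/-- The regular representation of `H`, repeated, as matrices. -/
noncomputable def reg {H : Type} [_root_.Group H] [Fintype H] (d : ℕ) :
    H →* Matrix (Fin (Fintype.card (H × Fin d))) (Fin (Fintype.card (H × Fin d))) ℂ where
  toFun h := (regPerm d h⁻¹).permMatrix ℂ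
  map_one' := by rw [inv_one, map_one, Matrix.permMatrix_one]
  map_mul' g h := by rw [mul_inv_rev, map_mul, Matrix.permMatrix_mul]

lemma reg_apply {H : Type} [_root_.Group H] [Fintype H] (d : ℕ) (h : H) :
    reg d h = (regPerm d h⁻¹).permMatrix ℂ := rfl

lemma trk_reg {H : Type} [_root_.Group H] [Fintype H] [DecidableEq H] {d : ℕ} (hd : 0 < d)
    (h : H) : trk (reg d h) = if h = 1 then 1 else 0 := by
  have hk : (Fintype.card (H × Fin d) : ℂ) ≠ 0 := by
    simp [Fintype.card_ne_zero, hd.ne']
  split_ifs with hh
  · rw [hh, map_one, trk, Matrix.trace_one]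
    simp only [Fintype.card_fin]
    exact inv_mul_cancel₀ hk
  · rw [trk, reg_apply, Matrix.trace_permutation]
    have he : Function.fixedPoints (regPerm d h⁻¹) =
        (∅ : Set (Fin (Fintype.card (H × Fin d)))) := by
      refine Set.eq_empty_of_forall_notMem fun i hi => hh ?_
      have h2 : regPerm d h⁻¹ i = i := hi
      have := congrArg (fun z => (((Fintype.equivFin (H × Fin d)).symm z)).1) h2
      simpa [regPerm, Equiv.permCongr_apply, Prod.map] using this
    rw [he]
    simp

lemma reg_conjTranspose {H : Type} [_root_.Group H] [Fintype H] {d : ℕ} (h : H)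
    (hh : h * h = 1) : (reg d h)ᴴ = reg d h := by
  rw [reg_apply, Matrix.conjTranspose_permMatrix, ← map_inv, inv_inv]
  rw [show h⁻¹ = h from inv_eq_of_mul_eq_one_left hh]

lemma opNorm_le_one {k : ℕ} (A : Matrix (Fin k) (Fin k) ℂ) (hA : Aᴴ = A) (h2 : A * A = 1) :
    opNorm A ≤ 1 := by
  set T := Matrix.toEuclideanCLM (𝕜 := ℂ) A with hT
  have h : star T * T = 1 := by
    rw [hT, ← map_star, Matrix.star_eq_conjTranspose, hA, ← map_mul, h2, map_one]
  have h1 : ‖T‖ * ‖T‖ ≤ 1 := by
    rw [← CStarRing.norm_star_mul_self, h]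
    exact ContinuousLinearMap.norm_id_le
  rw [opNorm_eq]
  rw [← hT]
  nlinarith [norm_nonneg T]

lemma hasModels (n : ℕ) : HasModels (grpMom (xg n)) := by
  classical
  intro M K
  set B : ℤ := (n : ℤ) + 1 with hB
  set K0 : ℕ := (n + 1) * M + 1 with hK0
  set N : ℕ := 2 * K0 + 1 with hN
  have : NeZero N := ⟨by omega⟩
  have : Finite (St (ZMod N) ((M + 1 : ℕ) : ℕ∞)) :=
    Set.Finite.to_subtype (s := {l : List (ZMod N) | l.IsChain (· ≠ ·) ∧
        (l.length : ℕ∞) ≤ ((M + 1 : ℕ) : ℕ∞)})
      ((List.finite_length_le (ZMod N) (M + 1)).subset fun l hl => Nat.cast_le.1 hl.2)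
  let H := Equiv.Perm (St (ZMod N) ((M + 1 : ℕ) : ℕ∞))
  let : Fintype H := Fintype.ofFinite H
  let y : Fin n ⊕ Fin 3 → H := fun i => act (ZMod N) ((M + 1 : ℕ) : ℕ∞) (gen n i)
  refine ⟨Fintype.card (H × Fin (K + 1)), ?_, fun i => reg (K + 1) (y i), fun i => ⟨?_, ?_⟩,
    fun v hv => ?_⟩
  · rw [Fintype.card_prod, Fintype.card_fin]
    have : 0 < Fintype.card H := Fintype.card_pos
    nlinarith
  · exact reg_conjTranspose _ (act_mul_self _)
  · exact opNorm_le_one _ (reg_conjTranspose _ (act_mul_self _))
      (by rw [← map_mul, act_mul_self, map_one])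
  · have hmap : (v.map fun i => reg (K + 1) (y i)).prod = reg (K + 1) (v.map y).prod := by
      rw [map_list_prod, List.map_map]; rfl
    rw [hmap, trk_reg (Nat.succ_pos K)]
    have hpar : ∀ g ∈ v.map (gen n), |g.par| ≤ B := by
      intro g hg
      obtain ⟨i, -, rfl⟩ := List.mem_map.1 hg
      rcases i with a | a
      · have : ((a : ℕ) : ℤ) < n := by exact_mod_cast a.isLt
        simp only [gen, Sum.elim_inl, Gen.par, hB]
        rw [abs_le]; constructor <;> omega
      · fin_cases a <;> simp [gen, Gen.par, hB] <;> omega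
    have hlen : B * ((v.map (gen n)).length : ℤ) + 1 ≤ (K0 : ℤ) := by
      rw [List.length_map, hK0, hB]
      have : (v.length : ℤ) ≤ M := by exact_mod_cast hv
      push_cast
      nlinarith
    have hB0 : 0 ≤ B := by omega
    have hmod := prod_act_eq_one_iff (R := ZMod N) (L := ((M + 1 : ℕ) : ℕ∞)) (v.map (gen n)) B K0
      hB0 hpar hlen (fun i j hi hj h => by
        have hd := (ZMod.intCast_eq_intCast_iff_dvd_sub i j N).1 h
        have := Int.eq_zero_of_abs_lt_dvd hd (by
          have := abs_sub j i
          rw [hN]; push_cast; linarith)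
        linarith)
      (by rw [List.length_map]; exact Nat.cast_le.2 (by omega)) (by exact_mod_cast Nat.succ_pos M)
    have hint := prod_act_eq_one_iff (R := ℤ) (L := ⊤) (v.map (gen n)) B K0
      hB0 hpar hlen (fun i j _ _ h => h) le_top le_top
    rw [List.map_map] at hmod hint
    unfold grpMom
    have hm' : (v.map y).prod = 1 ↔ st (v.map (gen n)) = ([], false, 0) := hmod
    have hi' : (v.map (xg n)).prod = 1 ↔ st (v.map (gen n)) = ([], false, 0) := hint
    by_cases hone : st (v.map (gen n)) = ([], false, 0)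
    · rw [if_pos (hm'.2 hone), if_pos (hi'.2 hone)]
    · rw [if_neg fun h => hone (hm'.1 h), if_neg fun h => hone (hi'.1 h)]

end Vale.Agent.P087.Group

namespace Vale.Agent.P087

/-- Group: `n` free involutions that are words in three involutions. -/
theorem groupStmt : GroupStmt := fun n =>
  ⟨Group.GZ, inferInstance, Group.xg n, Group.xg_injective n,
    fun i => ⟨Group.act_mul_self _, Group.xg_ne_one n i⟩,
    fun j => ⟨Group.gw ((j : ℕ) + 1), by rw [Group.length_gw]; omega, by
      rw [Group.prod_gw]
      simp [Group.xg, Group.gen, Group.act]⟩,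
    fun q => Group.count_bound n q, Group.hasModels n⟩

end Vale.Agent.P087
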