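import Vale.Agent.P087.Defs

/-!
From pointwise bounds on `Φ*` to bounds on `χ*`.
-/

namespace Vale.Agent.P087

open MeasureTheory Filter Topology
open scoped ENNReal

variable {I : Type} [Fintype I] {μ : List I → ℂ}

/-- The loss coming from `p` coordinates of variance `r + t`. -/
noncomputable def lossFun (p r t : ℝ) : ℝ := p * (1 / (r + t) - 1 / (1 + t))

/-- The gain `K / (2 + t)²`. -/
noncomputable def gainFun (K t : ℝ) : ℝ := K / (2 + t) ^ 2

theorem lossFun_nonneg {p r t : ℝ} (hp : 0 ≤ p) (hr : 0 < r) (hr1 : r ≤ 1) (ht : 0 ≤ t) :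
    0 ≤ lossFun p r t := by
  refine mul_nonneg hp (sub_nonneg.2 ?_)
  exact one_div_le_one_div_of_le (by linarith) (by linarith)

theorem hasDerivAt_loss {p r t : ℝ} (hr : 0 < r) (ht : 0 ≤ t) :
    HasDerivAt (fun s => p * (Real.log (r + s) - Real.log (1 + s))) (lossFun p r t) t := by
  have h1 := ((hasDerivAt_id t).const_add r).log (show r + t ≠ 0 by linarith)
  have h2 := ((hasDerivAt_id t).const_add 1).log (show (1 : ℝ) + t ≠ 0 by linarith)
  exact (h1.sub h2).const_mul p

theorem tendsto_loss (p r : ℝ) (hr : 0 < r) :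
    Tendsto (fun s => p * (Real.log (r + s) - Real.log (1 + s))) atTop (𝓝 0) := by
  have h1 := Real.tendsto_log_comp_add_sub_log r
  have h2 := Real.tendsto_log_comp_add_sub_log 1
  have h := (h1.sub h2).const_mul p
  simp only [sub_zero, mul_zero] at h
  refine h.congr fun s => ?_
  rw [add_comm r s, add_comm 1 s]; ring

theorem integral_loss {p r T : ℝ} (hp : 0 ≤ p) (hr : 0 < r) (hr1 : r ≤ 1) (hT : 0 ≤ T) :
    IntegrableOn (lossFun p r) (Set.Ioi T) ∧
      ∫ t in Set.Ioi T, lossFun p r t = p * (Real.log (1 + T) - Real.log (r + T)) := by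
  have hd : ∀ t ∈ Set.Ici T, HasDerivAt (fun s => p * (Real.log (r + s) - Real.log (1 + s)))
      (lossFun p r t) t := fun t ht => hasDerivAt_loss hr (hT.trans ht)
  have h0 : ∀ t ∈ Set.Ioi T, 0 ≤ lossFun p r t := fun t ht =>
    lossFun_nonneg hp hr hr1 (hT.trans (le_of_lt ht))
  refine ⟨integrableOn_Ioi_deriv_of_nonneg' hd h0 (tendsto_loss p r hr), ?_⟩
  rw [integral_Ioi_of_hasDerivAt_of_nonneg' hd h0 (tendsto_loss p r hr)]
  ring

theorem integral_gain {K T : ℝ} (hK : 0 ≤ K) (hT : 0 ≤ T) :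
    IntegrableOn (gainFun K) (Set.Ioi T) ∧
      ∫ t in Set.Ioi T, gainFun K t = K / (2 + T) := by
  have hd : ∀ t ∈ Set.Ici T, HasDerivAt (fun s => -K * (2 + s)⁻¹) (gainFun K t) t := by
    intro t ht
    have h2 : (2 : ℝ) + t ≠ 0 := by
      have : T ≤ t := ht
      linarith
    have h := (((hasDerivAt_id t).const_add 2).inv h2).const_mul (-K)
    refine h.congr_deriv ?_
    simp [gainFun]; ring
  have h0 : ∀ t ∈ Set.Ioi T, 0 ≤ gainFun K t := fun t _ => by unfold gainFun; positivity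
  have hlim : Tendsto (fun s : ℝ => -K * (2 + s)⁻¹) atTop (𝓝 0) := by
    have h := (tendsto_inv_atTop_zero.comp
      (tendsto_atTop_add_const_left atTop (2 : ℝ) tendsto_id)).const_mul (-K)
    simpa using h
  refine ⟨integrableOn_Ioi_deriv_of_nonneg' hd h0 hlim, ?_⟩
  rw [integral_Ioi_of_hasDerivAt_of_nonneg' hd h0 hlim]
  ring

/-- Lower bound on `χ*` from an upper bound on `Φ*` with a gain beyond `T`. -/
theorem le_chiStar {p r K T : ℝ} (hp : 0 ≤ p) (hr : 0 < r) (hr1 : r ≤ 1) (hK : 0 ≤ K) (hT : 0 ≤ T)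
    (h1 : ∀ t, 0 < t → fisher (smoothMoment μ t) ≤
      ENNReal.ofReal ((Fintype.card I : ℝ) / (1 + t) + lossFun p r t))
    (h2 : ∀ t, T < t → ((-lossFun p r t + gainFun K t : ℝ) : EReal) ≤ chiStarIntegrand μ t) :
    (((1 / 2) * (K / (2 + T) - 2 * (p * (-Real.log r))) +
      (Fintype.card I : ℝ) / 2 * Real.log (2 * Real.pi * Real.exp 1) : ℝ) : EReal) ≤ chiStar μ := by
  obtain ⟨hLi, hLe⟩ := integral_loss hp hr hr1 le_rfl
  obtain ⟨hLTi, hLTe⟩ := integral_loss hp hr hr1 hT
  obtain ⟨hGi, hGe⟩ := integral_gain hK hT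
  simp only [add_zero, Real.log_one, zero_sub] at hLe
  have hneg : ∫⁻ t in Set.Ioi (0 : ℝ), (-chiStarIntegrand μ t).toENNReal ≤
      ENNReal.ofReal (p * (-Real.log r)) := by
    rw [← hLe, ofReal_integral_eq_lintegral_ofReal hLi ((ae_restrict_iff' measurableSet_Ioi).2
      (ae_of_all _ fun t ht => lossFun_nonneg hp hr hr1 (le_of_lt ht)))]
    refine setLIntegral_mono' measurableSet_Ioi fun t ht => ?_
    have ht' : (0 : ℝ) < t := ht
    rw [← EReal.real_coe_toENNReal]
    refine EReal.toENNReal_le_toENNReal ?_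
    have hb : ((fisher (smoothMoment μ t) : ℝ≥0∞) : EReal) ≤
        (((Fintype.card I : ℝ) / (1 + t) + lossFun p r t : ℝ) : EReal) := by
      refine le_trans (EReal.coe_ennreal_le_coe_ennreal_iff.2 (h1 t ht')) ?_
      rw [EReal.coe_ennreal_ofReal, max_eq_left]
      have := lossFun_nonneg hp hr hr1 ht'.le
      positivity
    unfold chiStarIntegrand
    rw [EReal.neg_sub (Or.inl (EReal.coe_ne_bot _)) (Or.inl (EReal.coe_ne_top _))]
    rw [add_comm, ← EReal.coe_neg]
    calc ((fisher (smoothMoment μ t) : ℝ≥0∞) : EReal) + ((-((Fintype.card I : ℝ) / (1 + t)) : ℝ))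
        ≤ (((Fintype.card I : ℝ) / (1 + t) + lossFun p r t : ℝ) : EReal) +
            ((-((Fintype.card I : ℝ) / (1 + t)) : ℝ)) := add_le_add hb le_rfl
      _ = _ := by rw [← EReal.coe_add]; ring_nf
  have hpos : ENNReal.ofReal (K / (2 + T) - p * (-Real.log r)) ≤
      ∫⁻ t in Set.Ioi (0 : ℝ), (chiStarIntegrand μ t).toENNReal := by
    refine le_trans ?_ (lintegral_mono_set (Set.Ioi_subset_Ioi hT))
    have hle : K / (2 + T) - p * (-Real.log r) ≤
        ∫ t in Set.Ioi T, max (-lossFun p r t + gainFun K t) 0 := by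
      refine le_trans ?_ (integral_mono (hLTi.neg.add hGi) (hLTi.neg.add hGi).pos_part
        fun t => le_max_left _ _)
      rw [integral_add' hLTi.neg hGi, integral_neg', hLTe, hGe]
      have : Real.log (1 + T) - Real.log (r + T) ≤ -Real.log r := by
        rw [← Real.log_div (by linarith) (by linarith), ← Real.log_inv]
        refine Real.log_le_log (div_pos (by linarith) (by linarith)) ?_
        rw [div_le_iff₀ (by linarith), inv_mul_eq_div, le_div_iff₀ hr]
        nlinarith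
      nlinarith [mul_le_mul_of_nonneg_left this hp]
    refine le_trans (ENNReal.ofReal_le_ofReal hle) ?_
    have hint : Integrable (fun t => max (-lossFun p r t + gainFun K t) 0)
        (volume.restrict (Set.Ioi T)) := (hLTi.neg.add hGi).pos_part
    rw [ofReal_integral_eq_lintegral_ofReal hint (ae_of_all _ fun t => le_max_right _ _)]
    refine setLIntegral_mono' measurableSet_Ioi fun t ht => ?_
    rw [ENNReal.ofReal_max, ENNReal.ofReal_zero, max_eq_left zero_le,
      ← EReal.real_coe_toENNReal]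
    exact EReal.toENNReal_le_toENNReal (h2 t ht)
  unfold chiStar
  set P := ∫⁻ t in Set.Ioi (0 : ℝ), (chiStarIntegrand μ t).toENNReal
  set N := ∫⁻ t in Set.Ioi (0 : ℝ), (-chiStarIntegrand μ t).toENNReal
  rw [EReal.coe_add]
  refine add_le_add ?_ le_rfl
  rw [EReal.coe_mul]
  refine mul_le_mul_of_nonneg_left ?_ (EReal.coe_nonneg.2 (by norm_num))
  have e1 : ((K / (2 + T) - p * (-Real.log r) : ℝ) : EReal) ≤ (P : EReal) := by
    refine le_trans ?_ (EReal.coe_ennreal_le_coe_ennreal_iff.2 hpos)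
    rw [EReal.coe_ennreal_ofReal]
    exact EReal.coe_le_coe_iff.2 (le_max_left _ _)
  have e2 : (N : EReal) ≤ ((p * (-Real.log r) : ℝ) : EReal) := by
    refine le_trans (EReal.coe_ennreal_le_coe_ennreal_iff.2 hneg) ?_
    rw [EReal.coe_ennreal_ofReal, max_eq_left]
    have := Real.log_nonpos hr.le hr1
    nlinarith
  refine le_trans ?_ (EReal.sub_le_sub e1 e2)
  rw [← EReal.coe_sub]
  exact EReal.coe_le_coe_iff.2 (by linarith)

/-- `χ*` is finite from above as soon as `Φ* ≥ n / (2 + t)`. -/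
theorem chiStar_lt_top
    (h : ∀ t, 0 < t → ENNReal.ofReal ((Fintype.card I : ℝ) / (2 + t)) ≤
      fisher (smoothMoment μ t)) :
    chiStar μ < ⊤ := by
  set N := (Fintype.card I : ℝ) with hN
  have hN0 : 0 ≤ N := Nat.cast_nonneg _
  have hi : ∫⁻ t in Set.Ioi (0 : ℝ), (chiStarIntegrand μ t).toENNReal ≤
      ∫⁻ t in Set.Ioi (0 : ℝ), ENNReal.ofReal (lossFun N 1 t + 4 * gainFun N t) := by
    refine setLIntegral_mono' measurableSet_Ioi fun t ht => ?_
    have ht' : (0 : ℝ) < t := ht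
    rw [← EReal.real_coe_toENNReal]
    refine EReal.toENNReal_le_toENNReal ?_
    refine le_trans (EReal.sub_le_sub le_rfl (EReal.coe_ennreal_le_coe_ennreal_iff.2 (h t ht'))) ?_
    rw [EReal.coe_ennreal_ofReal, max_eq_left (by positivity), ← EReal.coe_sub]
    refine EReal.coe_le_coe_iff.2 ?_
    simp only [lossFun, gainFun, sub_self, mul_zero, zero_add]
    rw [div_sub_div _ _ (by linarith) (by linarith), mul_div_assoc',
      div_le_div_iff₀ (by positivity) (by positivity)]
    nlinarith [mul_nonneg hN0 ht'.le, mul_nonneg (mul_nonneg hN0 ht'.le) ht'.le]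
  have hfin : ∫⁻ t in Set.Ioi (0 : ℝ), (chiStarIntegrand μ t).toENNReal < ⊤ := by
    refine lt_of_le_of_lt hi ?_
    obtain ⟨hG, -⟩ := integral_gain hN0 le_rfl
    obtain ⟨hL, -⟩ := integral_loss hN0 one_pos le_rfl le_rfl
    exact (hL.add (hG.const_mul 4)).lintegral_lt_top
  unfold chiStar
  refine EReal.add_lt_top ?_ (EReal.coe_ne_top _)
  refine (lt_of_le_of_lt (mul_le_mul_of_nonneg_left (EReal.sub_le_sub le_rfl
    (EReal.coe_ennreal_nonneg _)) (EReal.coe_nonneg.2 (by norm_num))) ?_).ne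
  rw [sub_zero]
  rw [← ENNReal.ofReal_toReal hfin.ne, EReal.coe_ennreal_ofReal, ← EReal.coe_mul]
  exact EReal.coe_lt_top _

end Vale.Agent.P087
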