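import Vale.Agent.P087.Defs

/-!
Module interfaces for the separation of the two free entropies (P087).
-/

namespace Vale.Agent.P087

open scoped ENNReal

/-- Recursion for the moments `T v u = τ (X^v Z^u)`, `Z_i = X_i + σ_i S_i`; fuel `f ≥ u.length`. -/
noncomputable def tAux {I : Type} [DecidableEq I] (m : List I → ℂ) (σ : I → ℝ) :
    ℕ → List I → List I → ℂ
  | 0, v, _ => m v
  | _ + 1, v, [] => m v
  | f + 1, v, k :: u => tAux m σ f (v ++ [k]) u +
      ((σ k : ℂ) ^ 2) * ((cuts u).map fun c =>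
        if c.2.1 = k then tAux m σ f [] c.1 * tAux m σ f v c.2.2 else 0).sum

/-- `T v u = τ (X^v Z^u)`. -/
noncomputable def tMom {I : Type} [DecidableEq I] (m : List I → ℂ) (σ : I → ℝ)
    (v u : List I) : ℂ :=
  tAux m σ u.length v u

/-- The two equations that determine `tMom`. -/
def TMomEqs : Prop :=
  ∀ (I : Type) [DecidableEq I] (m : List I → ℂ) (σ : I → ℝ) (v : List I),
    tMom m σ v [] = m v ∧
    ∀ (k : I) (u : List I), tMom m σ v (k :: u) = tMom m σ (v ++ [k]) u +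
      ((σ k : ℂ) ^ 2) * ((cuts u).map fun c =>
        if c.2.1 = k then tMom m σ [] c.1 * tMom m σ v c.2.2 else 0).sum

/-- Iterated `τ^{⊗ (q+1)}` of the free difference quotient along the word `w`. -/
noncomputable def dMom {I : Type} [DecidableEq I] (T : List I → List I → ℂ) :
    List I → List I → ℂ
  | [], u => T [] u
  | k :: w, u => ((cuts u).map fun c =>
      if c.2.1 = k then T [] c.1 * dMom T w c.2.2 else 0).sum

/-- Moments of a tuple of group elements in the regular trace. -/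
noncomputable def grpMom {I G : Type} [Group G] (x : I → G) (v : List I) : ℂ :=
  open Classical in if (v.map x).prod = 1 then 1 else 0

/-- Cumul: cumulant identity and square-summed growth. -/
def CumulStmt : Prop :=
  ∀ (I : Type) [Fintype I] [DecidableEq I] (m : List I → ℂ) (M : ℝ),
    m [] = 1 → (∀ i, m [i] = 0) → 1 ≤ M →
    (∀ q : ℕ, ∑ w : Fin q → I, ‖m (List.ofFn w)‖ ^ 2 ≤ M ^ q) →
    ∃ κ : List I → ℂ, (∀ i j, κ [i, j] = m [i, j]) ∧
      (∀ (σ : I → ℝ) (i : I) (u : List I) (d : ℕ), u.length ≤ d →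
        tMom m σ [i] u = ∑ q ∈ Finset.Icc 1 d, ∑ w : Fin q → I,
          κ (i :: List.ofFn w) * dMom (tMom m σ) (List.ofFn w) u) ∧
      ∀ q : ℕ, 1 ≤ q → ∑ w : Fin q → I, ‖κ (List.ofFn w)‖ ^ 2 ≤ (1 / 16) * (64 * M) ^ q

/-- Matrix models of a law up to every degree, in arbitrarily large dimension. -/
def HasModels {I : Type} (m : List I → ℂ) : Prop :=
  ∀ (M K : ℕ), ∃ k : ℕ, K ≤ k ∧ ∃ B : I → Matrix (Fin k) (Fin k) ℂ,
    (∀ i, (B i).IsHermitian ∧ opNorm (B i) ≤ 1) ∧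
      ∀ v : List I, v.length ≤ M → trk (v.map B).prod = m v

/-- Group: `n` free involutions that are words in three involutions. -/
def GroupStmt : Prop :=
  ∀ n : ℕ, ∃ (G : Type) (_ : Group G) (x : Fin n ⊕ Fin 3 → G),
    Function.Injective x ∧ (∀ i, x i * x i = 1 ∧ x i ≠ 1) ∧
    (∀ j : Fin n, ∃ g : List (Fin 3), g.length ≤ 4 * n + 9 ∧
      (g.map fun a => x (Sum.inr a)).prod = x (Sum.inl j)) ∧
    (∀ q : ℕ, ∑ w : Fin q → Fin n ⊕ Fin 3, ‖grpMom x (List.ofFn w)‖ ^ 2 ≤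
      (2 * Real.sqrt n + 3) ^ q) ∧
    HasModels (grpMom x)

/-- Fock: a tracial von Neumann algebra with a tuple of the wanted law. -/
def RealStmt : Prop :=
  ∀ (I G : Type) [Fintype I] [DecidableEq I] [Group G] (x : I → G) (σ : I → ℝ),
    (∀ i, x i * x i = 1) →
    ∃ (ι : Type) (A : VonNeumannAlgebra (lp (fun _ : ι => ℂ) 2))
      (Ω : lp (fun _ : ι => ℂ) 2) (Z : I → lp (fun _ : ι => ℂ) 2 →L[ℂ] lp (fun _ : ι => ℂ) 2),
      ‖Ω‖ = 1 ∧
      (∀ a ∈ A, ∀ b ∈ A, inner ℂ Ω ((a * b) Ω) = inner ℂ Ω ((b * a) Ω)) ∧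
      (∀ a ∈ A, a Ω = 0 → a = 0) ∧
      (∀ i, Z i ∈ A ∧ IsSelfAdjoint (Z i)) ∧
      law Ω Z = tMom (grpMom x) σ []

/-- Smooth: adding an independent semicircular tuple adds variances. -/
def SmoothStmt : Prop :=
  ∀ (I G : Type) [Fintype I] [DecidableEq I] [Group G] (x : I → G) (σ : I → ℝ) (t : ℝ),
    (∀ i, x i * x i = 1) → 0 ≤ t →
    smoothMoment (tMom (grpMom x) σ []) t =
      tMom (grpMom x) (fun i => Real.sqrt (σ i ^ 2 + t)) []

/-- Bessel: the inequality in Fock space. -/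
def BesselStmt : Prop :=
  ∀ (I G : Type) [Fintype I] [DecidableEq I] [Group G] (x : I → G) (σ : I → ℝ),
    (∀ i, x i * x i = 1 ∧ x i ≠ 1) →
    ∀ (P : List I →₀ ℂ) (Q : ℕ),
      (∀ i, ‖P.sum fun u a => a * tMom (grpMom x) σ [i] u‖ ^ 2 +
          ∑ q ∈ Finset.Icc 1 Q, ∑ w : Fin q → I,
            (∏ l, σ (w l) ^ 2) *
              ‖P.sum fun u a => a * dMom (tMom (grpMom x) σ) (List.ofFn w) u‖ ^ 2
        ≤ polyNormSq (tMom (grpMom x) σ []) P)

/-- Gauss: microstates with positive volume. -/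
def GaussStmt : Prop :=
  ∀ (I : Type) [Fintype I] [DecidableEq I] (m : List I → ℂ) (σ : I → ℝ),
    (∀ i, 0 < σ i) → HasModels m → ⊥ < chi (tMom m σ [])

/-- Upper: if `n` coordinates are nearly words in the other `p` then `χ` is small. -/
def UpperStmt : Prop :=
  ∀ (I : Type) [Fintype I] [DecidableEq I] (n p : ℕ) (e : Fin n ⊕ Fin p ≃ I) (μ : List I → ℂ)
    (g : Fin n → List (Fin p)) (ν ρ : ℝ), μ [] = 1 → 0 < ν → 0 < ρ →
    (∀ j, (μ [e (.inl j), e (.inl j)] - μ (e (.inl j) :: (g j).map (e ∘ .inr))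
        - μ ((g j).reverse.map (e ∘ .inr) ++ [e (.inl j)])
        + μ ((g j).reverse.map (e ∘ .inr) ++ (g j).map (e ∘ .inr))).re < ν) →
    (∀ a, (μ [e (.inr a), e (.inr a)]).re < ρ) →
    chi μ ≤ (((n : ℝ) / 2 * Real.log (2 * Real.pi * Real.exp 1 * ν) +
      (p : ℝ) / 2 * Real.log (2 * Real.pi * Real.exp 1 * ρ) : ℝ) : EReal)

end Vale.Agent.P087
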