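import Vale.Agent.P087.Fisher
import Vale.Agent.P087.Integral

/-!
Assembly: the two free entropies differ.
-/

namespace Vale.Agent.P087

open scoped ENNReal InnerProductSpace

theorem log_four_pi_exp_pos : 0 < 2 * Real.pi * Real.exp 1 := by positivity

section planted

variable {I G : Type} [DecidableEq I] [Group G] [DecidableEq G] {x : I → G} {σ : I → ℝ}

theorem fockX_dl (g h : G) (l : List (I × G)) :
    fockX (J := I) g (dl (h, l)) = dl (g * h, l) := by
  simp [fockX, pushOp_dl, gPE, Equiv.toPEquiv_apply]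

theorem norm_fockS_le (j : I) : ‖fockS (G := G) j‖ ≤ 2 := by
  refine le_trans (norm_add_le _ _) ?_
  linarith [pushOp_norm_le (lPE (G := G) j), pushOp_norm_le (lPE (G := G) j).symm]

theorem fockS_vac (j : I) :
    fockS (G := G) j (dl (1, [])) = dl (1, [(j, 1)]) := by
  simp [fockS, pushOp_dl, lPE, PEquiv.symm]

theorem fockVec_single (j : I) :
    fockVec x σ [j] = dl (x j, []) + (σ j : ℂ) • dl (1, [(j, 1)]) := by
  simp only [fockVec, fockZ, vac, List.map_cons, List.map_nil, List.prod_cons, List.prod_nil,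
    mul_one, add_apply, smul_apply, fockX_dl, fockS_vac]

theorem fockVec_close {r : ℝ} (hr : 0 ≤ r) (w : List I) (hw : ∀ a ∈ w, |σ a| ≤ r) :
    ‖fockVec x σ w - dl ((w.map x).prod, [])‖ ≤ (1 + 2 * r) ^ w.length - 1 := by
  induction w with
  | nil => simp [fockVec, vac]
  | cons a w ih =>
    have ih' := ih fun b hb => hw b (List.mem_cons_of_mem _ hb)
    set u := fockVec x σ w with hu
    set v : L2 (FB I G) := dl ((w.map x).prod, []) with hv
    have h1 : fockVec x σ (a :: w) = fockX (x a) u + (σ a : ℂ) • fockS a u := by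
      simp only [hu, fockVec, fockZ, List.map_cons, List.prod_cons, mul_apply_eq_comp,
        Function.comp_apply, add_apply, smul_apply]
    have h2 : (dl (((a :: w).map x).prod, []) : L2 (FB I G)) = fockX (x a) v := by
      simp [hv, fockX_dl]
    have hun : ‖u‖ ≤ ‖u - v‖ + 1 := by
      have : ‖v‖ = 1 := (orthonormal_dl (ι := FB I G)).1 _
      calc ‖u‖ = ‖(u - v) + v‖ := by rw [sub_add_cancel]
        _ ≤ ‖u - v‖ + ‖v‖ := norm_add_le _ _
        _ = _ := by rw [this]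
    have hX : ‖fockX (J := I) (x a) (u - v)‖ ≤ ‖u - v‖ := by
      refine le_trans ((fockX (J := I) (x a)).le_opNorm _) ?_
      exact mul_le_of_le_one_left (norm_nonneg _) (pushOp_norm_le _)
    have hS : ‖(σ a : ℂ) • fockS a u‖ ≤ r * (2 * (‖u - v‖ + 1)) := by
      rw [norm_smul, Complex.norm_real]
      refine mul_le_mul (hw a List.mem_cons_self) ?_ (norm_nonneg _) hr
      exact le_trans ((fockS a).le_opNorm _)
        (mul_le_mul (norm_fockS_le a) hun (norm_nonneg _) zero_le_two)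
    have h3 : fockVec x σ (a :: w) - dl (((a :: w).map x).prod, []) =
        fockX (x a) (u - v) + (σ a : ℂ) • fockS a u := by
      rw [h1, h2, map_sub]; abel
    rw [h3, List.length_cons, pow_succ]
    refine le_trans (norm_add_le _ _) ?_
    nlinarith [norm_nonneg (u - v)]

/-- The squared distance of `Z_j` to a word in small-noise letters with the same group element. -/
theorem planted_dist (hx : ∀ i, x i * x i = 1) {r : ℝ} (hr : 0 ≤ r) (j : I) (w : List I)
    (hw : ∀ a ∈ w, |σ a| ≤ r) (hj : |σ j| ≤ 1) (hprod : (w.map x).prod = x j) :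
    (tMom (grpMom x) σ [] [j, j] - tMom (grpMom x) σ [] (j :: w)
      - tMom (grpMom x) σ [] (w.reverse ++ [j])
      + tMom (grpMom x) σ [] (w.reverse ++ w)).re ≤ ((1 + 2 * r) ^ w.length) ^ 2 := by
  have e1 : tMom (grpMom x) σ [] [j, j] = ⟪fockVec x σ [j], fockVec x σ [j]⟫_ℂ :=
    (inner_fockVec hx [j] [j]).symm
  have e2 : tMom (grpMom x) σ [] (j :: w) = ⟪fockVec x σ [j], fockVec x σ w⟫_ℂ :=
    (inner_fockVec hx [j] w).symm
  have e3 : tMom (grpMom x) σ [] (w.reverse ++ [j]) = ⟪fockVec x σ w, fockVec x σ [j]⟫_ℂ :=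
    (inner_fockVec hx w [j]).symm
  have e4 : tMom (grpMom x) σ [] (w.reverse ++ w) = ⟪fockVec x σ w, fockVec x σ w⟫_ℂ :=
    (inner_fockVec hx w w).symm
  rw [e1, e2, e3, e4]
  have e : ⟪fockVec x σ [j], fockVec x σ [j]⟫_ℂ - ⟪fockVec x σ [j], fockVec x σ w⟫_ℂ -
      ⟪fockVec x σ w, fockVec x σ [j]⟫_ℂ + ⟪fockVec x σ w, fockVec x σ w⟫_ℂ =
      ⟪fockVec x σ [j] - fockVec x σ w, fockVec x σ [j] - fockVec x σ w⟫_ℂ := by
    rw [inner_sub_left, inner_sub_right, inner_sub_right]; ring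
  rw [e]
  refine le_trans (le_of_eq (inner_self_eq_norm_sq (𝕜 := ℂ) _)) ?_
  refine pow_le_pow_left₀ (norm_nonneg _) ?_ 2
  have h := fockVec_close (x := x) hr w hw
  rw [hprod] at h
  have hd : fockVec x σ [j] - fockVec x σ w =
      (σ j : ℂ) • (dl (1, [(j, 1)]) : L2 (FB I G)) - (fockVec x σ w - dl (x j, [])) := by
    rw [fockVec_single]; abel
  rw [hd]
  refine le_trans (norm_sub_le _ _) ?_
  have hs : ‖(σ j : ℂ) • (dl (1, [(j, 1)]) : L2 (FB I G))‖ ≤ 1 := by
    rw [norm_smul, Complex.norm_real, (orthonormal_dl (ι := FB I G)).1, mul_one]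
    exact hj
  linarith

end planted

/-- The variances: `1` on the first `n` letters, `r` on the three roots. -/
noncomputable def baseSigma (n : ℕ) (r : ℝ) (i : Fin (n + 3)) : ℝ :=
  Sum.elim (fun _ => (1 : ℝ)) (fun _ => Real.sqrt r) (finSumFinEquiv.symm i)

theorem baseSigma_sq {n : ℕ} {r : ℝ} (hr : 0 ≤ r) :
    (∀ j : Fin n, baseSigma n r (finSumFinEquiv (.inl j)) ^ 2 = 1) ∧
      ∀ a : Fin 3, baseSigma n r (finSumFinEquiv (.inr a)) ^ 2 = r := by
  constructor
  · intro j; simp [baseSigma]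
  · intro a; simp [baseSigma, Real.sq_sqrt hr]

theorem planted_bounds {n : ℕ} (hn : 6 ≤ n) {L : ℕ} (hL : L ≤ 4 * n + 9) :
    ((1 + 2 * ((n : ℝ) ^ 3)⁻¹) ^ L) ^ 2 < 1 + 100 / (n : ℝ) ^ 2 := by
  have hn' : (6 : ℝ) ≤ n := by exact_mod_cast hn
  have h1 : ((1 + 2 * ((n : ℝ) ^ 3)⁻¹) ^ L) ^ 2 ≤ Real.exp ((4 * (L : ℝ)) * ((n : ℝ) ^ 3)⁻¹) := by
    rw [← pow_mul]
    refine le_trans (pow_le_pow_left₀ (by positivity) (?_ : _ ≤ Real.exp (2 * ((n : ℝ) ^ 3)⁻¹)) _) ?_
    · linarith [Real.add_one_le_exp (2 * ((n : ℝ) ^ 3)⁻¹)]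
    · rw [← Real.exp_nat_mul]
      exact le_of_eq (by push_cast; ring_nf)
  have hL' : (L : ℝ) ≤ 4 * n + 9 := by exact_mod_cast hL
  have hy : 4 * (L : ℝ) * ((n : ℝ) ^ 3)⁻¹ ≤ 28 / (n : ℝ) ^ 2 := by
    rw [← div_eq_mul_inv, div_le_div_iff₀ (by positivity) (by positivity)]
    nlinarith [mul_le_mul_of_nonneg_right (show 4 * (L : ℝ) ≤ 28 * n by linarith)
      (sq_nonneg (n : ℝ))]
  by_cases hsmall : 28 / (n : ℝ) ^ 2 ≤ 1
  · refine lt_of_le_of_lt (h1.trans (Real.exp_le_exp.2 hy)) ?_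
    have := Real.abs_exp_sub_one_le (x := 28 / (n : ℝ) ^ 2)
      (by rw [abs_of_nonneg (by positivity)]; exact hsmall)
    rw [abs_of_nonneg (by positivity : (0 : ℝ) ≤ 28 / (n : ℝ) ^ 2)] at this
    have h2 := (abs_le.1 this).2
    have h3 : (0 : ℝ) < 1 / (n : ℝ) ^ 2 := by positivity
    have h4 : (100 : ℝ) / (n : ℝ) ^ 2 = 2 * (28 / (n : ℝ) ^ 2) + 44 * (1 / (n : ℝ) ^ 2) := by ring
    linarith
  · exfalso
    apply hsmall
    rw [div_le_one (by positivity)]
    have hn6 : 6 ≤ n ∨ n < 6 := le_or_gt 6 n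
    rcases hn6 with h | h
    · have : (6 : ℝ) ≤ n := by exact_mod_cast h
      nlinarith
    · exfalso; omega

end Vale.Agent.P087
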