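import Vale.Agent.P087.Interfaces

/-!
Operators on `ℓ²` given by partial injections of the index type.
-/

namespace Vale.Agent.P087

open scoped InnerProductSpace

/-- `ℓ²` over `ι`. -/
abbrev L2 (ι : Type) : Type := lp (fun _ : ι => ℂ) 2

variable {ι : Type}

theorem pushFun_sum_le (e : ι ≃. ι) (v : L2 ι) (s : Finset ι) :
    ∑ p ∈ s, ‖(e.symm p).elim 0 (fun q => v q)‖ ^ (2 : ENNReal).toReal ≤
      ‖v‖ ^ (2 : ENNReal).toReal := by
  classical
  refine le_trans (le_of_eq ?_) (lp.sum_rpow_le_norm_rpow (by norm_num) v
    (s.filterMap e.symm (fun a a' b h h' => by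
      simp only [Option.mem_def] at h h'
      exact e.symm.inj h h')))
  induction s using Finset.induction_on with
  | empty => simp
  | @insert a t ha ih =>
    rw [Finset.sum_insert ha, ih]
    cases hq : e.symm a with
    | none =>
      have : ∀ h, (insert a t).filterMap e.symm h = t.filterMap e.symm h := by
        intro h; ext b; simp [Finset.mem_filterMap, hq]
      simp [this]
    | some q =>
      have hnot : q ∉ t.filterMap e.symm (fun a a' b h h' => by
          simp only [Option.mem_def] at h h'; exact e.symm.inj h h') := by
        simp only [Finset.mem_filterMap, not_exists, not_and]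
        intro b hb hbq
        exact ha (e.symm.inj (b := q) (by simpa using hq) (by simpa using hbq) ▸ hb)
      have : ∀ h, (insert a t).filterMap e.symm h = insert q (t.filterMap e.symm h) := by
        intro h; ext b; simp [Finset.mem_filterMap, hq, eq_comm]
      rw [this, Finset.sum_insert hnot]
      simp

/-- The operator sending `δ_p` to `δ_(e p)`, and to `0` where `e` is undefined. -/
noncomputable def pushOp (e : ι ≃. ι) : L2 ι →L[ℂ] L2 ι :=
  LinearMap.mkContinuous
    { toFun := fun v => ⟨fun p => (e.symm p).elim 0 (fun q => v q),
        memℓp_gen' (C := ‖v‖ ^ (2 : ENNReal).toReal) (pushFun_sum_le e v)⟩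
      map_add' := fun v w => by
        apply lp.ext; funext p
        show (e.symm p).elim 0 (fun q => (v + w) q) =
          (e.symm p).elim 0 (fun q => v q) + (e.symm p).elim 0 (fun q => w q)
        cases e.symm p <;> simp
      map_smul' := fun c v => by
        apply lp.ext; funext p
        show (e.symm p).elim 0 (fun q => (c • v) q) = c • (e.symm p).elim 0 (fun q => v q)
        cases e.symm p <;> simp }
    1 (fun v => by
      rw [one_mul]
      exact lp.norm_le_of_forall_sum_le (by norm_num) (norm_nonneg _) (pushFun_sum_le e v))

@[simp] theorem pushOp_apply (e : ι ≃. ι) (v : L2 ι) (p : ι) :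
    (pushOp e v) p = (e.symm p).elim 0 (fun q => v q) := rfl

theorem pushOp_norm_le (e : ι ≃. ι) : ‖pushOp e‖ ≤ 1 :=
  LinearMap.mkContinuous_norm_le _ zero_le_one _

theorem pushOp_comp (e f : ι ≃. ι) : pushOp e * pushOp f = pushOp (f.trans e) := by
  ext v p
  simp only [mul_apply_eq_comp, Function.comp_apply, pushOp_apply, PEquiv.symm_trans_rev]
  show _ = ((e.symm p).bind f.symm).elim 0 (fun q => v q)
  cases e.symm p <;> simp

variable [DecidableEq ι]

/-- The basis vector at `p`. -/
noncomputable def dl (p : ι) : L2 ι := lp.single 2 p 1

theorem inner_dl (p : ι) (v : L2 ι) : ⟪dl p, v⟫_ℂ = v p := by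
  simp [dl, lp.inner_single_left]

theorem dl_apply (p q : ι) : (dl p : L2 ι) q = if q = p then 1 else 0 := by
  simp [dl, lp.single_apply, Pi.single_apply]

theorem orthonormal_dl : Orthonormal ℂ (dl : ι → L2 ι) := by
  rw [orthonormal_iff_ite]
  intro i j
  rw [inner_dl, dl_apply]

theorem pushOp_dl (e : ι ≃. ι) (p : ι) :
    pushOp e (dl p) = (e p).elim 0 dl := by
  apply lp.ext; funext q
  rw [pushOp_apply]
  cases hq : e.symm q with
  | none =>
    cases hp : e p with
    | none => simp
    | some r =>
      have hr : q ≠ r := by
        rintro rfl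
        have := (e.eq_some_iff).2 hp
        simp [hq] at this
      simp [dl_apply, hr]
  | some r =>
    have hrq : e r = some q := (e.eq_some_iff).1 hq
    cases hp : e p with
    | none =>
      have hr : r ≠ p := by rintro rfl; simp [hp] at hrq
      simp [dl_apply, hr]
    | some s =>
      have hiff : r = p ↔ q = s := by
        constructor
        · rintro rfl; rw [hp] at hrq; exact (Option.some.inj hrq).symm
        · rintro rfl; exact e.inj (by simpa using hrq) (by simpa using hp)
      simp [dl_apply, hiff]

theorem star_pushOp (e : ι ≃. ι) : star (pushOp e) = pushOp e.symm := by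
  ext v p
  rw [ContinuousLinearMap.star_eq_adjoint, ← inner_dl p ((pushOp e).adjoint v),
    ContinuousLinearMap.adjoint_inner_right, pushOp_dl, pushOp_apply, PEquiv.symm_symm]
  cases e p with
  | none => simp
  | some q => simp [inner_dl]

/-- Two operators agree if they agree on every basis vector. -/
theorem ext_dl {A B : L2 ι →L[ℂ] L2 ι} (h : ∀ p, A (dl p) = B (dl p)) : A = B := by
  have hA : ∀ v, A v = B v := by
    intro v
    have hv := lp.hasSum_single (p := 2) (by norm_num) v
    have h1 := hv.mapL A
    have h2 := hv.mapL B
    refine h1.unique ?_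
    convert h2 using 1
    funext p
    have : lp.single 2 p (v p) = (v p) • (dl p : L2 ι) := by
      rw [dl, ← lp.single_smul, smul_eq_mul, mul_one]
    show A (lp.single 2 p (v p)) = B (lp.single 2 p (v p))
    rw [this, map_smul, map_smul, h p]
  exact ContinuousLinearMap.ext hA

end Vale.Agent.P087
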