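import Mathlib

/-!
Basis of the Fock space over `ℓ² (G)`: a state is `(g₀, [(i₁, g₁), …, (i_q, g_q)])`, read as
`g₀ S_{i₁} g₁ ⋯ S_{i_q} g_q`.  Left generators, the reversal `rev`, and their commutation with the
right generators `rev ∘ gen ∘ rev`.
-/

namespace Vale.Agent.P087

/-- States. -/
abbrev St (I G : Type) : Type := G × List (I × G)

variable {I G : Type}

/-- Append a letter on the right. -/
def app (s : St I G) (i : I) (g : G) : St I G := (s.1, s.2 ++ [(i, g)])

/-- Prepend a letter on the left. -/
def scons (g : G) (i : I) (s : St I G) : St I G := (g, (i, s.1) :: s.2)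

lemma app_scons (g : G) (i : I) (s : St I G) (j : I) (h : G) :
    app (scons g i s) j h = scons g i (app s j h) := rfl

variable [Group G]

/-- Recursion for `rev`. -/
def revAux : G → List (I × G) → St I G
  | g, [] => (g⁻¹, [])
  | g, (i, h) :: tl => app (revAux h tl) i g⁻¹

/-- Reversal and inversion: the adjoint word. -/
def rev (s : St I G) : St I G := revAux s.1 s.2

lemma rev_base (g : G) : rev ((g, []) : St I G) = (g⁻¹, []) := rfl

lemma rev_scons (g : G) (i : I) (s : St I G) : rev (scons g i s) = app (rev s) i g⁻¹ := rfl

lemma rev_app (s : St I G) (i : I) (g : G) : rev (app s i g) = scons g⁻¹ i (rev s) := by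
  obtain ⟨h, tl⟩ := s
  induction tl generalizing h with
  | nil => rfl
  | cons p tl ih =>
      obtain ⟨j, k⟩ := p
      have e : rev (app (k, tl) i g) = scons g⁻¹ i (rev ((k, tl) : St I G)) := ih k
      change app (rev (app (k, tl) i g)) j h⁻¹ = _
      rw [e, app_scons]
      rfl

lemma rev_rev (s : St I G) : rev (rev s) = s := by
  obtain ⟨h, tl⟩ := s
  induction tl generalizing h with
  | nil => simp [rev_base]
  | cons p tl ih =>
      obtain ⟨j, k⟩ := p
      have e : rev (rev ((k, tl) : St I G)) = (k, tl) := ih k
      change rev (app (rev ((k, tl) : St I G)) j h⁻¹) = _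
      rw [rev_app, e, inv_inv]
      rfl

lemma rev_injective : Function.Injective (rev : St I G → St I G) := fun a b h => by
  rw [← rev_rev a, h, rev_rev]

/-- Left multiplication. -/
def lmul (g : G) (s : St I G) : St I G := (g * s.1, s.2)

/-- Creation. -/
def cre (i : I) (s : St I G) : St I G := scons 1 i s

open Classical in
/-- Annihilation. -/
noncomputable def ann (i : I) : St I G → Option (St I G)
  | (g, (j, h) :: tl) => if g = 1 ∧ j = i then some (h, tl) else none
  | (_, []) => none

lemma ann_eq_some {i : I} {s t : St I G} : ann i s = some t ↔ s = cre i t := by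
  obtain ⟨g, tl⟩ := s
  cases tl with
  | nil => simp [ann, cre, scons]
  | cons p tl =>
      obtain ⟨j, h⟩ := p
      obtain ⟨h', tl'⟩ := t
      by_cases hc : g = 1 ∧ j = i
      · simp [ann, cre, scons, hc.1, hc.2]
      · simp only [ann, hc, if_false, cre, scons]
        refine iff_of_false (by simp) fun h => hc ?_
        simp only [Prod.mk.injEq, List.cons.injEq] at h
        exact ⟨h.1, h.2.1.1⟩

/-- The basis images of the left generators `L_g` and `S_i`, as sums of states. -/
noncomputable def gen : G ⊕ I → St I G → List (St I G)
  | Sum.inl g, s => [lmul g s]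
  | Sum.inr i, s => cre i s :: (ann i s).toList

/-- The right generators. -/
noncomputable def rgen (b : G ⊕ I) (s : St I G) : List (St I G) :=
  (gen b (rev s)).map rev

/-- The adjoint generator. -/
def ginv : G ⊕ I → G ⊕ I
  | Sum.inl g => Sum.inl g⁻¹
  | Sum.inr i => Sum.inr i

lemma lmul_app (g : G) (s : St I G) (i : I) (h : G) : lmul g (app s i h) = app (lmul g s) i h :=
  rfl

lemma cre_app (i : I) (s : St I G) (j : I) (h : G) : cre i (app s j h) = app (cre i s) j h := rfl

lemma ann_app_app (i : I) (s : St I G) (j k : I) (h l : G) :
    ann i (app (app s j h) k l) = (ann i (app s j h)).map (fun t => app t k l) := by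
  obtain ⟨g, tl⟩ := s
  cases tl with
  | nil => simp only [app, List.nil_append, List.cons_append, ann]; split_ifs <;> rfl
  | cons p tl =>
      obtain ⟨m, n⟩ := p
      simp only [app, List.cons_append, ann]
      split_ifs <;> rfl

lemma gen_app_app (b : G ⊕ I) (s : St I G) (j k : I) (h l : G) :
    gen b (app (app s j h) k l) = (gen b (app s j h)).map (fun t => app t k l) := by
  cases b with
  | inl g => rfl
  | inr i =>
      simp only [gen, cre_app, ann_app_app]
      cases ann i (app s j h) <;> rfl

lemma rgen_inl_app (g : G) (s : St I G) (i : I) (h : G) :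
    rgen (Sum.inl g) (app s i h) = [app s i (h * g⁻¹)] := by
  have e : lmul g (scons h⁻¹ i (rev s)) = scons (g * h⁻¹) i (rev s) := rfl
  simp [rgen, gen, rev_app, e, rev_scons, rev_rev]

lemma rgen_inl_base (g : G) (x : G) :
    rgen (Sum.inl g) ((x, []) : St I G) = [(x * g⁻¹, [])] := by
  simp [rgen, gen, rev_base, lmul]

lemma rgen_inr (i : I) (s : St I G) :
    rgen (Sum.inr i) s = app s i 1 :: ((ann i (rev s)).map rev).toList := by
  simp only [rgen, gen, List.map_cons, cre, rev_scons, rev_rev, inv_one]
  cases ann i (rev s) <;> rfl

lemma ann_rev_base (i : I) (x : G) : ann i (rev ((x, []) : St I G)) = none := rfl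

open Classical in
lemma ann_rev_app (i : I) (s : St I G) (j : I) (h : G) :
    (ann i (rev (app s j h))).map rev = if h = 1 ∧ j = i then some s else none := by
  rw [rev_app]
  by_cases hc : h = 1 ∧ j = i
  · simp [scons, ann, hc.1, hc.2, show ((rev s).1, (rev s).2) = rev s from rfl, rev_rev]
  · simp only [scons, ann, inv_eq_one, hc, if_false, Option.map_none]

omit [Group G] in
lemma eq_base_or_app (s : St I G) :
    (∃ x, s = (x, [])) ∨ ∃ t i g, s = app t i g := by
  obtain ⟨g, tl⟩ := s
  rcases List.eq_nil_or_concat tl with rfl | ⟨L, p, rfl⟩
  · exact Or.inl ⟨g, rfl⟩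
  · exact Or.inr ⟨(g, L), p.1, p.2, by simp [app]⟩

lemma gen_inl_app (f : G) (s : St I G) (k : I) (l : G) :
    gen (Sum.inl f) (app s k l) = [app (lmul f s) k l] := rfl

lemma gen_inr_base (i : I) (x : G) :
    gen (Sum.inr i) ((x, []) : St I G) = [app ((1, []) : St I G) i x] := rfl

open Classical in
lemma gen_inr_app_base (i : I) (x : G) (k : I) (l : G) :
    gen (Sum.inr i) (app ((x, []) : St I G) k l) =
      app (app ((1, []) : St I G) i x) k l :: if x = 1 ∧ k = i then [(l, [])] else [] := by
  change cre i (app ((x, []) : St I G) k l) ::
    (if x = 1 ∧ k = i then some ((l, []) : St I G) else none).toList = _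
  split_ifs <;> rfl

open Classical in
lemma rgen_inr_app (j : I) (s : St I G) (k : I) (l : G) :
    rgen (Sum.inr j) (app s k l) =
      app (app s k l) j 1 :: if l = 1 ∧ k = j then [s] else [] := by
  rw [rgen_inr, ann_rev_app]
  split_ifs <;> rfl

lemma rgen_inr_base (j : I) (x : G) :
    rgen (Sum.inr j) ((x, []) : St I G) = [app ((x, []) : St I G) j 1] := by
  rw [rgen_inr, ann_rev_base]; rfl

lemma perm_interleave {α : Type} (a : α → α) (X : List α) :
    List.Perm (X.map a ++ X) (X.flatMap fun v => [a v, v]) := by
  induction X with
  | nil => simp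
  | cons v X ih =>
      simp only [List.map_cons, List.flatMap_cons, List.cons_append, List.nil_append]
      exact (List.perm_middle.trans (ih.cons v)).cons (a v)

open Classical in
/-- Left and right generators commute. -/
lemma gen_rgen_perm (b c : G ⊕ I) (s : St I G) :
    List.Perm ((rgen c s).flatMap (gen b)) ((gen b s).flatMap (rgen c)) := by
  rcases eq_base_or_app s with ⟨x, rfl⟩ | ⟨t, k, l, rfl⟩
  · rcases c with g | j <;> rcases b with f | i
    · simp [rgen_inl_base, gen, lmul, mul_assoc]
    · simp [rgen_inl_base, gen_inr_base, rgen_inl_app]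
    · simp [rgen_inr_base, gen_inl_app, show gen (Sum.inl f) ((x, []) : St I G) = [(f * x, [])]
        from rfl, lmul]
    · simp only [rgen_inr_base, gen_inr_base, List.flatMap_cons, List.flatMap_nil, List.append_nil,
        gen_inr_app_base, rgen_inr_app]
      by_cases hc : x = 1 ∧ j = i
      · rw [if_pos hc, if_pos ⟨hc.1, hc.2.symm⟩]
      · rw [if_neg hc, if_neg fun h => hc ⟨h.1, h.2.symm⟩]
  · rcases eq_base_or_app t with ⟨x, rfl⟩ | ⟨t', k', l', rfl⟩
    · rcases c with g | j <;> rcases b with f | i
      · simp [rgen_inl_app, gen_inl_app]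
      · by_cases hd : x = 1 ∧ k = i
        · simp only [rgen_inl_app, gen_inr_app_base, if_pos hd, List.flatMap_cons, rgen_inl_base,
            List.flatMap_nil, List.append_nil]
          rfl
        · simp only [rgen_inl_app, gen_inr_app_base, if_neg hd, List.flatMap_cons,
            List.flatMap_nil, List.append_nil]
          rfl
      · by_cases hc : l = 1 ∧ k = j
        · simp only [rgen_inr_app, gen_inl_app, if_pos hc, List.flatMap_cons, List.flatMap_nil,
            List.append_nil]
          rfl
        · simp only [rgen_inr_app, gen_inl_app, if_neg hc, List.flatMap_cons, List.flatMap_nil,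
            List.append_nil]
          rfl
      · by_cases hc : l = 1 ∧ k = j
        · by_cases hd : x = 1 ∧ k = i
          · simp only [rgen_inr_app, rgen_inr_base, gen_inr_app_base, gen_inr_base, gen_app_app,
              if_pos hc, if_pos hd, List.map_cons, List.map_nil,
              List.flatMap_cons, List.flatMap_nil, List.append_nil, List.nil_append, List.cons_append]
            exact (List.Perm.swap _ _ _).cons _
          · simp only [rgen_inr_app, rgen_inr_base, gen_inr_app_base, gen_inr_base, gen_app_app,
              if_pos hc, if_neg hd, List.map_cons, List.map_nil,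
              List.flatMap_cons, List.flatMap_nil, List.append_nil, List.nil_append, List.cons_append]
            exact List.Perm.refl _
        · by_cases hd : x = 1 ∧ k = i
          · simp only [rgen_inr_app, rgen_inr_base, gen_inr_app_base, gen_inr_base, gen_app_app,
              if_neg hc, if_pos hd, List.map_cons, List.map_nil,
              List.flatMap_cons, List.flatMap_nil, List.append_nil, List.nil_append, List.cons_append]
            exact List.Perm.refl _
          · simp only [rgen_inr_app, rgen_inr_base, gen_inr_app_base, gen_inr_base, gen_app_app,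
              if_neg hc, if_neg hd, List.map_cons, List.map_nil,
              List.flatMap_cons, List.flatMap_nil, List.append_nil, List.nil_append, List.cons_append]
            exact List.Perm.refl _
    · rw [gen_app_app b t' k' k l' l, List.flatMap_map]
      rcases c with g | j
      · simp [rgen_inl_app, gen_app_app, List.map_eq_flatMap]
      · by_cases hc : l = 1 ∧ k = j
        · simp only [rgen_inr_app, if_pos hc, List.flatMap_cons, List.flatMap_nil, List.append_nil,
            gen_app_app, List.map_map]
          exact perm_interleave _ _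
        · simp [rgen_inr_app, hc, gen_app_app, List.map_eq_flatMap, List.flatMap_assoc]

end Vale.Agent.P087
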