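import Vale.Agent.P087.Fock
import Vale.Agent.P087.State

/-!
The von Neumann algebra of the left Fock operators: the commutant of the right ones.  Its vacuum
state is tracial and faithful.
-/

namespace Vale.Agent.P087

open scoped InnerProductSpace

variable {I G : Type} [DecidableEq I] [Group G] [DecidableEq G]

/-- Left generators. -/
noncomputable def gop : G ⊕ I → (L2 (FB I G) →L[ℂ] L2 (FB I G))
  | Sum.inl g => fockX g
  | Sum.inr i => fockS i

theorem lPE_symm_eq_ann (i : I) (s : FB I G) : (lPE i).symm s = ann i s := by
  obtain ⟨g, tl⟩ := s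
  cases tl with
  | nil => simp [lPE, PEquiv.symm, ann]
  | cons p tl =>
      obtain ⟨j, h⟩ := p
      simp [lPE, PEquiv.symm, ann]

theorem gop_dl (b : G ⊕ I) (s : FB I G) : gop b (dl s) = ((gen b s).map dl).sum := by
  cases b with
  | inl g => simp [gop, fockX, pushOp_dl, gPE, Equiv.toPEquiv_apply, gen, lmul, Prod.map]
  | inr i =>
      simp only [gop, fockS, add_apply, pushOp_dl, lPE_symm_eq_ann]
      simp only [gen, List.map_cons, List.sum_cons, cre, scons]
      congr 1
      cases ann i s <;> simp

theorem star_gop (b : G ⊕ I) : star (gop b) = gop (ginv b) := by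
  cases b with
  | inl g => exact star_fockX g
  | inr i => exact (isSelfAdjoint_fockS i).star_eq

/-- The unitary of the reversal. -/
noncomputable def uop : L2 (FB I G) →L[ℂ] L2 (FB I G) :=
  pushOp (Function.Involutive.toPerm (rev : FB I G → FB I G) rev_rev).toPEquiv

theorem uop_dl (s : FB I G) : uop (dl s) = dl (rev s) := by
  simp [uop, pushOp_dl, Equiv.toPEquiv_apply]; rfl

theorem uop_mul_uop : (uop : L2 (FB I G) →L[ℂ] _) * uop = 1 := by
  refine ext_dl fun s => ?_
  rw [mul_apply_eq_comp, one_apply_eq_self, uop_dl, uop_dl, rev_rev]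

theorem star_uop : star (uop : L2 (FB I G) →L[ℂ] _) = uop := by
  rw [uop, star_pushOp, ← Equiv.toPEquiv_symm]
  rfl

theorem uop_uop (v : L2 (FB I G)) : uop (uop v) = v := by
  rw [← mul_apply_eq_comp, uop_mul_uop, one_apply_eq_self]

theorem uop_vac : uop (vac : L2 (FB I G)) = vac := by
  simp [vac, uop_dl, rev_base]

/-- Right generators. -/
noncomputable def rop (b : G ⊕ I) : L2 (FB I G) →L[ℂ] L2 (FB I G) := uop * gop b * uop

theorem rop_dl (b : G ⊕ I) (s : FB I G) : rop b (dl s) = ((rgen b s).map dl).sum := by
  simp only [rop, mul_apply_eq_comp, uop_dl, gop_dl, map_list_sum, rgen,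
    List.map_map]
  congr 1
  exact List.map_congr_left fun t _ => by simp [uop_dl]

omit [DecidableEq I] [Group G] [DecidableEq G] in
theorem sum_map_flatMap {α : Type} (f : α → List α) (d : α → L2 (FB I G)) (l : List α) :
    (l.map fun t => ((f t).map d).sum).sum = ((l.flatMap f).map d).sum := by
  induction l with
  | nil => simp
  | cons a l ih => simp [ih]

theorem gop_rop_comm (b c : G ⊕ I) :
    (rop c : L2 (FB I G) →L[ℂ] _) * gop b = gop b * rop c := by
  refine ext_dl fun s => ?_
  simp only [mul_apply_eq_comp, gop_dl, rop_dl, map_list_sum, List.map_map, Function.comp_def]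
  rw [sum_map_flatMap, sum_map_flatMap]
  exact ((gen_rgen_perm b c s).map dl).sum_eq.symm

theorem star_rop (b : G ⊕ I) : star (rop b) = rop (ginv b) := by
  simp [rop, star_mul, star_uop, star_gop, mul_assoc]

variable (I G) in
/-- The algebra of operators commuting with all right generators. -/
noncomputable def fockAlg : VonNeumannAlgebra (L2 (FB I G)) where
  toStarSubalgebra := StarSubalgebra.centralizer ℂ (Set.range rop)
  centralizer_centralizer' := by simp

theorem mem_fockAlg {a : L2 (FB I G) →L[ℂ] L2 (FB I G)} :
    a ∈ fockAlg I G ↔ ∀ b, rop b * a = a * rop b := by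
  show a ∈ StarSubalgebra.centralizer ℂ (Set.range (rop (I := I) (G := G))) ↔ _
  rw [← SetLike.mem_coe, StarSubalgebra.coe_centralizer]
  constructor
  · intro h b
    exact h _ (Or.inl ⟨b, rfl⟩)
  · rintro h m (⟨b, rfl⟩ | hm)
    · exact h b
    · obtain ⟨b, hb⟩ := hm
      have : m = rop (ginv b) := by rw [← star_rop, hb, star_star]
      rw [this]; exact h _

theorem gop_mem (b : G ⊕ I) : gop b ∈ fockAlg I G :=
  mem_fockAlg.2 fun c => gop_rop_comm b c

/-- Products of generators. -/
noncomputable def wop (w : List (G ⊕ I)) : L2 (FB I G) →L[ℂ] L2 (FB I G) := (w.map gop).prod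

theorem wop_cons (b : G ⊕ I) (w : List (G ⊕ I)) : wop (b :: w) = gop b * wop w := by
  simp [wop]

theorem wop_mem (w : List (G ⊕ I)) : wop w ∈ fockAlg I G := by
  induction w with
  | nil => exact one_mem _
  | cons b w ih => rw [wop_cons]; exact mul_mem (gop_mem b) ih

theorem rop_vac (b : G ⊕ I) : rop b vac = star (gop b) vac := by
  simp only [rop, mul_apply_eq_comp, vac, uop_dl, rev_base, inv_one, star_gop, gop_dl]
  cases b with
  | inl g => simp [gen, ginv, lmul, uop_dl, rev_base]
  | inr i =>
      simp only [gen, ginv, ann, Option.toList_none, List.map_cons, List.map_nil, List.sum_cons,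
        List.sum_nil, add_zero, uop_dl, cre, rev_scons, rev_base, inv_one]
      rfl

theorem uop_wop_vac (w : List (G ⊕ I)) : uop (wop w vac) = star (wop w) vac := by
  induction w with
  | nil => simp [wop, uop_vac]
  | cons b w ih =>
      have hc := mem_fockAlg.1 (star_mem (wop_mem w)) b
      rw [wop_cons, mul_apply_eq_comp, star_mul, mul_apply_eq_comp, ← rop_vac]
      calc uop (gop b (wop w vac)) = rop b (uop (wop w vac)) := by
            simp [rop, mul_apply_eq_comp, uop_uop]
        _ = (rop b * star (wop w)) vac := by rw [ih, mul_apply_eq_comp]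
        _ = _ := by rw [hc, mul_apply_eq_comp]

/-- The right copy of a product of generators commutes with the algebra. -/
theorem uop_wop_uop_comm {a : L2 (FB I G) →L[ℂ] L2 (FB I G)} (ha : a ∈ fockAlg I G)
    (w : List (G ⊕ I)) : Commute (uop * wop w * uop) a := by
  induction w with
  | nil => simp [wop, uop_mul_uop, Commute.one_left]
  | cons b w ih =>
      have e : uop * wop (b :: w) * uop = rop b * (uop * wop w * uop) := by
        simp only [wop_cons, rop, mul_assoc]
        rw [← mul_assoc uop uop, uop_mul_uop, one_mul]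
      rw [e]
      exact (Commute.mul_left (mem_fockAlg.1 ha b) ih)

/-- The vectors `W Ω` span the basis over the integers. -/
theorem dl_mem_closure (s : FB I G) :
    (dl s : L2 (FB I G)) ∈
      AddSubgroup.closure (Set.range fun w : List (G ⊕ I) => wop w vac) := by
  set K : AddSubgroup (L2 (FB I G)) :=
    AddSubgroup.closure (Set.range fun w : List (G ⊕ I) => wop w vac)
  have hgen : ∀ (b : G ⊕ I) (v : L2 (FB I G)), v ∈ K → gop b v ∈ K := by
    intro b v hv
    induction hv using AddSubgroup.closure_induction with
    | mem x hx =>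
        obtain ⟨w, rfl⟩ := hx
        exact AddSubgroup.subset_closure ⟨b :: w, by simp [wop_cons, mul_apply_eq_comp]⟩
    | zero => simp
    | add x y _ _ hx hy => rw [map_add]; exact add_mem hx hy
    | neg x _ hx => rw [map_neg]; exact neg_mem hx
  obtain ⟨g, tl⟩ := s
  induction hn : tl.length using Nat.strong_induction_on generalizing g tl with
  | _ N IH =>
    cases tl with
    | nil =>
        refine AddSubgroup.subset_closure ⟨[Sum.inl g], ?_⟩
        simp [wop, vac, gop_dl, gen, lmul]
    | cons p tl =>
        obtain ⟨i, h⟩ := p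
        simp only [List.length_cons] at hn
        have h1 := hgen (Sum.inr i) _ (IH tl.length (by omega) h tl rfl)
        have h2 : ((ann i ((h, tl) : FB I G)).toList.map (dl (ι := FB I G))).sum ∈ K := by
          cases he : ann i ((h, tl) : FB I G) with
          | none => simp
          | some t =>
              have ht := ann_eq_some.1 he
              simp only [Option.toList_some, List.map_cons, List.map_nil, List.sum_cons,
                List.sum_nil, add_zero]
              have hl : tl.length = t.2.length + 1 := by
                rw [show tl = (cre i t).2 from congrArg Prod.snd ht]; rfl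
              exact IH t.2.length (by omega) t.1 t.2 rfl
        have h3 := hgen (Sum.inl g) _ (sub_mem h1 h2)
        rw [gop_dl] at h3
        simp only [gen, List.map_cons, List.sum_cons, add_sub_cancel_right, gop_dl] at h3
        simpa [gop_dl, gen, lmul, cre, scons] using h3

theorem star_apply_vac {a : L2 (FB I G) →L[ℂ] L2 (FB I G)} (ha : a ∈ fockAlg I G)
    (s : FB I G) : star a vac (rev s) = starRingEnd ℂ (a vac s) := by
  have key : ⟪uop (dl s), star a vac⟫_ℂ = ⟪a vac, dl s⟫_ℂ := by
    have hv := dl_mem_closure s
    revert hv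
    generalize (dl s : L2 (FB I G)) = v
    intro hv
    induction hv using AddSubgroup.closure_induction with
    | mem x hx =>
        obtain ⟨w, rfl⟩ := hx
        set R := uop * wop w * uop with hR
        have hcomm : R * a = a * R := uop_wop_uop_comm ha w
        have e1 : uop (wop w vac) = R vac := by simp [hR, mul_apply_eq_comp, uop_vac]
        have e2 : star R vac = wop w vac := by
          simp [hR, star_mul, star_uop, mul_apply_eq_comp, uop_vac, ← uop_wop_vac, uop_uop]
        simp only
        rw [e1, ← e2, ContinuousLinearMap.star_eq_adjoint, ContinuousLinearMap.star_eq_adjoint,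
          ContinuousLinearMap.adjoint_inner_right, ContinuousLinearMap.adjoint_inner_right,
          ← mul_apply_eq_comp, ← mul_apply_eq_comp, hcomm]
    | zero => simp
    | add x y _ _ hx hy => simp [hx, hy]
    | neg x _ hx => simp [inner_neg_left, inner_neg_right, hx]
  rw [uop_dl, inner_dl, ← inner_conj_symm, inner_dl] at key
  exact key

theorem fockAlg_tracial {a b : L2 (FB I G) →L[ℂ] L2 (FB I G)} (ha : a ∈ fockAlg I G)
    (hb : b ∈ fockAlg I G) : ⟪vac, (a * b) vac⟫_ℂ = ⟪vac, (b * a) vac⟫_ℂ := by
  have e : ∀ {a b : L2 (FB I G) →L[ℂ] L2 (FB I G)}, a ∈ fockAlg I G →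
      ⟪vac, (a * b) vac⟫_ℂ = ∑' s, a vac (rev s) * b vac s := by
    intro a b ha
    rw [mul_apply_eq_comp, ← ContinuousLinearMap.adjoint_inner_left,
      ← ContinuousLinearMap.star_eq_adjoint, lp.inner_eq_tsum]
    refine tsum_congr fun s => ?_
    have h := star_apply_vac ha (rev s)
    rw [rev_rev] at h
    rw [RCLike.inner_apply, h]
    simp [mul_comm]
  rw [e ha, e hb,
    ← (Function.Involutive.toPerm (rev : FB I G → FB I G) rev_rev).tsum_eq]
  refine tsum_congr fun s => ?_
  change a vac (rev (rev s)) * b vac (rev s) = _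
  rw [rev_rev, mul_comm]

theorem fockAlg_faithful {a : L2 (FB I G) →L[ℂ] L2 (FB I G)} (ha : a ∈ fockAlg I G)
    (h : a vac = 0) : a = 0 := by
  refine ext_dl fun s => ?_
  have key : a (uop (dl (rev s))) = 0 := by
    have hv := dl_mem_closure (rev s)
    revert hv
    generalize (dl (rev s) : L2 (FB I G)) = v
    intro hv
    induction hv using AddSubgroup.closure_induction with
    | mem x hx =>
        obtain ⟨w, rfl⟩ := hx
        have hcomm : uop * wop w * uop * a = a * (uop * wop w * uop) := uop_wop_uop_comm ha w
        have := DFunLike.congr_fun hcomm vac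
        simp only [mul_apply_eq_comp, h, uop_vac, map_zero] at this
        exact this.symm
    | zero => simp
    | add x y _ _ hx hy => simp [hx, hy]
    | neg x _ hx => simp [hx]
  rw [uop_dl, rev_rev] at key
  simpa using key

theorem fockZ_mem (x : I → G) (σ : I → ℝ) (i : I) : fockZ x σ i ∈ fockAlg I G := by
  refine mem_fockAlg.2 fun b => ?_
  have h1 := gop_rop_comm (I := I) (Sum.inl (x i)) b
  have h2 := gop_rop_comm (G := G) (Sum.inr i) b
  simp only [gop] at h1 h2
  simp [fockZ, mul_add, add_mul, mul_smul_comm, smul_mul_assoc, h1, h2]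

/-- Cyclic invariance of the moments. -/
theorem tMom_cyclic {x : I → G} (hx : ∀ i, x i * x i = 1) (σ : I → ℝ) (u v : List I) :
    tMom (grpMom x) σ [] (u ++ v) = tMom (grpMom x) σ [] (v ++ u) := by
  have hm : ∀ w : List I, (w.map (fockZ x σ)).prod ∈ fockAlg I G := by
    intro w
    induction w with
    | nil => exact one_mem _
    | cons i w ih => simpa using mul_mem (fockZ_mem x σ i) ih
  rw [← law_fockZ hx]
  simp only [law, List.map_append, List.prod_append]
  exact fockAlg_tracial (hm u) (hm v)

theorem norm_vac : ‖(vac : L2 (FB I G))‖ = 1 := orthonormal_dl.norm_eq_one _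

theorem realStmt : RealStmt := by
  intro I G _ _ _ x σ hx
  classical
  exact ⟨FB I G, fockAlg I G, vac, fockZ x σ, norm_vac, fun a ha b hb => fockAlg_tracial ha hb,
    fun a ha h => fockAlg_faithful ha h,
    fun i => ⟨fockZ_mem x σ i, isSelfAdjoint_fockZ hx i⟩, law_fockZ hx⟩

end Vale.Agent.P087
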