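import Vale.Agent.P087.Main

/-!
The separation `⊥ < χ < χ* < ⊤` from the module statements.
-/

namespace Vale.Agent.P087

open scoped ENNReal InnerProductSpace

/-- The `η` bound: total cumulant weight over all coordinates. -/
theorem eta_total {I : Type} [Fintype I] [DecidableEq I] (κ : List I → ℂ) (σ : I → ℝ) {M T : ℝ} (hM : 1 ≤ M)
    (hT : 128 * M ≤ T) (hσ : ∀ i, T ≤ σ i ^ 2)
    (hκ : ∀ q : ℕ, 1 ≤ q → ∑ w : Fin q → I, ‖κ (List.ofFn w)‖ ^ 2 ≤ (1 / 16) * (64 * M) ^ q) :
    ∃ η : I → ℝ, (∀ j d, ∑ q ∈ Finset.Icc 2 d, etaTerm κ σ j q ≤ η j) ∧ (∀ j, 0 ≤ η j) ∧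
      ∑ j, η j ≤ 2 * M := by
  have hT0 : 0 < T := by linarith
  have hsum : ∀ q : ℕ, 1 ≤ q → ∑ j, etaTerm κ σ j q ≤ 4 * M * (1 / 2) ^ q := by
    intro q hq
    have h1 : ∀ j, etaTerm κ σ j q ≤ (∑ w : Fin q → I, ‖κ (j :: List.ofFn w)‖ ^ 2) / T ^ q := by
      intro j
      rw [Finset.sum_div]
      refine Finset.sum_le_sum fun w _ => div_le_div_of_nonneg_left (sq_nonneg _) (by positivity) ?_
      calc T ^ q = ∏ _l : Fin q, T := by simp
        _ ≤ _ := Finset.prod_le_prod (fun _ _ => hT0.le) fun l _ => hσ _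
    refine le_trans (Finset.sum_le_sum fun j _ => h1 j) ?_
    rw [← Finset.sum_div]
    have h2 : ∑ j, ∑ w : Fin q → I, ‖κ (j :: List.ofFn w)‖ ^ 2 =
        ∑ w : Fin (q + 1) → I, ‖κ (List.ofFn w)‖ ^ 2 := by
      rw [← Equiv.sum_comp (Fin.consEquiv fun _ : Fin (q + 1) => I)
        (fun w => ‖κ (List.ofFn w)‖ ^ 2), Fintype.sum_prod_type]
      refine Finset.sum_congr rfl fun j _ => Finset.sum_congr rfl fun w _ => ?_
      simp [List.ofFn_cons]
    rw [h2]
    refine le_trans (div_le_div_of_nonneg_right (hκ (q + 1) (by omega)) (by positivity)) ?_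
    rw [div_le_iff₀ (by positivity)]
    have h3 : (64 * M) ^ q ≤ (1 / 2 : ℝ) ^ q * T ^ q := by
      rw [← mul_pow]; exact pow_le_pow_left₀ (by positivity) (by linarith) q
    calc (1 / 16 : ℝ) * (64 * M) ^ (q + 1) = 4 * M * (64 * M) ^ q := by ring
      _ ≤ 4 * M * ((1 / 2) ^ q * T ^ q) := mul_le_mul_of_nonneg_left h3 (by positivity)
      _ = _ := by ring
  let f : I → ℕ → ℝ := fun j q => etaTerm κ σ j (q + 2)
  have hf : ∀ j q, f j q ≤ M * (1 / 2) ^ q := by
    intro j q
    refine le_trans (Finset.single_le_sum (fun i _ => etaTerm_nonneg κ σ i (q + 2))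
      (Finset.mem_univ j)) ((hsum (q + 2) (by omega)).trans (le_of_eq ?_))
    ring
  have hgeo : Summable fun q : ℕ => M * (1 / 2 : ℝ) ^ q :=
    (summable_geometric_of_lt_one (by norm_num) (by norm_num)).mul_left M
  have hsf : ∀ j, Summable (f j) := fun j =>
    Summable.of_nonneg_of_le (fun q => etaTerm_nonneg _ _ _ _) (hf j) hgeo
  refine ⟨fun j => ∑' q, f j q, fun j d => ?_, fun j => tsum_nonneg fun q => etaTerm_nonneg _ _ _ _,
    ?_⟩
  · refine le_trans (le_of_eq ?_) ((hsf j).sum_le_tsum (Finset.range (d - 1))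
      fun q _ => etaTerm_nonneg _ _ _ _)
    rw [← Finset.Ico_add_one_right_eq_Icc, Finset.sum_Ico_eq_sum_range]
    refine Finset.sum_congr (by congr 1) fun q _ => ?_
    simp only [f, add_comm]
  · rw [← Summable.tsum_finsetSum fun j _ => hsf j]
    refine le_trans (Summable.tsum_le_tsum (fun q => ?_) (summable_sum fun j _ => hsf j) hgeo) ?_
    · exact (hsum (q + 2) (by omega)).trans (le_of_eq (by ring))
    · rw [tsum_mul_left, tsum_geometric_of_lt_one (by norm_num) (by norm_num)]
      norm_num; linarith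

/-- The numeric heart: for `n = 4 ^ 20` the gain beats the loss. -/
theorem numeric_gap {n : ℕ} (hn : (n : ℝ) = 4 ^ 20) :
    (3 : ℝ) / 2 * Real.log 4 + (n : ℝ) / 2 * (100 / (n : ℝ) ^ 2) +
      3 * (6 * Real.log n) <
    1 / 2 * ((n : ℝ) ^ 2 / ((n : ℝ) + 2 * (2 * Real.sqrt n + 3)) /
      (2 + 128 * (2 * Real.sqrt n + 3))) := by
  have hl : Real.log 4 ≤ 3 := (Real.log_le_sub_one_of_pos (by norm_num)).trans (by norm_num)
  have hlog : Real.log (n : ℝ) ≤ 60 := by
    rw [hn, Real.log_pow]; push_cast; linarith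
  have hsq : Real.sqrt (n : ℝ) = 2 ^ 20 := by
    rw [hn, show (4 : ℝ) ^ 20 = (2 ^ 20) ^ 2 by norm_num, Real.sqrt_sq (by norm_num)]
  have e1 : (n : ℝ) / 2 * (100 / (n : ℝ) ^ 2) ≤ 1 := by rw [hn]; norm_num
  have e2 : (1500 : ℝ) ≤ 1 / 2 * ((n : ℝ) ^ 2 / ((n : ℝ) + 2 * (2 * Real.sqrt n + 3)) /
      (2 + 128 * (2 * Real.sqrt n + 3))) := by rw [hsq, hn]; norm_num
  linarith

/-- The law of an explicit tuple separates `χ` from `χ*`. -/
theorem separation (hC : CumulStmt) (hG : GroupStmt) (hR : RealStmt) (hS : SmoothStmt)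
    (hGa : GaussStmt) (hU : UpperStmt) :
    ∃ (ι : Type) (A : VonNeumannAlgebra (lp (fun _ : ι => ℂ) 2))
      (Ω : lp (fun _ : ι => ℂ) 2) (N : ℕ)
      (Z : Fin N → lp (fun _ : ι => ℂ) 2 →L[ℂ] lp (fun _ : ι => ℂ) 2),
      1 ≤ N ∧ ‖Ω‖ = 1 ∧
      (∀ a ∈ A, ∀ b ∈ A, inner ℂ Ω ((a * b) Ω) = inner ℂ Ω ((b * a) Ω)) ∧
      (∀ a ∈ A, a Ω = 0 → a = 0) ∧
      (∀ i, Z i ∈ A ∧ IsSelfAdjoint (Z i)) ∧
      ⊥ < chi (law Ω Z) ∧ chi (law Ω Z) < chiStar (law Ω Z) ∧ chiStar (law Ω Z) < ⊤ := by
  classical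
  obtain ⟨n, hn⟩ : ∃ n : ℕ, (n : ℝ) = 4 ^ 20 := ⟨4 ^ 20, by push_cast; ring⟩
  have hn6 : 6 ≤ n := by
    have : (6 : ℝ) ≤ n := by rw [hn]; norm_num
    exact_mod_cast this
  have hn0 : (0 : ℝ) < n := by rw [hn]; positivity
  obtain ⟨G, iG, y, hyinj, hy, hyword, hycount, hymod⟩ := hG n
  let e : Fin n ⊕ Fin 3 ≃ Fin (n + 3) := finSumFinEquiv
  let x : Fin (n + 3) → G := y ∘ e.symm
  have hxinj : Function.Injective x := hyinj.comp e.symm.injective
  have hx : ∀ i, x i * x i = 1 ∧ x i ≠ 1 := fun i => hy _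
  set r : ℝ := (((n : ℝ) ^ 3)⁻¹) ^ 2 with hrdef
  have hr : 0 < r := by positivity
  have hr1 : r ≤ 1 := by
    refine pow_le_one₀ (by positivity) (inv_le_one_of_one_le₀ ?_)
    rw [hn]; norm_num
  have hsr : Real.sqrt r = ((n : ℝ) ^ 3)⁻¹ := Real.sqrt_sq (by positivity)
  set σ := baseSigma n r with hσdef
  obtain ⟨hσl, hσr⟩ := baseSigma_sq (n := n) hr.le
  have hσpos : ∀ i, 0 < σ i := by
    intro i
    obtain ⟨s, rfl⟩ := e.surjective i
    cases s <;> simp [hσdef, baseSigma, e, Real.sqrt_pos.2 hr]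
  have hσ1 : ∀ i, σ i ^ 2 ≤ 1 := by
    intro i
    obtain ⟨s, rfl⟩ := e.surjective i
    cases s with
    | inl j => exact (hσl j).le
    | inr a => exact (hσr a).le.trans hr1
  set M : ℝ := 2 * Real.sqrt n + 3 with hMdef
  have hM : 1 ≤ M := by linarith [Real.sqrt_nonneg (n : ℝ)]
  have hcount : ∀ q : ℕ, ∑ w : Fin q → Fin (n + 3), ‖grpMom x (List.ofFn w)‖ ^ 2 ≤ M ^ q := by
    intro q
    refine le_trans (le_of_eq ?_) (hycount q)
    rw [← Equiv.sum_comp (Equiv.piCongrRight fun _ : Fin q => e)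
      (fun w => ‖grpMom x (List.ofFn w)‖ ^ 2)]
    refine Finset.sum_congr rfl fun w _ => ?_
    simp [grpMom, x, List.map_ofFn, Function.comp_def]
  obtain ⟨κ, hκ2, hκT, hκn⟩ := hC (Fin (n + 3)) (grpMom x) M grpMom_nil (grpMom_one hx) hM hcount
  have hmod : HasModels (grpMom x) := by
    intro M' K
    obtain ⟨k, hk, B, hB, hBm⟩ := hymod M' K
    refine ⟨k, hk, B ∘ e.symm, fun i => hB _, fun v hv => ?_⟩
    have := hBm (v.map e.symm) (by simpa using hv)
    simpa [grpMom, x, List.map_map, Function.comp_def] using this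
  obtain ⟨ι, A, Ω, Z, hΩ, htr, hfa, hZ, hlaw⟩ := hR (Fin (n + 3)) G x σ fun i => (hx i).1
  refine ⟨ι, A, Ω, n + 3, Z, by omega, hΩ, htr, hfa, hZ, ?_⟩
  rw [hlaw]
  refine ⟨hGa _ (grpMom x) σ hσpos hmod, ?_, ?_⟩
  -- `χ < χ*`
  · set T : ℝ := 128 * M with hTdef
    have hT0 : 0 ≤ T := by positivity
    have hsm : ∀ t, 0 ≤ t → smoothMoment (tMom (grpMom x) σ []) t =
        tMom (grpMom x) (fun i => Real.sqrt (σ i ^ 2 + t)) [] :=
      fun t ht => hS (Fin (n + 3)) G x σ t (fun i => (hx i).1) ht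
    have hf1 : ∀ t, 0 < t → ∀ i, fisherCoord (smoothMoment (tMom (grpMom x) σ []) t) i ≤
        ENNReal.ofReal (1 / (σ i ^ 2 + t)) := by
      intro t ht i
      rw [hsm t ht.le]
      have hp : 0 < σ i ^ 2 + t := by positivity
      refine (fisherCoord_le_inv hx i (Real.sqrt_pos.2 hp).ne').trans (le_of_eq ?_)
      rw [Real.sq_sqrt hp.le]
    have hsplit : ∀ g : Fin (n + 3) → ℝ,
        ∑ i, g i = ∑ j : Fin n, g (e (.inl j)) + ∑ a : Fin 3, g (e (.inr a)) :=
      fun g => by rw [← Equiv.sum_comp e g, Fintype.sum_sum_type]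
    have hcard : (Fintype.card (Fin (n + 3)) : ℝ) = (n : ℝ) + 3 := by simp
    set K : ℝ := (n : ℝ) ^ 2 / ((n : ℝ) + 2 * M) with hKdef
    have hlow := le_chiStar (μ := tMom (grpMom x) σ []) (p := 3) (r := r) (K := K) (T := T)
      (by norm_num) hr hr1 (by positivity) hT0 ?_ ?_
    · refine lt_of_lt_of_le ?_ hlow
      have hUb := hU (Fin (n + 3)) n 3 e (tMom (grpMom x) σ []) (fun j => (hyword j).choose)
        (1 + 100 / (n : ℝ) ^ 2) 4 (by rw [tMom_nil]; exact grpMom_nil) (by positivity)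
        (by norm_num) ?_ ?_
      · refine lt_of_le_of_lt hUb (EReal.coe_lt_coe_iff.2 ?_)
        rw [hcard]
        have h2pe := log_four_pi_exp_pos
        rw [Real.log_mul h2pe.ne' (by positivity), Real.log_mul h2pe.ne' (by norm_num)]
        have hlg : (n : ℝ) / 2 * Real.log (1 + 100 / (n : ℝ) ^ 2) ≤
            (n : ℝ) / 2 * (100 / (n : ℝ) ^ 2) := by
          refine mul_le_mul_of_nonneg_left ?_ (by positivity)
          refine (Real.log_le_sub_one_of_pos (by positivity)).trans (le_of_eq ?_)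
          ring
        have hlr : -Real.log r = 6 * Real.log n := by
          rw [hrdef, Real.log_pow, Real.log_inv, Real.log_pow]; push_cast; ring
        have hgap := numeric_gap hn
        rw [hlr, hKdef, hTdef, hMdef]
        push_cast
        linarith
      · intro j
        obtain ⟨hlen, hprod⟩ := (hyword j).choose_spec
        set g := (hyword j).choose
        have hsmall : ∀ a ∈ g.map (e ∘ Sum.inr), |σ a| ≤ ((n : ℝ) ^ 3)⁻¹ := by
          intro a ha
          obtain ⟨b, -, rfl⟩ := List.mem_map.1 ha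
          simp [hσdef, baseSigma, e, hsr]
        have hp : ((g.map (e ∘ Sum.inr)).map x).prod = x (e (.inl j)) := by
          simpa [x, List.map_map, Function.comp_def] using hprod
        have hd := planted_dist (σ := σ) (fun i => (hx i).1) (by positivity) (e (.inl j))
          (g.map (e ∘ Sum.inr)) hsmall (by simp [hσdef, baseSigma, e]) hp
        rw [← List.map_reverse] at hd
        refine lt_of_le_of_lt hd ?_
        rw [List.length_map]
        exact planted_bounds hn6 hlen
      · intro a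
        have e1 := inner_fockVec (σ := σ) (fun i => (hx i).1) [e (.inr a)] [e (.inr a)]
        simp only [List.reverse_singleton, List.singleton_append] at e1
        rw [← e1]
        refine lt_of_le_of_lt (le_of_eq (inner_self_eq_norm_sq (𝕜 := ℂ) _)) ?_
        have hb : ‖fockVec x σ [e (.inr a)]‖ ≤ 1 + Real.sqrt r := by
          rw [fockVec_single]
          refine le_trans (norm_add_le _ _) ?_
          rw [norm_smul, (orthonormal_dl (ι := FB (Fin (n + 3)) G)).1,
            (orthonormal_dl (ι := FB (Fin (n + 3)) G)).1, Complex.norm_real]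
          simp [hσdef, baseSigma, e, abs_of_nonneg (Real.sqrt_nonneg r)]
        have hs : Real.sqrt r < 1 := by
          rw [hsr]
          refine inv_lt_one_of_one_lt₀ ?_
          rw [hn]; norm_num
        nlinarith [norm_nonneg (fockVec x σ [e (.inr a)])]
    · intro t ht
      refine le_trans (Finset.sum_le_sum fun i _ => hf1 t ht i) ?_
      rw [← ENNReal.ofReal_sum_of_nonneg fun i _ => by positivity]
      refine ENNReal.ofReal_le_ofReal (le_of_eq ?_)
      rw [hsplit, hcard]
      simp only [e, hσdef, hσl, hσr, lossFun, Finset.sum_const, Finset.card_univ,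
        Fintype.card_fin, nsmul_eq_mul]
      push_cast
      ring
    · intro t ht
      have ht0 : 0 < t := lt_of_le_of_lt hT0 ht
      let s : Fin (n + 3) → ℝ := fun i => Real.sqrt (σ i ^ 2 + t)
      have hs2 : ∀ i, s i ^ 2 = σ i ^ 2 + t := fun i => Real.sq_sqrt (by positivity)
      obtain ⟨η, hη, hη0, hηsum⟩ := eta_total κ s (T := t) hM (le_of_lt ht)
        (fun i => by rw [hs2]; nlinarith [sq_nonneg (σ i)]) hκn
      set b : Fin n → ℝ := fun j => 1 / (1 + η (e (.inl j))) with hb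
      have hg : ∀ j : Fin n, fisherCoord (smoothMoment (tMom (grpMom x) σ []) t) (e (.inl j)) ≤
          ENNReal.ofReal (1 / (1 + t + b j)) := by
        intro j
        rw [hsm t ht0.le]
        refine (fisherCoord_le_gain hxinj hx (fun i => (Real.sqrt_pos.2 (by positivity)).ne') κ hκ2
          (fun i u d hd => hκT s i u d hd) _ (hη _)).trans (le_of_eq ?_)
        rw [Real.sq_sqrt (by positivity), hσl]
      have hb0 : ∀ j, 0 ≤ b j := fun j => by have := hη0 (e (.inl j)); positivity
      have hb1 : ∀ j, b j ≤ 1 := fun j => by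
        rw [hb]; exact div_le_one_of_le₀ (by linarith [hη0 (e (.inl j))])
          (by linarith [hη0 (e (.inl j))])
      have hfis : fisher (smoothMoment (tMom (grpMom x) σ []) t) ≤
          ENNReal.ofReal (∑ j : Fin n, 1 / (1 + t + b j) + ∑ _a : Fin 3, 1 / (r + t)) := by
        rw [fisher, ← Equiv.sum_comp e, Fintype.sum_sum_type,
          ENNReal.ofReal_add (Finset.sum_nonneg fun j _ => by have := hb0 j; positivity)
            (by positivity),
          ENNReal.ofReal_sum_of_nonneg (fun j _ => by have := hb0 j; positivity),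
          ENNReal.ofReal_sum_of_nonneg (fun j _ => by positivity)]
        refine add_le_add (Finset.sum_le_sum fun j _ => hg j) (Finset.sum_le_sum fun a _ => ?_)
        refine (hf1 t ht0 _).trans (le_of_eq ?_)
        rw [hσr]
      have hsumb : K ≤ ∑ j, b j := by
        have hη' : ∑ j : Fin n, (1 + η (e (.inl j))) ≤ (n : ℝ) + 2 * M := by
          rw [Finset.sum_add_distrib]
          have : ∑ j : Fin n, η (e (.inl j)) ≤ ∑ i, η i := by
            rw [hsplit]
            linarith [Finset.sum_nonneg fun a (_ : a ∈ Finset.univ) => hη0 (e (Sum.inr (α := Fin n) a))]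
          simp; linarith
        have h := Finset.sum_mul_sq_le_sq_mul_sq Finset.univ
          (fun j : Fin n => Real.sqrt (1 + η (e (.inl j))))
          (fun j => 1 / Real.sqrt (1 + η (e (.inl j))))
        have hp : ∀ j : Fin n, 0 < 1 + η (e (.inl j)) := fun j => by
          linarith [hη0 (e (.inl j))]
        simp only [mul_one_div, div_self (Real.sqrt_pos.2 (hp _)).ne', Finset.sum_const,
          Finset.card_univ, Fintype.card_fin, nsmul_eq_mul, mul_one, Real.sq_sqrt (hp _).le,
          div_pow, one_pow] at h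
        rw [hKdef, div_le_iff₀ (by positivity)]
        refine h.trans ?_
        rw [mul_comm]
        exact mul_le_mul_of_nonneg_left hη' (Finset.sum_nonneg fun j _ => hb0 j)
      unfold chiStarIntegrand
      refine le_trans ?_ (EReal.sub_le_sub le_rfl (EReal.coe_ennreal_le_coe_ennreal_iff.2 hfis))
      rw [EReal.coe_ennreal_ofReal, max_eq_left (add_nonneg
        (Finset.sum_nonneg fun j _ => by have := hb0 j; positivity) (by positivity)),
        ← EReal.coe_sub]
      refine EReal.coe_le_coe_iff.2 ?_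
      have hterm : ∀ j, b j / (2 + t) ^ 2 ≤ 1 / (1 + t) - 1 / (1 + t + b j) := fun j => by
        have := hb0 j; have := hb1 j
        rw [div_sub_div _ _ (by linarith) (by linarith), div_le_div_iff₀ (by positivity)
          (by positivity)]
        nlinarith [mul_le_mul_of_nonneg_left (show (1 + t) * (1 + t + b j) ≤ (2 + t) ^ 2 by nlinarith)
          (hb0 j)]
      have hG : gainFun K t ≤ ∑ j : Fin n, (1 / (1 + t) - 1 / (1 + t + b j)) := by
        refine le_trans ?_ (Finset.sum_le_sum fun j _ => hterm j)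
        rw [← Finset.sum_div, gainFun]
        exact div_le_div_of_nonneg_right hsumb (by positivity)
      rw [Finset.sum_sub_distrib] at hG
      simp only [Finset.sum_const, Finset.card_univ, Fintype.card_fin, nsmul_eq_mul] at hG ⊢
      rw [show ((n + 3 : ℕ) : ℝ) / (1 + t) = (n : ℝ) * (1 / (1 + t)) + 3 * (1 / (1 + t)) by
        push_cast; ring]
      simp only [lossFun]
      push_cast at *
      linarith
  -- `χ* < ⊤`
  · refine chiStar_lt_top fun t ht => ?_
    rw [hS (Fin (n + 3)) G x σ t (fun i => (hx i).1) ht.le]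
    refine le_trans ?_ (Finset.sum_le_sum fun i _ => le_fisherCoord hxinj hx i)
    rw [← ENNReal.ofReal_sum_of_nonneg fun i _ => by positivity]
    refine ENNReal.ofReal_le_ofReal ?_
    calc (Fintype.card (Fin (n + 3)) : ℝ) / (2 + t) = ∑ _i : Fin (n + 3), 1 / (2 + t) := by
          simp; ring
      _ ≤ _ := Finset.sum_le_sum fun i _ => by
          refine one_div_le_one_div_of_le (by positivity) ?_
          rw [Real.sq_sqrt (by positivity)]
          linarith [hσ1 i]

end Vale.Agent.P087
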