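import Vale.Agent.P087.Cyclic

/-!
Smoothing: adding an independent semicircular tuple adds the variances.
-/

namespace Vale.Agent.P087

variable {α β : Type}

/-- Linear extension of `F` along a substitution of linear combinations of letters. -/
noncomputable def expandW (sub : α → List (ℂ × β)) : (List β → ℂ) → List α → ℂ
  | F, [] => F []
  | F, a :: u => ((sub a).map fun p => p.1 * expandW sub (fun w => F (p.2 :: w)) u).sum

variable (sub : α → List (ℂ × β))

theorem list_sum_congr {γ : Type} {L : List γ} {f g : γ → ℂ} (h : ∀ p, f p = g p) :
    (L.map f).sum = (L.map g).sum := by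
  rw [funext h]

theorem expandW_congr {F G : List β → ℂ} (u : List α) (h : ∀ w, F w = G w) :
    expandW sub F u = expandW sub G u := by rw [funext h]

theorem expandW_add (u : List α) : ∀ F G : List β → ℂ,
    expandW sub (fun w => F w + G w) u = expandW sub F u + expandW sub G u := by
  induction u with
  | nil => intro F G; rfl
  | cons a u ih =>
    intro F G
    simp only [expandW]
    rw [← List.sum_map_add]
    exact list_sum_congr fun p => by rw [ih]; ring

theorem expandW_mul (r : ℂ) (u : List α) : ∀ F : List β → ℂ,
    expandW sub (fun w => r * F w) u = r * expandW sub F u := by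
  induction u with
  | nil => intro F; rfl
  | cons a u ih =>
    intro F
    simp only [expandW, ih]
    rw [← List.sum_map_mul_left]
    exact list_sum_congr fun p => by ring

theorem expandW_zero (u : List α) : expandW sub (fun _ => (0 : ℂ)) u = 0 := by
  simpa using expandW_mul sub 0 u fun _ => 0

theorem expandW_append (u v : List α) : ∀ F : List β → ℂ,
    expandW sub F (u ++ v) = expandW sub (fun a => expandW sub (fun b => F (a ++ b)) v) u := by
  induction u with
  | nil => intro F; rfl
  | cons a u ih => intro F; simp only [List.cons_append, expandW, ih]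

theorem expandW_sum {γ : Type} (u : List α) (L : List γ) (F : γ → List β → ℂ) :
    expandW sub (fun w => (L.map fun p => F p w).sum) u
      = (L.map fun p => expandW sub (F p) u).sum := by
  induction L with
  | nil => simp [expandW_zero]
  | cons p L ih => simp [expandW_add, ih]

theorem expandW_swap (v : List α) : ∀ (u : List α) (H : List β → List β → ℂ),
    expandW sub (fun a => expandW sub (H a) v) u
      = expandW sub (fun b => expandW sub (fun a => H a b) u) v := by
  intro u
  induction u with
  | nil => intro H; rfl
  | cons a u ih =>
    intro H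
    simp only [expandW]
    rw [expandW_sum]
    exact list_sum_congr fun p => by
      rw [ih fun x => H (p.2 :: x), expandW_mul]

variable [DecidableEq β]

/-- Cuts at a letter commute with the substitution. -/
theorem expandW_cuts (b₀ : β) : ∀ (u : List α) (F G : List β → ℂ),
    expandW sub (fun w => sumCuts w fun x b y => if b = b₀ then F x * G y else 0) u
      = sumCuts u fun x a y => ((sub a).map fun p => if p.2 = b₀ then p.1 else 0).sum *
          (expandW sub F x * expandW sub G y) := by
  intro u
  induction u with
  | nil => intro F G; rfl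
  | cons a u ih =>
    intro F G
    simp only [expandW, sumCuts_cons]
    rw [← List.sum_map_mul_right]
    have hs : ∀ p : ℂ × β, p.1 * expandW sub (fun w => (if p.2 = b₀ then F [] * G w else 0) +
          sumCuts w fun x b y => if b = b₀ then F (p.2 :: x) * G y else 0) u
        = (if p.2 = b₀ then p.1 else 0) * (F [] * expandW sub G u) +
          sumCuts u fun x a' y => ((sub a').map fun q => if q.2 = b₀ then q.1 else 0).sum *
            ((p.1 * expandW sub (fun w => F (p.2 :: w)) x) * expandW sub G y) := fun p => by
      rw [expandW_add, ih, mul_add, ← sumCuts_mul]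
      refine congrArg₂ (· + ·) ?_ (sumCuts_congr fun x a' y _ => by ring)
      split_ifs
      · rw [expandW_mul]
      · rw [expandW_zero]; simp
    rw [list_sum_congr hs, List.sum_map_add]
    congr 1
    induction sub a with
    | nil => simp [sumCuts]
    | cons p L ihL =>
      simp only [List.map_cons, List.sum_cons, ihL]
      rw [← sumCuts_add]
      exact sumCuts_congr fun x a' y _ => by ring

omit [DecidableEq β]

section Gen

variable {I : Type} (m : List I → ℂ) (σ : I → ℝ) (t : ℝ)

/-- Two families of colours for the semicircular letters. -/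
def liftLaw (v : List (I ⊕ I)) : ℂ := m (v.map (Sum.elim id id))

/-- `X_i + σ_i S_i` and `S'_i` in terms of `X, S, S'`. -/
noncomputable def subW : I ⊕ I → List (ℂ × ((I ⊕ I) ⊕ (I ⊕ I)))
  | Sum.inl i => [(1, Sum.inl (Sum.inl i)), ((σ i : ℂ), Sum.inr (Sum.inl i))]
  | Sum.inr i => [(1, Sum.inr (Sum.inr i))]

/-- `Z_i + √t S'_i`. -/
noncomputable def subT (i : I) : List (ℂ × (I ⊕ I)) :=
  [(1, Sum.inl i), ((Real.sqrt t : ℂ), Sum.inr i)]

/-- `τ (X^v W^u)` for `W = (X + σ S, S')`. -/
noncomputable def wMom (v : List I) (u : List (I ⊕ I)) : ℂ :=
  expandW (subW σ) (fun w => jointMoment (liftLaw m) ((v.map Sum.inl).map Sum.inl ++ w)) u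

variable {m} [DecidableEq I] (hm : ∀ a b, m (a ++ b) = m (b ++ a))
include hm

omit [DecidableEq I] in
theorem liftLaw_comm (a b : List (I ⊕ I)) : liftLaw m (a ++ b) = liftLaw m (b ++ a) := by
  simp only [liftLaw, List.map_append]; exact hm _ _

theorem wMom_nil (v : List I) : wMom m σ v [] = m v := by
  rw [wMom, expandW, List.append_nil, jointMoment_map]
  simp [liftLaw, Function.comp_def]

theorem wMom_comm (a b : List (I ⊕ I)) : wMom m σ [] (a ++ b) = wMom m σ [] (b ++ a) := by
  simp only [wMom, List.map_nil, List.nil_append, expandW_append]
  rw [expandW_swap]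
  exact expandW_congr _ _ fun x => expandW_congr _ _ fun y =>
    jointMoment_comm (liftLaw_comm hm) y x

/-- A leading semicircular letter. -/
theorem expand_S (c : I ⊕ I) (v : List I) (u : List (I ⊕ I)) :
    expandW (subW σ) (fun w => jointMoment (liftLaw m)
        ((v.map Sum.inl).map Sum.inl ++ Sum.inr c :: w)) u
      = sumCuts u fun x a y => ((subW σ a).map fun p => if p.2 = Sum.inr c then p.1 else 0).sum *
          (wMom m σ [] x * wMom m σ v y) := by
  simp only [wMom, List.map_nil, List.nil_append]
  rw [← expandW_cuts]
  refine expandW_congr _ _ fun w => ?_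
  rw [jointMoment_first, sumCuts_append, sumCuts_map_inl, add_zero]
  exact sumCuts_congr fun x b y _ => by rw [jointMoment_comm (liftLaw_comm hm) y]

theorem wMom_inr (v : List I) (k : I) (u : List (I ⊕ I)) :
    wMom m σ v (Sum.inr k :: u) = sumCuts u fun x a y =>
      if a = Sum.inr k then wMom m σ [] x * wMom m σ v y else 0 := by
  conv_lhs => rw [wMom]
  simp only [expandW, subW, List.map_cons, List.map_nil, List.sum_cons, List.sum_nil, one_mul,
    add_zero]
  rw [expand_S σ hm]
  refine sumCuts_congr fun x a y _ => ?_
  rcases a with i | i <;> simp [subW]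

theorem wMom_inl (v : List I) (k : I) (u : List (I ⊕ I)) :
    wMom m σ v (Sum.inl k :: u) = wMom m σ (v ++ [k]) u +
      (σ k : ℂ) ^ 2 * sumCuts u fun x a y =>
        if a = Sum.inl k then wMom m σ [] x * wMom m σ v y else 0 := by
  conv_lhs => rw [wMom]
  simp only [expandW, subW, List.map_cons, List.map_nil, List.sum_cons, List.sum_nil, one_mul,
    add_zero]
  rw [expand_S σ hm, ← sumCuts_mul, ← sumCuts_mul]
  congr 1
  · simp [wMom]
  · refine sumCuts_congr fun x a y _ => ?_
    rcases a with i | i
    · by_cases h : i = k
      · subst h; simp [subW]; ring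
      · simp [subW, h]
    · simp [subW]

theorem wMom_map : ∀ (u v : List I), wMom m σ v (u.map Sum.inl) = tMom m σ v u := by
  intro u
  induction hn : u.length using Nat.strong_induction_on generalizing u with
  | _ N IH =>
    intro v
    cases u with
    | nil => rw [List.map_nil, wMom_nil σ hm, tMom_nil]
    | cons k u =>
      simp only [List.length_cons] at hn
      rw [List.map_cons, wMom_inl σ hm, tMom_cons, IH u.length (by omega) u rfl (v ++ [k])]
      congr 2
      rw [sumCuts, sumCuts_aux u]
      refine congrArg List.sum (List.map_congr_left fun c hc => ?_)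
      have hl := length_of_mem_cuts hc
      simp only [Sum.inl.injEq]
      rw [IH c.1.length (by omega) c.1 rfl [], IH c.2.2.length (by omega) c.2.2 rfl v]
where
  sumCuts_aux {f : List (I ⊕ I) × (I ⊕ I) × List (I ⊕ I) → ℂ} : ∀ u : List I,
      ((cuts (u.map Sum.inl)).map f).sum
        = ((cuts u).map fun c => f (c.1.map Sum.inl, Sum.inl c.2.1, c.2.2.map Sum.inl)).sum := by
    intro u
    have h : cuts (u.map (Sum.inl : I → I ⊕ I))
        = (cuts u).map fun c => (c.1.map Sum.inl, Sum.inl c.2.1, c.2.2.map Sum.inl) := by
      induction u with
      | nil => rfl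
      | cons a u ih => simp [cuts, ih, Function.comp_def]
    rw [h, List.map_map]
    rfl

theorem jointMoment_eq_wMom : ∀ w : List (I ⊕ I),
    jointMoment (tMom m σ []) w = wMom m σ [] w := by
  intro w
  induction hn : w.length using Nat.strong_induction_on generalizing w with
  | _ N IH =>
    rcases word_cases w with ⟨v, rfl⟩ | ⟨v, i, u, rfl⟩
    · rw [jointMoment_map, wMom_map σ hm]
    · simp only [List.length_append, List.length_map, List.length_cons] at hn
      rw [jointMoment_first, wMom_comm σ hm (v.map Sum.inl) (Sum.inr i :: u), List.cons_append,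
        wMom_inr σ hm]
      refine sumCuts_congr fun x b y he => ?_
      have hl := congrArg List.length he
      simp only [List.length_append, List.length_map, List.length_cons] at hl
      rw [IH x.length (by omega) x rfl, IH y.length (by omega) y rfl]

theorem expand_wMom (ht : 0 ≤ t) : ∀ (u v : List I), expandW (subT t) (wMom m σ v) u
    = tMom m (fun i => Real.sqrt (σ i ^ 2 + t)) v u := by
  intro u
  induction hn : u.length using Nat.strong_induction_on generalizing u with
  | _ N IH =>
    intro v
    cases u with
    | nil => rw [expandW, wMom_nil σ hm, tMom_nil]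
    | cons k u =>
      simp only [List.length_cons] at hn
      rw [tMom_cons]
      simp only [expandW, subT, List.map_cons, List.map_nil, List.sum_cons, List.sum_nil, one_mul,
        add_zero, wMom_inl σ hm, wMom_inr σ hm, expandW_add, expandW_mul, expandW_cuts]
      rw [IH u.length (by omega) u rfl (v ++ [k]), add_assoc, ← sumCuts_mul, ← sumCuts_mul,
        ← sumCuts_add]
      congr 1
      rw [show ((cuts u).map fun c => if c.2.1 = k then
          tMom m (fun i => Real.sqrt (σ i ^ 2 + t)) [] c.1 *
            tMom m (fun i => Real.sqrt (σ i ^ 2 + t)) v c.2.2 else 0).sum = sumCuts u fun x b y =>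
          if b = k then tMom m (fun i => Real.sqrt (σ i ^ 2 + t)) [] x *
            tMom m (fun i => Real.sqrt (σ i ^ 2 + t)) v y else 0 from rfl, ← sumCuts_mul]
      refine sumCuts_congr fun x a y he => ?_
      have hl := congrArg List.length he
      simp only [List.length_append, List.length_cons] at hl
      rw [IH x.length (by omega) x rfl [], IH y.length (by omega) y rfl v]
      by_cases h : a = k
      · subst h
        have h1 : ((Real.sqrt (σ a ^ 2 + t) : ℂ)) ^ 2 = (σ a : ℂ) ^ 2 + (t : ℂ) := by
          rw [← Complex.ofReal_pow, Real.sq_sqrt (by positivity)]; push_cast; ring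
        have h2 : (Real.sqrt t : ℂ) * (Real.sqrt t : ℂ) = (t : ℂ) := by
          rw [← Complex.ofReal_mul, Real.mul_self_sqrt ht]
        simp [h1]
        rw [← mul_assoc (Real.sqrt t : ℂ), h2]
        ring
      · simp [h]

end Gen

theorem smoothAux_eq {I : Type} (μ : List I → ℂ) (t : ℝ) : ∀ (w : List I) (acc : List (I ⊕ I)),
    smoothAux μ t acc w = expandW (subT t) (fun z => jointMoment μ (acc ++ z)) w := by
  intro w
  induction w with
  | nil => intro acc; simp [smoothAux, expandW]
  | cons i w ih => intro acc; simp [smoothAux, expandW, subT, ih]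

theorem grpMom_comm {I G : Type} [Group G] (x : I → G) (a b : List I) :
    grpMom x (a ++ b) = grpMom x (b ++ a) := by
  simp only [grpMom, List.map_append, List.prod_append]
  split_ifs <;> first | rfl | simp_all [mul_eq_one_comm]

theorem smoothStmt : SmoothStmt := by
  intro I G _ _ _ x σ t _ ht
  funext w
  rw [smoothMoment, smoothAux_eq, ← expand_wMom σ t (grpMom_comm x) ht w []]
  exact expandW_congr _ _ fun z => by rw [List.nil_append, jointMoment_eq_wMom σ (grpMom_comm x)]

end Vale.Agent.P087
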