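import Vale.Agent.P087.Interfaces

/-!
Upper bound for `χ` when some coordinates are nearly words in the others (P087).
-/

namespace Vale.Agent.P087.Upper

open MeasureTheory Filter
open scoped ENNReal Matrix Topology

/-- Gaussian bound for the volume of a Euclidean ball. -/
lemma gauss_ball {ι : Type*} [Fintype ι] {B : ℝ} (hB : 0 < B) :
    volume {x : ι → ℝ | ∑ i, x i ^ 2 ≤ B * Fintype.card ι} ≤
      ENNReal.ofReal
        (Real.exp ((Fintype.card ι : ℝ) / 2 * Real.log (2 * Real.pi * Real.exp 1 * B))) := by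
  set D : ℝ := (Fintype.card ι : ℝ) with hD
  set s : ℝ := 1 / (2 * B) with hsdef
  have hs : 0 < s := by positivity
  have hi : Integrable (fun x : ι → ℝ => ∏ i, Real.exp (-s * x i ^ 2)) :=
    Integrable.fintype_prod fun _ => integrable_exp_neg_mul_sq hs
  have hI : ∫ x : ι → ℝ, ∏ i, Real.exp (-s * x i ^ 2) = Real.sqrt (Real.pi / s) ^ Fintype.card ι := by
    rw [integral_fintype_prod_volume_eq_pow (fun t : ℝ => Real.exp (-s * t ^ 2)), integral_gaussian]
  have hsub : {x : ι → ℝ | ∑ i, x i ^ 2 ≤ B * D} ⊆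
      {x : ι → ℝ | Real.exp (-(D / 2)) ≤ ∏ i, Real.exp (-s * x i ^ 2)} := by
    intro x hx
    have hx' : s * ∑ i, x i ^ 2 ≤ D / 2 := by
      have h := mul_le_mul_of_nonneg_left (show ∑ i, x i ^ 2 ≤ B * D from hx) hs.le
      have he : s * (B * D) = D / 2 := by rw [hsdef]; field_simp
      linarith
    show Real.exp (-(D / 2)) ≤ ∏ i, Real.exp (-s * x i ^ 2)
    rw [← Real.exp_sum, Real.exp_le_exp, ← Finset.mul_sum]
    linarith
  have hmk := mul_meas_ge_le_integral_of_nonneg
    (μ := (volume : Measure (ι → ℝ)))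
    (Eventually.of_forall fun x => Finset.prod_nonneg fun i _ => (Real.exp_pos _).le) hi
    (Real.exp (-(D / 2)))
  rw [hI] at hmk
  have hfin : volume {x : ι → ℝ | Real.exp (-(D / 2)) ≤ ∏ i, Real.exp (-s * x i ^ 2)} < ⊤ :=
    hi.measure_ge_lt_top (Real.exp_pos _)
  refine le_trans (measure_mono hsub) ?_
  rw [← ENNReal.ofReal_toReal hfin.ne]
  refine ENNReal.ofReal_le_ofReal ?_
  change Measure.real _ _ ≤ _
  have hp : 0 < Real.pi / s := div_pos Real.pi_pos hs
  have h1 : Real.sqrt (Real.pi / s) ^ Fintype.card ι =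
      Real.exp (D / 2 * Real.log (Real.pi / s)) := by
    rw [← Real.exp_log (pow_pos (Real.sqrt_pos.2 hp) _), Real.log_pow, Real.log_sqrt hp.le, hD]
    ring_nf
  have h2 : Real.log (2 * Real.pi * Real.exp 1 * B) = 1 + Real.log (Real.pi / s) := by
    have : 2 * Real.pi * Real.exp 1 * B = Real.exp 1 * (Real.pi / s) := by
      rw [hsdef]; field_simp
    rw [this, Real.log_mul (Real.exp_pos 1).ne' hp.ne', Real.log_exp]
  rw [h1] at hmk
  rw [h2, mul_add, mul_one, Real.exp_add]
  rw [Real.exp_neg, inv_mul_le_iff₀ (Real.exp_pos _)] at hmk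
  rw [Real.exp_neg]
  exact hmk

/-- Coordinates of the self-adjoint part of a matrix. -/
noncomputable def coordOf {k : ℕ} (W : Matrix (Fin k) (Fin k) ℂ) (q : Fin k × Fin k) : ℝ :=
  ((W q.1 q.2).re + (W q.2 q.1).re) / 2 + ((W q.1 q.2).im - (W q.2 q.1).im) / 2

lemma trace_star_mul_re {k : ℕ} (D : Matrix (Fin k) (Fin k) ℂ) :
    (Matrix.trace (Dᴴ * D)).re = ∑ a, ∑ b, ((D a b).re ^ 2 + (D a b).im ^ 2) := by
  simp only [Matrix.trace, Matrix.diag_apply, Matrix.mul_apply, Complex.re_sum,
    Matrix.conjTranspose_apply]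
  rw [Finset.sum_comm]
  refine Finset.sum_congr rfl fun a _ => Finset.sum_congr rfl fun b _ => ?_
  simp [Complex.mul_re, sq]

lemma sum_sym_add_antisym_sq {κ : Type*} [Fintype κ] (u v : κ → κ → ℝ) :
    ∑ a, ∑ b, ((u a b + u b a) / 2 + (v a b - v b a) / 2) ^ 2 ≤
      ∑ a, ∑ b, (u a b ^ 2 + v a b ^ 2) := by
  have hc : ∑ a, ∑ b, (u a b + u b a) * (v a b - v b a) = 0 := by
    have h : ∀ f : κ → κ → ℝ, ∑ a, ∑ b, f b a = ∑ a, ∑ b, f a b := fun f => Finset.sum_comm
    have h1 := h fun a b => u a b * v a b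
    have h2 := h fun a b => u b a * v a b
    simp only [add_mul, mul_sub, Finset.sum_add_distrib, Finset.sum_sub_distrib] at h1 h2 ⊢
    linarith
  have hle : ∀ a b, ((u a b + u b a) / 2 + (v a b - v b a) / 2) ^ 2 ≤
      (u a b ^ 2 + v a b ^ 2) / 2 + (u b a ^ 2 + v b a ^ 2) / 2 +
        (u a b + u b a) * (v a b - v b a) / 2 := by
    intro a b
    nlinarith [sq_nonneg (u a b - u b a), sq_nonneg (v a b + v b a)]
  refine le_trans (Finset.sum_le_sum fun a _ => Finset.sum_le_sum fun b _ => hle a b) (le_of_eq ?_)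
  simp only [Finset.sum_add_distrib, ← Finset.sum_div, hc, zero_div, add_zero]
  rw [Finset.sum_comm (f := fun a b => u b a ^ 2), Finset.sum_comm (f := fun a b => v b a ^ 2)]
  ring

lemma herm_conjTranspose {k : ℕ} (x : Fin k × Fin k → ℝ) : (herm x)ᴴ = herm x := by
  ext a b
  apply Complex.ext <;> simp [herm] <;> ring

/-- The coordinates are no further from those of the self-adjoint part of `W` than `herm x`
is from `W`. -/
lemma dist_le {k : ℕ} (x : Fin k × Fin k → ℝ) (W : Matrix (Fin k) (Fin k) ℂ) :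
    ∑ q, (x q - coordOf W q) ^ 2 ≤
      (Matrix.trace ((herm x - W)ᴴ * (herm x - W))).re := by
  rw [trace_star_mul_re, Fintype.sum_prod_type]
  refine le_trans (le_of_eq ?_) (sum_sym_add_antisym_sq (fun a b => ((herm x - W) a b).re)
    (fun a b => ((herm x - W) a b).im))
  refine Finset.sum_congr rfl fun a _ => Finset.sum_congr rfl fun b _ => ?_
  simp [coordOf, herm]
  ring

lemma continuous_herm {k : ℕ} : Continuous (herm (k := k)) := by
  unfold herm
  fun_prop

/-- The shear: coordinates of the self-adjoint part of the words in the roots. -/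
noncomputable def shift {n p k : ℕ} (g : Fin n → List (Fin p))
    (z : Fin p × Fin k × Fin k → ℝ) (q : Fin n × Fin k × Fin k) : ℝ :=
  coordOf ((g q.1).map fun i => herm fun r => z (i, r)).prod q.2

lemma continuous_shift {n p k : ℕ} (g : Fin n → List (Fin p)) :
    Continuous (shift (k := k) g) := by
  refine continuous_pi fun q => ?_
  have hW : Continuous fun z : Fin p × Fin k × Fin k → ℝ =>
      ((g q.1).map fun i => herm fun r => z (i, r)).prod :=
    continuous_list_prod _ fun i _ => continuous_herm.comp (by fun_prop)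
  unfold shift coordOf
  fun_prop

/-- A set all of whose fibres over a ball lie in translated balls. -/
lemma volume_shear_le {α β : Type*} [Fintype α] [Fintype β] (c : (β → ℝ) → α → ℝ)
    (hc : Continuous c) (A B : ℝ) :
    (volume : Measure ((α → ℝ) × (β → ℝ)))
        {q | ∑ i, q.2 i ^ 2 ≤ B ∧ ∑ i, (q.1 i - c q.2 i) ^ 2 ≤ A} ≤
      volume {x : α → ℝ | ∑ i, x i ^ 2 ≤ A} * volume {z : β → ℝ | ∑ i, z i ^ 2 ≤ B} := by
  set S : Set ((α → ℝ) × (β → ℝ)) := {q | ∑ i, q.2 i ^ 2 ≤ B ∧ ∑ i, (q.1 i - c q.2 i) ^ 2 ≤ A}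
  have hS : MeasurableSet S :=
    (IsClosed.inter
      (isClosed_le (f := fun q : (α → ℝ) × (β → ℝ) => ∑ i, q.2 i ^ 2) (g := fun _ => B)
        (by fun_prop) continuous_const)
      (isClosed_le (f := fun q : (α → ℝ) × (β → ℝ) => ∑ i, (q.1 i - c q.2 i) ^ 2) (g := fun _ => A)
        (by fun_prop) continuous_const)).measurableSet
  have hB : MeasurableSet {z : β → ℝ | ∑ i, z i ^ 2 ≤ B} :=
    (isClosed_le (by fun_prop) continuous_const).measurableSet
  rw [Measure.volume_eq_prod, Measure.prod_apply_symm hS]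
  calc ∫⁻ z, volume ((fun x => (x, z)) ⁻¹' S)
      ≤ ∫⁻ z, {z : β → ℝ | ∑ i, z i ^ 2 ≤ B}.indicator
          (fun _ => volume {x : α → ℝ | ∑ i, x i ^ 2 ≤ A}) z := by
        refine lintegral_mono fun z => ?_
        by_cases hz : ∑ i, z i ^ 2 ≤ B
        · rw [Set.indicator_of_mem (show z ∈ {z : β → ℝ | ∑ i, z i ^ 2 ≤ B} from hz)]
          refine le_trans (measure_mono ?_) (le_of_eq (measure_preimage_add_right
            (volume : Measure (α → ℝ)) (-(c z)) {x : α → ℝ | ∑ i, x i ^ 2 ≤ A}))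
          intro x hx
          simpa [← sub_eq_add_neg] using hx.2
        · rw [Set.indicator_of_notMem (show z ∉ {z : β → ℝ | ∑ i, z i ^ 2 ≤ B} from hz)]
          refine le_of_eq (measure_mono_null ?_ measure_empty)
          intro x hx
          exact (hz hx.1).elim
    _ = _ := lintegral_indicator_const hB _

variable {I : Type} [Fintype I]

/-- Volume of the microstates. -/
lemma volume_Gamma_le {n p k : ℕ} (hk : 1 ≤ k) (e : Fin n ⊕ Fin p ≃ I) (μ : List I → ℂ)
    (hμ : μ [] = 1) (g : Fin n → List (Fin p)) {ν ρ ε : ℝ} (hν : 0 < ν) (hρ : 0 < ρ)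
    (hε : 0 < ε)
    (hg : ∀ j, (μ [e (.inl j), e (.inl j)] - μ (e (.inl j) :: (g j).map (e ∘ .inr))
        - μ ((g j).reverse.map (e ∘ .inr) ++ [e (.inl j)])
        + μ ((g j).reverse.map (e ∘ .inr) ++ (g j).map (e ∘ .inr))).re + 4 * ε ≤ ν)
    (ha : ∀ a, (μ [e (.inr a), e (.inr a)]).re + ε ≤ ρ)
    {R : ℝ} {m : ℕ} (hm2 : 2 ≤ m) (hm : ∀ j, 2 * (g j).length + 1 ≤ m) :
    volume (Gamma μ R m k ε) ≤ ENNReal.ofReal (Real.exp
      ((n * k ^ 2 : ℝ) / 2 * Real.log (2 * Real.pi * Real.exp 1 * (ν / k)) +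
        (p * k ^ 2 : ℝ) / 2 * Real.log (2 * Real.pi * Real.exp 1 * (ρ / k)))) := by
  have hk0 : (k : ℝ) ≠ 0 := by positivity
  have hkC : (k : ℂ) ≠ 0 := by exact_mod_cast hk0
  set E : (Fin n × Fin k × Fin k) ⊕ (Fin p × Fin k × Fin k) ≃ I × Fin k × Fin k :=
    (Equiv.sumProdDistrib _ _ _).symm.trans (e.prodCongr (Equiv.refl _)) with hEdef
  set Φ : Coord I k → (Fin n × Fin k × Fin k → ℝ) × (Fin p × Fin k × Fin k → ℝ) :=
    fun x => (fun q => x (e (.inl q.1), q.2), fun q => x (e (.inr q.1), q.2)) with hΦdef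
  have hΦ : MeasurePreserving Φ volume volume := by
    have h1 := (volume_measurePreserving_piCongrLeft (fun _ => ℝ) E).symm
      (MeasurableEquiv.piCongrLeft (fun _ => ℝ) E)
    have h2 := volume_measurePreserving_sumPiEquivProdPi
      (fun _ : (Fin n × Fin k × Fin k) ⊕ (Fin p × Fin k × Fin k) => ℝ)
    exact h2.comp h1
  -- moments of a microstate
  have hmom : ∀ x ∈ Gamma μ R m k ε, ∀ w : List I, w.length ≤ m →
      (Matrix.trace (w.map (mat x)).prod).re ≤ k * ((μ w).re + ε) ∧
      k * ((μ w).re - ε) ≤ (Matrix.trace (w.map (mat x)).prod).re := by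
    intro x hx w hw
    have hb : ‖trk (w.map (mat x)).prod - μ w‖ ≤ ε := by
      rcases Nat.eq_zero_or_pos w.length with h0 | h0
      · rw [List.length_eq_zero_iff.1 h0, hμ]
        simp [trk, Matrix.trace_one, hkC, hε.le]
      · exact (hx.2 w h0 hw).le
    have hr := abs_le.1 (le_trans (Complex.abs_re_le_norm _) hb)
    have ht : (Matrix.trace (w.map (mat x)).prod).re = k * (trk (w.map (mat x)).prod).re := by
      have : Matrix.trace (w.map (mat x)).prod = (k : ℂ) * trk (w.map (mat x)).prod := by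
        rw [trk, ← mul_assoc, mul_inv_cancel₀ hkC, one_mul]
      rw [this]; simp
    rw [ht]
    rw [Complex.sub_re] at hr
    exact ⟨mul_le_mul_of_nonneg_left (by linarith [hr.2]) (by positivity),
      mul_le_mul_of_nonneg_left (by linarith [hr.1]) (by positivity)⟩
  have hsub : Gamma μ R m k ε ⊆ Φ ⁻¹' {q | ∑ i, q.2 i ^ 2 ≤ (ρ / k) * (p * k ^ 2 : ℝ) ∧
      ∑ i, (q.1 i - shift g q.2 i) ^ 2 ≤ (ν / k) * (n * k ^ 2 : ℝ)} := by
    intro x hx
    have hρk : (ρ / k) * (p * k ^ 2 : ℝ) = ∑ _a : Fin p, k * ρ := by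
      simp; field_simp
    have hνk : (ν / k) * (n * k ^ 2 : ℝ) = ∑ _j : Fin n, k * ν := by
      simp; field_simp
    refine ⟨?_, ?_⟩
    · rw [hρk, Fintype.sum_prod_type]
      refine Finset.sum_le_sum fun a _ => ?_
      have hd := dist_le (fun r => x (e (.inr a), r)) 0
      have h2 := (hmom x hx [e (.inr a), e (.inr a)] (by simpa using hm2)).1
      simp only [List.map_cons, List.map_nil, List.prod_cons, List.prod_nil, mul_one] at h2
      simp [coordOf, herm_conjTranspose] at hd
      refine le_trans hd (le_trans h2 (mul_le_mul_of_nonneg_left (ha a) (by positivity)))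
    · rw [hνk, Fintype.sum_prod_type]
      refine Finset.sum_le_sum fun j _ => ?_
      set f : Fin p → I := e ∘ Sum.inr with hf
      set W := (((g j).map f).map (mat x)).prod with hW
      have hWs : Wᴴ = (((g j).reverse.map f).map (mat x)).prod := by
        rw [hW, Matrix.conjTranspose_list_prod, List.map_map, List.map_map, List.map_map,
          ← List.map_reverse]
        refine congrArg List.prod (List.map_congr_left fun i _ => ?_)
        exact herm_conjTranspose _
      have hd := dist_le (fun r => x (e (.inl j), r)) W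
      have hlhs : ∀ q, shift g (Φ x).2 (j, q) = coordOf W q := by
        intro q
        rw [hW, List.map_map]
        rfl
      simp only [hlhs]
      refine le_trans hd ?_
      have hA : herm (fun r => x (e (.inl j), r)) = mat x (e (.inl j)) := rfl
      rw [hA, Matrix.conjTranspose_sub, show (mat x (e (.inl j)))ᴴ = mat x (e (.inl j)) from
        herm_conjTranspose _, sub_mul, mul_sub, mul_sub]
      simp only [Matrix.trace_sub, Complex.sub_re]
      have hl := hm j
      obtain ⟨u1, -⟩ := hmom x hx [e (.inl j), e (.inl j)] (by simpa using hm2)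
      obtain ⟨-, u2⟩ := hmom x hx (e (.inl j) :: (g j).map f) (by simp; omega)
      obtain ⟨-, u3⟩ := hmom x hx ((g j).reverse.map f ++ [e (.inl j)]) (by simp; omega)
      obtain ⟨u4, -⟩ := hmom x hx ((g j).reverse.map f ++ (g j).map f) (by simp; omega)
      simp only [List.map_cons, List.map_nil, List.prod_cons, List.prod_nil, mul_one,
        List.map_append, List.prod_append, ← hW, ← hWs] at u1 u2 u3 u4
      have hgj := mul_le_mul_of_nonneg_left (hg j) (show (0 : ℝ) ≤ k by positivity)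
      simp only [Complex.add_re, Complex.sub_re] at hgj
      linarith
  refine le_trans (measure_mono hsub) ?_
  rw [hΦ.measure_preimage ?_]
  · refine le_trans (volume_shear_le _ (continuous_shift g) _ _) ?_
    have h1 := gauss_ball (ι := Fin n × Fin k × Fin k) (B := ν / k) (by positivity)
    have h2 := gauss_ball (ι := Fin p × Fin k × Fin k) (B := ρ / k) (by positivity)
    simp only [Fintype.card_prod, Fintype.card_fin, Nat.cast_mul, ← sq] at h1 h2
    simp only [Nat.cast_pow] at h1 h2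
    rw [Real.exp_add, ENNReal.ofReal_mul (Real.exp_pos _).le]
    exact mul_le_mul' h1 h2
  · have hc := continuous_shift (k := k) g
    exact ((IsClosed.inter
      (isClosed_le (f := fun q : (Fin n × Fin k × Fin k → ℝ) × (Fin p × Fin k × Fin k → ℝ) =>
          ∑ i, q.2 i ^ 2) (g := fun _ => _) (by fun_prop) continuous_const)
      (isClosed_le (f := fun q : (Fin n × Fin k × Fin k → ℝ) × (Fin p × Fin k × Fin k → ℝ) =>
          ∑ i, (q.1 i - shift g q.2 i) ^ 2) (g := fun _ => _) (by fun_prop) continuous_const)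
      ).measurableSet).nullMeasurableSet

/-- If `n` coordinates are nearly words in the other `p` then `χ` is small. -/
theorem upper_of_unit {I : Type} [Fintype I] (n p : ℕ) (e : Fin n ⊕ Fin p ≃ I) (μ : List I → ℂ)
    (g : Fin n → List (Fin p)) (ν ρ : ℝ) (hν : 0 < ν) (hρ : 0 < ρ) (hμ : μ [] = 1)
    (hg : ∀ j, (μ [e (.inl j), e (.inl j)] - μ (e (.inl j) :: (g j).map (e ∘ .inr))
        - μ ((g j).reverse.map (e ∘ .inr) ++ [e (.inl j)])
        + μ ((g j).reverse.map (e ∘ .inr) ++ (g j).map (e ∘ .inr))).re < ν)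
    (ha : ∀ a, (μ [e (.inr a), e (.inr a)]).re < ρ) :
    chi μ ≤ (((n : ℝ) / 2 * Real.log (2 * Real.pi * Real.exp 1 * ν) +
      (p : ℝ) / 2 * Real.log (2 * Real.pi * Real.exp 1 * ρ) : ℝ) : EReal) := by
  have hc : ∀ (c b d : ℝ), c < b → ∀ᶠ ε in 𝓝[>] (0 : ℝ), c + d * ε ≤ b := by
    intro c b d hcb
    have : Tendsto (fun ε : ℝ => c + d * ε) (𝓝[>] 0) (𝓝 c) :=
      ((show Continuous fun ε : ℝ => c + d * ε by fun_prop).tendsto' 0 c (by simp)).mono_left
        nhdsWithin_le_nhds
    exact (this.eventually (eventually_lt_nhds hcb)).mono fun _ h => h.le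
  obtain ⟨ε, ⟨h1, h2⟩, hε⟩ := (((eventually_all.2 fun j => hc _ _ 4 (hg j)).and
    (eventually_all.2 fun a => hc _ _ 1 (ha a))).and self_mem_nhdsWithin).exists
  set m := 2 + 2 * ∑ j, (g j).length with hmdef
  have hm : ∀ j, 2 * (g j).length + 1 ≤ m := by
    intro j
    have : (g j).length ≤ ∑ i, (g i).length :=
      Finset.single_le_sum (f := fun i => (g i).length) (fun i _ => Nat.zero_le _)
        (Finset.mem_univ j)
    omega
  have hcard : (Fintype.card I : ℝ) = n + p := by
    simp [← Fintype.card_congr e]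
  refine iSup₂_le fun R _ => iInf_le_of_le m (iInf_le_of_le ε (iInf_le_of_le hε ?_))
  refine Filter.limsup_le_of_le (h := eventually_atTop.2 ⟨1, fun k hk => ?_⟩)
  have hv := volume_Gamma_le (R := R) hk e μ hμ g hν hρ hε h1
    (fun a => by simpa using h2 a) (by omega) hm
  have hlog := ENNReal.log_monotone hv
  rw [ENNReal.log_ofReal_of_pos (Real.exp_pos _), Real.log_exp] at hlog
  refine le_trans (add_le_add_left
    (mul_le_mul_of_nonneg_left hlog (by positivity)) _) (le_of_eq ?_)
  rw [← EReal.coe_mul, ← EReal.coe_add, hcard]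
  congr 1
  have hk0 : (0 : ℝ) < k := by exact_mod_cast hk
  have hl : ∀ t : ℝ, 0 < t → Real.log (2 * Real.pi * Real.exp 1 * (t / k)) =
      Real.log (2 * Real.pi * Real.exp 1 * t) - Real.log k := by
    intro t ht
    rw [← mul_div_assoc, Real.log_div (by positivity) hk0.ne']
  rw [hl ν hν, hl ρ hρ]
  field_simp
  ring

end Vale.Agent.P087.Upper

namespace Vale.Agent.P087

/-- Upper: if `n` coordinates are nearly words in the other `p` then `χ` is small. -/
theorem upperStmt : UpperStmt :=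
  fun _ _ _ n p e μ g ν ρ hμ hν hρ hg ha => Upper.upper_of_unit n p e μ g ν ρ hν hρ hμ hg ha

end Vale.Agent.P087
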